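import Vale.Agent.P205.Full.Defs

/-!
# P205 full, TOPO: one corrugation step on an open subset of `ℝ²`

`φ` is a formal differential (two independent vectors at each point) of `g : T → ℝ³`. The step
adds a small fast oscillation `δ` to `g` along the direction `j`, so that the formal vector
`φ j + μ (∂ⱼg - φ j) + ∂ⱼδ` is still independent of `φ k + ∂ₖδ`. The loop
`c = (1 - 2 sin², sin)` has zero mean and never meets the closed negative first axis.
-/

open scoped ContDiff Matrix Topology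
open Set Filter Real

namespace Vale.Agent.P205.Full.Topo

/-- `ℝ³` as a plain function space (for the cross product). -/
abbrev V3 := Fin 3 → ℝ

/-- Partial derivative on `ℝ²`. -/
noncomputable def pd {E : Type*} [NormedAddCommGroup E] [NormedSpace ℝ E] (g : R2 → E)
    (k : Fin 2) (u : R2) : E :=
  fderiv ℝ g u (EuclideanSpace.single k 1)

lemma contDiff_cross {E : Type*} [NormedAddCommGroup E] [NormedSpace ℝ E] {s : Set E}
    {n : WithTop ℕ∞} {f g : E → V3} (hf : ContDiffOn ℝ n f s) (hg : ContDiffOn ℝ n g s) :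
    ContDiffOn ℝ n (fun x => f x ⨯₃ g x) s := by
  rw [contDiffOn_pi] at hf hg ⊢
  intro i
  fin_cases i <;> simp [cross_apply] <;>
    exact ((hf _).mul (hg _)).sub ((hf _).mul (hg _))

lemma contDiffOn_pd {E : Type*} [NormedAddCommGroup E] [NormedSpace ℝ E] {g : R2 → E} {T : Set R2}
    (hT : IsOpen T) (hg : ContDiffOn ℝ ∞ g T) (k : Fin 2) : ContDiffOn ℝ ∞ (pd g k) T :=
  (hg.fderiv_of_isOpen hT (m := ∞) le_rfl).clm_apply contDiffOn_const

/-- A cut-off times a function smooth on an open set containing the support is smooth. -/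
lemma contDiff_smul_cutoff {E F : Type*} [NormedAddCommGroup E] [NormedSpace ℝ E]
    [NormedAddCommGroup F] [NormedSpace ℝ F] {T : Set E} (hT : IsOpen T) {χ : E → ℝ}
    (hχ : ContDiff ℝ ∞ χ) (hs : tsupport χ ⊆ T) {f : E → F} (hf : ContDiffOn ℝ ∞ f T) :
    ContDiff ℝ ∞ fun u => χ u • f u := by
  rw [contDiff_iff_contDiffAt]
  intro u
  by_cases hu : u ∈ tsupport χ
  · exact hχ.contDiffAt.smul (hf.contDiffAt (hT.mem_nhds (hs hu)))
  · refine (contDiffAt_const (c := (0 : F))).congr_of_eventuallyEq ?_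
    filter_upwards [(isClosed_tsupport χ).isOpen_compl.mem_nhds hu] with v hv
    simp [image_eq_zero_of_notMem_tsupport hv]

/-- The corrugated vector is independent of the other one once the radius is large. -/
lemma cross_ne_zero {p q a : V3} {μ χ r B y : ℝ} (hW : p ⨯₃ q ≠ 0) (hχ : 0 ≤ χ) (hr : 0 < r)
    (hμ : μ ≠ 0 → χ = 1) (hB : 3 * B < r)
    (h1 : |(1 - μ) + μ * ((a ⨯₃ q) ⬝ᵥ (p ⨯₃ q)) / ((p ⨯₃ q) ⬝ᵥ (p ⨯₃ q))| ≤ B)
    (h2 : |μ * ((a ⨯₃ q) ⬝ᵥ ((p ⨯₃ q) ⨯₃ q)) /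
      (((p ⨯₃ q) ⨯₃ q) ⬝ᵥ ((p ⨯₃ q) ⨯₃ q))| ≤ B) :
    (p + μ • (a - p) + ((1 - 2 * y ^ 2) • (r * χ) • p + y • (r * χ) • (p ⨯₃ q))) ⨯₃ q ≠ 0 := by
  set W := p ⨯₃ q with hWd
  have hWW : W ⬝ᵥ W ≠ 0 := fun h => hW (dotProduct_self_eq_zero.1 h)
  have hWq : W ⬝ᵥ q = 0 := by
    rw [hWd, dotProduct_comm, dot_cross_self]
  have hq : q ⬝ᵥ q ≠ 0 := fun h => hW (by
    rw [hWd, dotProduct_self_eq_zero.1 h]; simp)
  have hW2 : (W ⨯₃ q) ⬝ᵥ (W ⨯₃ q) = (W ⬝ᵥ W) * (q ⬝ᵥ q) := by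
    rw [cross_dot_cross, hWq, dotProduct_comm q W, hWq]; ring
  have hperp : (W ⨯₃ q) ⬝ᵥ W = 0 := by
    rw [dotProduct_comm, dot_self_cross]
  intro h
  have hexp : (p + μ • (a - p) + ((1 - 2 * y ^ 2) • (r * χ) • p + y • (r * χ) • W)) ⨯₃ q =
      (1 - μ + (1 - 2 * y ^ 2) * (r * χ)) • W + μ • (a ⨯₃ q) + (y * (r * χ)) • (W ⨯₃ q) := by
    simp only [map_add, map_smul, map_sub, LinearMap.add_apply, LinearMap.smul_apply,
      LinearMap.sub_apply, ← hWd]
    module
  rw [hexp] at h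
  have e1 := congrArg (fun v => v ⬝ᵥ W) h
  have e2 := congrArg (fun v => v ⬝ᵥ (W ⨯₃ q)) h
  simp only [add_dotProduct, smul_dotProduct, zero_dotProduct, hperp, smul_eq_mul, mul_zero,
    add_zero] at e1
  simp only [add_dotProduct, smul_dotProduct, zero_dotProduct, dotProduct_comm W (W ⨯₃ q), hperp,
    smul_eq_mul, mul_zero, zero_add] at e2
  have f1 : (1 - μ) + μ * ((a ⨯₃ q) ⬝ᵥ W) / (W ⬝ᵥ W) + (1 - 2 * y ^ 2) * (r * χ) = 0 := by
    field_simp
    linarith
  have hW2' : (W ⨯₃ q) ⬝ᵥ (W ⨯₃ q) ≠ 0 := by rw [hW2]; exact mul_ne_zero hWW hq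
  have f2 : μ * ((a ⨯₃ q) ⬝ᵥ (W ⨯₃ q)) / ((W ⨯₃ q) ⬝ᵥ (W ⨯₃ q)) + y * (r * χ) = 0 := by
    field_simp
    linarith
  by_cases h0 : μ = 0
  · subst h0
    simp only [zero_mul, zero_div, sub_zero, add_zero, zero_add] at f1 f2
    rcases mul_eq_zero.1 f2 with hy | hy
    · subst hy; nlinarith [mul_nonneg hr.le hχ]
    · rw [hy] at f1; simp at f1
  · rw [hμ h0, mul_one] at f1 f2
    rw [abs_le] at h1 h2
    have b1 : |1 - 2 * y ^ 2| * r ≤ B := by
      rw [← abs_of_pos hr, ← abs_mul, abs_le]; constructor <;> linarith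
    have b2 : |y| * r ≤ B := by
      rw [← abs_of_pos hr, ← abs_mul, abs_le]; constructor <;> linarith
    have hy3 : |y| ≤ 1 / 3 := by nlinarith [abs_nonneg y]
    have hc : (1 / 3 : ℝ) ≤ |1 - 2 * y ^ 2| := by
      refine le_trans ?_ (le_abs_self _)
      nlinarith [abs_nonneg y, sq_abs y]
    nlinarith

/-- **One corrugation step.** -/
theorem corrugate {T : Set R2} (hT : IsOpen T) {g : R2 → V3} (hg : ContDiffOn ℝ ∞ g T)
    {φ : Fin 2 → R2 → V3} (hφ : ∀ i, ContDiffOn ℝ ∞ (φ i) T) {j k : Fin 2} (hjk : j ≠ k)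
    (hind : ∀ u ∈ T, φ j u ⨯₃ φ k u ≠ 0) {μ χ : R2 → ℝ} (hμ : Continuous μ)
    (hχ : ContDiff ℝ ∞ χ) (hχc : HasCompactSupport χ) (hχT : tsupport χ ⊆ T)
    (hχ0 : ∀ u, 0 ≤ χ u) (hμχ : ∀ u, μ u ≠ 0 → χ u = 1) :
    ∃ δ : R2 → V3, ContDiff ℝ ∞ δ ∧ tsupport δ ⊆ tsupport χ ∧ ∀ u ∈ T,
      (φ j u + μ u • (pd g j u - φ j u) + pd δ j u) ⨯₃ (φ k u + pd δ k u) ≠ 0 := by
  set S := tsupport χ with hS
  have hSc : IsCompact S := hχc
  set W : R2 → V3 := fun u => φ j u ⨯₃ φ k u with hW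
  have hWs : ContDiffOn ℝ ∞ W T := contDiff_cross (hφ j) (hφ k)
  have cS : ∀ {f : R2 → V3}, ContDiffOn ℝ ∞ f T → ContinuousOn f S :=
    fun hf => hf.continuousOn.mono hχT
  have cdot : ∀ {f g : R2 → V3}, ContinuousOn f S → ContinuousOn g S →
      ContinuousOn (fun u => f u ⬝ᵥ g u) S := fun hf hg => by
    simp only [dotProduct]
    exact continuousOn_finsetSum _ fun i _ =>
      ((continuous_apply i).comp_continuousOn hf).mul ((continuous_apply i).comp_continuousOn hg)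
  have hW0 : ∀ u ∈ S, W u ⬝ᵥ W u ≠ 0 := fun u hu h =>
    hind u (hχT hu) (dotProduct_self_eq_zero.1 h)
  have hW1 : ∀ u ∈ S, (W u ⨯₃ φ k u) ⬝ᵥ (W u ⨯₃ φ k u) ≠ 0 := fun u hu h => by
    have h0 : W u ⬝ᵥ φ k u = 0 := by rw [hW, dotProduct_comm, dot_cross_self]
    rw [cross_dot_cross, h0, zero_mul, sub_zero, mul_eq_zero] at h
    rcases h with h | h
    · exact hW0 u hu h
    · exact hind u (hχT hu) (by rw [dotProduct_self_eq_zero.1 h]; simp)
  have ha := contDiffOn_pd hT hg j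
  have c1 : ContinuousOn (fun u => (1 - μ u) +
      μ u * ((pd g j u ⨯₃ φ k u) ⬝ᵥ W u) / (W u ⬝ᵥ W u)) S :=
    (continuousOn_const.sub hμ.continuousOn).add ((hμ.continuousOn.mul
      (cdot (cS (contDiff_cross ha (hφ k))) (cS hWs))).div (cdot (cS hWs) (cS hWs)) hW0)
  have c2 : ContinuousOn (fun u => μ u * ((pd g j u ⨯₃ φ k u) ⬝ᵥ (W u ⨯₃ φ k u)) /
      ((W u ⨯₃ φ k u) ⬝ᵥ (W u ⨯₃ φ k u))) S :=
    (hμ.continuousOn.mul (cdot (cS (contDiff_cross ha (hφ k)))
      (cS (contDiff_cross hWs (hφ k))))).div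
      (cdot (cS (contDiff_cross hWs (hφ k))) (cS (contDiff_cross hWs (hφ k)))) hW1
  obtain ⟨B₁, hB₁⟩ := hSc.exists_bound_of_continuousOn c1
  obtain ⟨B₂, hB₂⟩ := hSc.exists_bound_of_continuousOn c2
  set B := max (max B₁ B₂) 0 with hB
  set r := 3 * B + 1 with hrd
  have hr : 0 < r := by have := le_max_right (max B₁ B₂) 0; linarith
  set P : R2 → V3 := fun u => (r * χ u) • φ j u with hP
  set Q : R2 → V3 := fun u => (r * χ u) • W u with hQ
  have hsupp : tsupport (fun u => r * χ u) ⊆ T := (tsupport_mul_subset_right).trans hχT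
  have hPs : ContDiff ℝ ∞ P :=
    contDiff_smul_cutoff hT (contDiff_const.mul hχ) hsupp (hφ j)
  have hQs : ContDiff ℝ ∞ Q := contDiff_smul_cutoff hT (contDiff_const.mul hχ) hsupp hWs
  -- the main term
  set X : R2 × ℝ → V3 := fun z => φ j z.1 + μ z.1 • (pd g j z.1 - φ j z.1) +
    ((1 - 2 * z.2 ^ 2) • P z.1 + z.2 • Q z.1) with hX
  have hX0 : ∀ z ∈ S ×ˢ Icc (-1 : ℝ) 1, X z ⨯₃ φ k z.1 ≠ 0 := by
    rintro ⟨u, y⟩ ⟨hu, -⟩
    refine cross_ne_zero (hind u (hχT hu)) (hχ0 u) hr (hμχ u) (B := B) (by linarith) ?_ ?_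
    · exact (hB₁ u hu).trans ((le_max_left _ _).trans (le_max_left _ _))
    · exact (hB₂ u hu).trans ((le_max_right _ _).trans (le_max_left _ _))
  have hev : ∀ᶠ η in 𝓝 (0 : V3 × V3), ∀ z ∈ S ×ˢ Icc (-1 : ℝ) 1,
      (X z + η.1) ⨯₃ (φ k z.1 + η.2) ≠ 0 := by
    refine (hSc.prod isCompact_Icc).eventually_forall_of_forall_eventually fun z hz => ?_
    have hzT : z.1 ∈ T := hχT hz.1
    have cφ : ∀ i, ContinuousAt (fun q : R2 × ℝ => φ i q.1) z := fun i =>
      (((hφ i).continuousOn.continuousAt (hT.mem_nhds hzT))).comp continuousAt_fst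
    have ca : ContinuousAt (fun q : R2 × ℝ => pd g j q.1) z :=
      (ha.continuousOn.continuousAt (hT.mem_nhds hzT)).comp continuousAt_fst
    have cX : ContinuousAt X z :=
      ((cφ j).add ((hμ.comp continuous_fst).continuousAt.smul (ca.sub (cφ j)))).add
        ((((continuous_const.sub (continuous_const.mul (continuous_snd.pow 2))).smul
          (hPs.continuous.comp continuous_fst)).add
          (continuous_snd.smul (hQs.continuous.comp continuous_fst))).continuousAt)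
    have hcr : Continuous fun v : V3 × V3 => v.1 ⨯₃ v.2 := by
      rw [← contDiff_zero (𝕜 := ℝ), ← contDiffOn_univ]
      exact contDiff_cross contDiff_fst.contDiffOn contDiff_snd.contDiffOn
    have cz : ContinuousAt (fun w : (V3 × V3) × (R2 × ℝ) =>
        (X w.2 + w.1.1) ⨯₃ (φ k w.2.1 + w.1.2)) (0, z) := by
      refine hcr.continuousAt.comp (f := fun w : (V3 × V3) × (R2 × ℝ) =>
        (X w.2 + w.1.1, φ k w.2.1 + w.1.2)) ?_
      exact ((cX.comp_of_eq continuousAt_snd rfl).add continuous_fst.fst.continuousAt).prodMk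
        (((cφ k).comp_of_eq continuousAt_snd rfl).add continuous_fst.snd.continuousAt)
    exact cz.eventually_ne (by simpa using hX0 z hz)
  obtain ⟨ε, hε, hεP⟩ := Metric.eventually_nhds_iff.1 hev
  have hPc : HasCompactSupport P := HasCompactSupport.intro hSc fun u hu => by
    simp [hP, image_eq_zero_of_notMem_tsupport hu]
  have hQc : HasCompactSupport Q := HasCompactSupport.intro hSc fun u hu => by
    simp [hQ, image_eq_zero_of_notMem_tsupport hu]
  obtain ⟨K₁, hK₁⟩ := (hPc.fderiv ℝ).exists_bound_of_continuous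
    (hPs.continuous_fderiv (by simp))
  obtain ⟨K₂, hK₂⟩ := (hQc.fderiv ℝ).exists_bound_of_continuous
    (hQs.continuous_fderiv (by simp))
  have hK₁0 : 0 ≤ K₁ := (norm_nonneg _).trans (hK₁ 0)
  have hK₂0 : 0 ≤ K₂ := (norm_nonneg _).trans (hK₂ 0)
  set N := (K₁ + K₂ + 1) / ε with hN
  have hN0 : 0 < N := by rw [hN]; positivity
  set pj : R2 →L[ℝ] ℝ := EuclideanSpace.proj j with hpj
  set δ : R2 → V3 := fun u => N⁻¹ • ((Real.sin (2 * (N * pj u)) / 2) • P u +
    (-Real.cos (N * pj u)) • Q u) with hδ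
  have hδs : ContDiff ℝ ∞ δ :=
    (((((contDiff_const.mul (contDiff_const.mul pj.contDiff)).sin).div_const 2).smul hPs).add
      (((contDiff_const.mul pj.contDiff).cos.neg).smul hQs)).const_smul _
  have hδS : tsupport δ ⊆ S := by
    refine closure_minimal (fun u hu => ?_) (isClosed_tsupport χ)
    by_contra h
    exact hu (by simp [hδ, hP, hQ, image_eq_zero_of_notMem_tsupport h])
  refine ⟨δ, hδs, hδS, fun u hu => ?_⟩
  by_cases huS : u ∈ S
  swap
  · have hd : ∀ i, pd δ i u = 0 := fun i => by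
      rw [pd, fderiv_of_notMem_tsupport ℝ (fun h => huS (hδS h))]; rfl
    have hm : μ u = 0 := by
      by_contra h
      exact huS (subset_tsupport _ (by simp [hμχ u h]))
    simpa [hd, hm] using hind u hu
  set t := N * pj u with ht
  have hd : ∀ i, pd δ i u = (pj (EuclideanSpace.single i 1)) •
      ((1 - 2 * Real.sin t ^ 2) • P u + Real.sin t • Q u) +
      N⁻¹ • ((Real.sin (2 * t) / 2) • pd P i u + (-Real.cos t) • pd Q i u) := by
    intro i
    have dP := (hPs.differentiable (by simp)).differentiableAt (x := u) |>.hasFDerivAt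
    have dQ := (hQs.differentiable (by simp)).differentiableAt (x := u) |>.hasFDerivAt
    have dt : HasFDerivAt (fun v => N * pj v) (N • pj) u := pj.hasFDerivAt.const_mul N
    have h := ((((dt.const_mul 2).sin.mul_const (2⁻¹ : ℝ)).smul dP).fun_add
      (dt.cos.neg.smul dQ)).const_smul N⁻¹
    have hf : δ = fun v => N⁻¹ • ((Real.sin (2 * (N * pj v)) * 2⁻¹) • P v +
        (-Real.cos (N * pj v)) • Q v) := by
      funext v; simp [hδ, div_eq_mul_inv]
    rw [pd, hf, HasFDerivAt.fderiv (f := fun v => N⁻¹ • ((Real.sin (2 * (N * pj v)) * 2⁻¹) • P v +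
      (-Real.cos (N * pj v)) • Q v)) h]
    simp only [← ht]
    simp [pd, Real.cos_two_mul, Real.cos_sq', ht]
    match_scalars <;> (field_simp; try ring)
  have hsingle : pj (EuclideanSpace.single j (1 : ℝ)) = 1 ∧
      pj (EuclideanSpace.single k (1 : ℝ)) = 0 := by
    simp [hpj, hjk]
  set η : Fin 2 → V3 := fun i =>
    N⁻¹ • ((Real.sin (2 * t) / 2) • pd P i u + (-Real.cos t) • pd Q i u) with hη
  have hηb : ∀ i, ‖η i‖ < ε := by
    intro i
    have hP' : ‖pd P i u‖ ≤ K₁ := by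
      refine ((fderiv ℝ P u).le_opNorm _).trans ?_
      simpa using hK₁ u
    have hQ' : ‖pd Q i u‖ ≤ K₂ := by
      refine ((fderiv ℝ Q u).le_opNorm _).trans ?_
      simpa using hK₂ u
    have h1 : |Real.sin (2 * t) / 2| ≤ 1 := by
      rw [abs_div, abs_two]; linarith [abs_sin_le_one (2 * t)]
    rw [hη, norm_smul, norm_inv, Real.norm_of_nonneg hN0.le, inv_mul_lt_iff₀ hN0]
    calc ‖(Real.sin (2 * t) / 2) • pd P i u + (-Real.cos t) • pd Q i u‖
        ≤ 1 * K₁ + 1 * K₂ := by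
          refine (norm_add_le _ _).trans (add_le_add ?_ ?_) <;> rw [norm_smul, Real.norm_eq_abs]
          · exact mul_le_mul h1 hP' (norm_nonneg _) zero_le_one
          · exact mul_le_mul (by rw [abs_neg]; exact abs_cos_le_one t) hQ' (norm_nonneg _)
              zero_le_one
      _ < N * ε := by rw [hN, div_mul_cancel₀ _ hε.ne']; linarith
  have := hεP (y := (η j, η k)) (by simpa [dist_eq_norm] using ⟨hηb j, hηb k⟩) (u, Real.sin t)
    ⟨huS, ⟨Real.neg_one_le_sin t, Real.sin_le_one t⟩⟩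
  convert this using 3
  · rw [hd j, hsingle.1, one_smul]
    simp only [hX, hη]
    abel
  · rw [hd k, hsingle.2, zero_smul, zero_add]

end Vale.Agent.P205.Full.Topo
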