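import Vale.Agent.P205.Full.Topo.Interface
import Vale.Agent.P205.Full.Topo.Corrugate

/-!
# P205 full, TOPO: the h-principle for immersions of surfaces in `ℝ³`

A formal immersion is deformed chart by chart: the two corrugation steps in a chart multiply the
defect `df - Φ ∘ dι` by `1 - μ`, where `μ` is the bump function of the chart.
-/

open scoped Manifold ContDiff Matrix Topology
open Set Filter Function

namespace Vale.Agent.P205.Full.Topo

lemma cross_ne_zero_iff (L : R2 →L[ℝ] V3) :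
    L (EuclideanSpace.single 0 1) ⨯₃ L (EuclideanSpace.single 1 1) ≠ 0 ↔ Injective L := by
  have hv : ∀ v : R2, v = v 0 • EuclideanSpace.single 0 (1 : ℝ) +
      v 1 • EuclideanSpace.single 1 (1 : ℝ) := fun v => by
    ext i; fin_cases i <;> simp
  constructor
  · intro h
    refine (injective_iff_map_eq_zero L).2 fun v h0 => ?_
    rw [hv v, map_add, map_smul, map_smul] at h0
    have a := congrArg (fun w => w ⨯₃ L (EuclideanSpace.single 1 1)) h0
    have b := congrArg (fun w => L (EuclideanSpace.single 0 1) ⨯₃ w) h0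
    simp [cross_self, h] at a b
    rw [hv v, a, b]; simp
  · intro hL h
    by_cases hex : ∃ a b : ℝ, (a ≠ 0 ∨ b ≠ 0) ∧
        a • L (EuclideanSpace.single 0 1) + b • L (EuclideanSpace.single 1 1) = 0
    · obtain ⟨a, b, hab, he⟩ := hex
      rw [← map_smul, ← map_smul, ← map_add, map_eq_zero_iff L hL] at he
      have h0 : a = 0 := by simpa using congrArg (fun w : R2 => w 0) he
      have h1 : b = 0 := by simpa using congrArg (fun w : R2 => w 1) he
      simp [h0, h1] at hab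
    · refine (crossProduct_ne_zero_iff_linearIndependent.2 ?_) h
      refine LinearIndependent.pair_iff.2 fun a b hab => ?_
      by_contra hne
      exact hex ⟨a, b, not_and_or.1 hne, hab⟩

/-- Both corrugation steps in one chart. -/
theorem corrugate2 {T : Set R2} (hT : IsOpen T) {g : R2 → V3} (hg : ContDiffOn ℝ ∞ g T)
    {φ : Fin 2 → R2 → V3} (hφ : ∀ i, ContDiffOn ℝ ∞ (φ i) T)
    (hind : ∀ u ∈ T, φ 0 u ⨯₃ φ 1 u ≠ 0) {μ χ : R2 → ℝ} (hμ : ContDiff ℝ ∞ μ)
    (hχ : ContDiff ℝ ∞ χ) (hχc : HasCompactSupport χ) (hχT : tsupport χ ⊆ T)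
    (hχ0 : ∀ u, 0 ≤ χ u) (hμχ : ∀ u, μ u ≠ 0 → χ u = 1) :
    ∃ δ : R2 → V3, ContDiff ℝ ∞ δ ∧ tsupport δ ⊆ tsupport χ ∧ ∀ u ∈ T,
      (φ 0 u + μ u • (pd g 0 u - φ 0 u) + pd δ 0 u) ⨯₃
        (φ 1 u + μ u • (pd g 1 u - φ 1 u) + pd δ 1 u) ≠ 0 := by
  obtain ⟨δ₁, h1, hs1, hi1⟩ := corrugate hT hg hφ (j := 0) (k := 1) (by decide) hind
    hμ.continuous hχ hχc hχT hχ0 hμχ
  have hg2 : ContDiffOn ℝ ∞ (g + δ₁) T := hg.add h1.contDiffOn
  set φ2 : Fin 2 → R2 → V3 := ![fun u => φ 0 u + μ u • (pd g 0 u - φ 0 u) + pd δ₁ 0 u,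
    fun u => φ 1 u + pd δ₁ 1 u] with hφ2
  have hd1 : ∀ i, ContDiffOn ℝ ∞ (pd δ₁ i) T := contDiffOn_pd hT h1.contDiffOn
  have hs : ∀ i, ContDiffOn ℝ ∞ (φ2 i) T := by
    intro i; fin_cases i
    · exact ((hφ 0).add (hμ.contDiffOn.smul ((contDiffOn_pd hT hg 0).sub (hφ 0)))).add (hd1 0)
    · exact (hφ 1).add (hd1 1)
  have hi1' : ∀ u ∈ T, φ2 1 u ⨯₃ φ2 0 u ≠ 0 := fun u hu h => hi1 u hu (by
    simp only [hφ2, Matrix.cons_val_zero, Matrix.cons_val_one] at h
    rw [← cross_anticomm, h, neg_zero])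
  obtain ⟨δ₂, h2, hs2, hi2⟩ := corrugate hT hg2 hs (j := 1) (k := 0) (by decide) hi1'
    hμ.continuous hχ hχc hχT hχ0 hμχ
  refine ⟨δ₁ + δ₂, h1.add h2, closure_minimal (fun u hu => ?_) (isClosed_tsupport χ),
    fun u hu h => hi2 u hu ?_⟩
  · by_contra hc
    exact hu (by simp [image_eq_zero_of_notMem_tsupport (fun h => hc (hs1 h)),
      image_eq_zero_of_notMem_tsupport (fun h => hc (hs2 h))])
  have e : ∀ i, pd (δ₁ + δ₂) i u = pd δ₁ i u + pd δ₂ i u := fun i => by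
    simp [pd, fderiv_add (h1.differentiable (by simp)).differentiableAt
      (h2.differentiable (by simp)).differentiableAt]
  have e2 : pd (g + δ₁) 1 u = pd g 1 u + pd δ₁ 1 u := by
    simp [pd, fderiv_add ((hg.contDiffAt (hT.mem_nhds hu)).differentiableAt (by simp))
      (h1.differentiable (by simp)).differentiableAt]
  rw [e, e] at h
  simp only [hφ2, e2, Matrix.cons_val_zero, Matrix.cons_val_one]
  have v0 : φ 0 u + μ u • (pd g 0 u - φ 0 u) + pd δ₁ 0 u + pd δ₂ 0 u =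
      φ 0 u + μ u • (pd g 0 u - φ 0 u) + (pd δ₁ 0 u + pd δ₂ 0 u) := by abel
  have v1 : φ 1 u + pd δ₁ 1 u + μ u • (pd g 1 u + pd δ₁ 1 u - (φ 1 u + pd δ₁ 1 u)) +
      pd δ₂ 1 u = φ 1 u + μ u • (pd g 1 u - φ 1 u) + (pd δ₁ 1 u + pd δ₂ 1 u) := by
    rw [add_sub_add_right_eq_sub]; abel
  rw [v0, v1, ← cross_anticomm, h, neg_zero]

section

variable {M : Type} [TopologicalSpace M] [ChartedSpace R2 M] [IsManifold (𝓡 2) ∞ M]
  {E : Type} [NormedAddCommGroup E] [NormedSpace ℝ E]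

/-- The differential, with plain types. -/
noncomputable def dF (f : M → E) (x : M) : R2 →L[ℝ] E := mfderiv (𝓡 2) 𝓘(ℝ, E) f x

/-- The differential of a chart, with plain types. -/
noncomputable def jac (x₀ x : M) : R2 →L[ℝ] R2 :=
  mfderiv (𝓡 2) 𝓘(ℝ, R2) (extChartAt (𝓡 2) x₀) x


lemma contMDiff_ext [T2Space M] (x₀ : M) {h : R2 → E} {S : Set R2} (hS : IsCompact S)
    (hST : S ⊆ (extChartAt (𝓡 2) x₀).target) (hh : ContDiff ℝ ∞ h) (h0 : ∀ u ∉ S, h u = 0) :
    ContMDiff (𝓡 2) 𝓘(ℝ, E) ∞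
      ((extChartAt (𝓡 2) x₀).source.indicator fun x => h (extChartAt (𝓡 2) x₀ x)) := by
  set e := extChartAt (𝓡 2) x₀ with he
  have hK : IsClosed (e.symm '' S) :=
    (hS.image_of_continuousOn ((continuousOn_extChartAt_symm x₀).mono hST)).isClosed
  intro x
  by_cases hx : x ∈ e.source
  · have h1 : ContMDiffAt (𝓡 2) 𝓘(ℝ, E) ∞ (fun y => h (e y)) x :=
      hh.contMDiff.contMDiffAt.comp x
        (contMDiffAt_extChartAt' (by simpa [he] using hx))
    exact h1.congr_of_eventuallyEq (eventuallyEq_of_mem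
      ((isOpen_extChartAt_source x₀).mem_nhds hx) fun y hy => indicator_of_mem hy _)
  · have hxK : x ∉ e.symm '' S := by
      rintro ⟨u, hu, rfl⟩
      exact hx (e.map_target (hST hu))
    refine (contMDiffAt_const (c := (0 : E))).congr_of_eventuallyEq
      (eventuallyEq_of_mem (hK.isOpen_compl.mem_nhds hxK) fun y hy => ?_)
    by_cases hys : y ∈ e.source
    · rw [indicator_of_mem hys]
      exact h0 _ fun hu => hy ⟨e y, hu, e.left_inv hys⟩
    · exact indicator_of_notMem hys _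

lemma contDiffOn_chart (x₀ : M) {f : M → E} (hf : ContMDiff (𝓡 2) 𝓘(ℝ, E) ∞ f) :
    ContDiffOn ℝ ∞ (f ∘ (extChartAt (𝓡 2) x₀).symm) (extChartAt (𝓡 2) x₀).target :=
  contMDiffOn_iff_contDiffOn.1 (hf.comp_contMDiffOn (contMDiffOn_extChartAt_symm x₀))

lemma mfderiv_chart (x₀ : M) {f : M → E} (hf : ContMDiff (𝓡 2) 𝓘(ℝ, E) ∞ f) {x : M}
    (hx : x ∈ (extChartAt (𝓡 2) x₀).source) (v : R2) :
    dF f x v = fderiv ℝ (f ∘ (extChartAt (𝓡 2) x₀).symm) (extChartAt (𝓡 2) x₀ x)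
        (jac x₀ x v) := by
  set e := extChartAt (𝓡 2) x₀ with he
  have h4 : HasFDerivAt (f ∘ e.symm) (fderiv ℝ (f ∘ e.symm) (e x)) (e x) :=
    (((contDiffOn_chart x₀ hf).contDiffAt ((isOpen_extChartAt_target x₀).mem_nhds
      (e.map_source hx))).differentiableAt (by simp)).hasFDerivAt
  have h3 := hasMFDerivAt_extChartAt (I := 𝓡 2) (x := x₀) (y := x) (by simpa [he] using hx)
  have h5 := h4.hasMFDerivAt.comp x h3
  have h6 : f =ᶠ[𝓝 x] (f ∘ e.symm) ∘ e :=
    eventuallyEq_of_mem ((isOpen_extChartAt_source x₀).mem_nhds hx) fun z hz => by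
      simp only [comp_apply]
      rw [e.left_inv hz]
  unfold dF jac
  rw [(h5.congr_of_eventuallyEq h6).mfderiv, h3.mfderiv]
  rfl

end

variable {M : Type} [TopologicalSpace M] [T2Space M] [ChartedSpace R2 M]
  [IsManifold (𝓡 2) ∞ M] {n : ℕ}

/-- **One chart**: the defect of the formal immersion is multiplied by `1 - μ`. -/
theorem chartStep [CompactSpace M] {ι : M → Rn n} (hι : IsEmb ι) {Φ : M → Rn n →L[ℝ] V3}
    (hΦ : ContMDiff (𝓡 2) 𝓘(ℝ, Rn n →L[ℝ] V3) ∞ Φ)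
    (hinj : ∀ x, Injective fun v : R2 => Φ x (dι ι x v)) {f : M → V3}
    (hf : ContMDiff (𝓡 2) 𝓘(ℝ, V3) ∞ f) (x₀ : M) {μ : M → ℝ}
    (hμ : ContMDiff (𝓡 2) 𝓘(ℝ) ∞ μ) (hμs : tsupport μ ⊆ (extChartAt (𝓡 2) x₀).source) :
    ∃ (f' : M → V3) (Φ' : M → Rn n →L[ℝ] V3), ContMDiff (𝓡 2) 𝓘(ℝ, V3) ∞ f' ∧
      ContMDiff (𝓡 2) 𝓘(ℝ, Rn n →L[ℝ] V3) ∞ Φ' ∧
      (∀ x, Injective fun v : R2 => Φ' x (dι ι x v)) ∧
      ∀ (x : M) (v : R2), dF f' x v - Φ' x (dι ι x v) =
        (1 - μ x) • (dF f x v - Φ x (dι ι x v)) := by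
  set e := extChartAt (𝓡 2) x₀ with he
  set T := e.target with hTd
  have hT : IsOpen T := isOpen_extChartAt_target x₀
  -- chart data
  set g : R2 → V3 := f ∘ e.symm with hgd
  have hg : ContDiffOn ℝ ∞ g T := contDiffOn_chart x₀ hf
  set A : R2 → R2 →L[ℝ] Rn n := fderiv ℝ (ι ∘ e.symm) with hAd
  have hA : ContDiffOn ℝ ∞ A T :=
    (contDiffOn_chart x₀ hι.smooth).fderiv_of_isOpen hT (m := ∞) le_rfl
  set Ψ : R2 → R2 →L[ℝ] V3 := fun u => (Φ (e.symm u)).comp (A u) with hΨd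
  have hΨ : ContDiffOn ℝ ∞ Ψ T := (contDiffOn_chart x₀ hΦ).clm_comp hA
  have hinv : ∀ x ∈ e.source, ∃ J : R2 ≃L[ℝ] R2, ∀ v, jac x₀ x v = J v := fun x hx => by
    obtain ⟨J, hJ⟩ := isInvertible_mfderiv_extChartAt (I := 𝓡 2) (x := x₀) hx
    exact ⟨J, fun v => (DFunLike.congr_fun hJ v).symm⟩
  have hdι : ∀ x ∈ e.source, ∀ v, dι ι x v = A (e x) (jac x₀ x v) :=
    fun x hx v => mfderiv_chart x₀ hι.smooth hx v
  have hAinj : ∀ u ∈ T, Injective (A u) := by
    intro u hu a b hab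
    obtain ⟨J, hJ⟩ := hinv _ (e.map_target hu)
    obtain ⟨a, rfl⟩ := J.surjective a
    obtain ⟨b, rfl⟩ := J.surjective b
    refine congrArg J (hι.imm (e.symm u) ?_)
    rw [hdι _ (e.map_target hu), hdι _ (e.map_target hu), hJ, hJ, e.right_inv hu, hab]
  have hΨinj : ∀ u ∈ T, Injective (Ψ u) := by
    intro u hu a b hab
    obtain ⟨J, hJ⟩ := hinv _ (e.map_target hu)
    obtain ⟨a, rfl⟩ := J.surjective a
    obtain ⟨b, rfl⟩ := J.surjective b
    refine congrArg J (hinj (e.symm u) ?_)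
    dsimp only
    rw [hdι _ (e.map_target hu), hdι _ (e.map_target hu), hJ, hJ, e.right_inv hu]
    exact hab
  -- cut-offs
  set S₀ := e '' tsupport μ with hS₀d
  have hS₀ : IsCompact S₀ :=
    (isClosed_tsupport μ).isCompact.image_of_continuousOn ((continuousOn_extChartAt x₀).mono hμs)
  have hS₀T : S₀ ⊆ T := image_subset_iff.2 fun x hx => e.map_source (hμs hx)
  obtain ⟨U, hU, hS₀U, hUT, hUc⟩ := exists_open_between_and_isCompact_closure hS₀ hT hS₀T
  obtain ⟨χ', hχ0', hχ1', hχ01⟩ := exists_contMDiffMap_zero_one_of_isClosed (n := (⊤ : ℕ∞))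
    𝓘(ℝ, R2) hU.isClosed_compl hS₀.isClosed
    (disjoint_left.2 fun u hu hu' => hu (hS₀U hu'))
  set χ : R2 → ℝ := ⇑χ' with hχd
  have hχ : ContDiff ℝ ∞ χ := contMDiff_iff_contDiff.1 χ'.contMDiff
  have hχU : tsupport χ ⊆ closure U := closure_mono fun u hu => by
    by_contra hc; exact hu (hχ0' hc)
  have hχc : HasCompactSupport χ := hUc.of_isClosed_subset (isClosed_tsupport χ) hχU
  have hχT : tsupport χ ⊆ T := hχU.trans hUT
  set μc : R2 → ℝ := fun u => χ u • μ (e.symm u) with hμcd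
  have hμc : ContDiff ℝ ∞ μc := contDiff_smul_cutoff hT hχ hχT (contDiffOn_chart x₀ hμ)
  have hμχ : ∀ u, μc u ≠ 0 → χ u = 1 := by
    intro u hu
    have h1 : χ u ≠ 0 := fun h => hu (by simp [hμcd, h])
    have h2 : μ (e.symm u) ≠ 0 := fun h => hu (by simp [hμcd, h])
    exact hχ1' ⟨e.symm u, subset_tsupport μ h2, e.right_inv (hχT (subset_tsupport χ h1))⟩
  have hμce : ∀ x ∈ e.source, μc (e x) = μ x := by
    intro x hx
    by_cases h : x ∈ tsupport μ
    · simp [hμcd, e.left_inv hx, show χ (e x) = 1 from hχ1' ⟨x, h, rfl⟩]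
    · simp [hμcd, e.left_inv hx, image_eq_zero_of_notMem_tsupport h]
  -- the two corrugations
  set φ : Fin 2 → R2 → V3 := fun i u => Ψ u (EuclideanSpace.single i 1) with hφd
  obtain ⟨δ, hδ, hδS, hind⟩ := corrugate2 hT hg (φ := φ)
    (fun i => hΨ.clm_apply contDiffOn_const)
    (fun u hu => (cross_ne_zero_iff (Ψ u)).2 (hΨinj u hu))
    hμc hχ hχc hχT (fun u => (hχ01 u).1) hμχ
  -- the correction of the formal differential
  set L : R2 → R2 →L[ℝ] V3 := fun u => μc u • (fderiv ℝ g u - Ψ u) + fderiv ℝ δ u with hLd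
  have hL : ContDiffOn ℝ ∞ L T :=
    (hμc.contDiffOn.smul ((hg.fderiv_of_isOpen hT (m := ∞) le_rfl).sub hΨ)).add
      (hδ.fderiv_right (m := ∞) (by simp)).contDiffOn
  have hL0 : ∀ u ∉ tsupport χ, L u = 0 := by
    intro u hu
    have h1 : μc u = 0 := by simp [hμcd, image_eq_zero_of_notMem_tsupport hu]
    simp [hLd, h1, fderiv_of_notMem_tsupport ℝ (fun h => hu (hδS h))]
  set G : R2 → R2 →L[ℝ] R2 := fun u => (ContinuousLinearMap.adjoint (A u)).comp (A u) with hGd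
  have hadj : ContDiffOn ℝ ∞ (fun u => ContinuousLinearMap.adjoint (A u)) T :=
    (ContinuousLinearMap.adjoint (𝕜 := ℝ) (E := R2) (F := Rn n)).contDiff.comp_contDiffOn hA
  have hGi : ∀ u ∈ T, (G u).IsInvertible := by
    intro u hu
    have hi : Injective (G u).toLinearMap := (injective_iff_map_eq_zero _).2 fun v hv => by
      have h := congrArg (fun z => inner ℝ z v) (hv : G u v = 0)
      simp [hGd, ContinuousLinearMap.adjoint_inner_left] at h
      exact (map_eq_zero_iff (A u) (hAinj u hu)).1 h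
    exact ⟨(LinearEquiv.ofInjectiveEndo _ hi).toContinuousLinearEquiv, by ext v; rfl⟩
  set B : R2 → Rn n →L[ℝ] R2 := fun u =>
    (G u).inverse.comp (ContinuousLinearMap.adjoint (A u)) with hBd
  have hB : ContDiffOn ℝ ∞ B T := ContDiffOn.clm_comp (fun u hu =>
    (hGi u hu).contDiffAt_map_inverse.comp_contDiffWithinAt u ((hadj.clm_comp hA) u hu)) hadj
  have hBA : ∀ u ∈ T, ∀ v, B u (A u v) = v := fun u hu v =>
    (hGi u hu).inverse_apply_self v
  set C : R2 → Rn n →L[ℝ] V3 := fun u => (L u).comp (B u) with hCd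
  have hC0 : ∀ u ∉ tsupport χ, C u = 0 := fun u hu => by simp [hCd, hL0 u hu]
  have hC : ContDiff ℝ ∞ C := by
    rw [contDiff_iff_contDiffAt]
    intro u
    by_cases hu : u ∈ tsupport χ
    · exact (hL.clm_comp hB).contDiffAt (hT.mem_nhds (hχT hu))
    · exact (contDiffAt_const (c := (0 : Rn n →L[ℝ] V3))).congr_of_eventuallyEq
        (eventuallyEq_of_mem ((isClosed_tsupport χ).isOpen_compl.mem_nhds hu) hC0)
  have hδ0 : ∀ u ∉ tsupport χ, δ u = 0 := fun u hu =>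
    image_eq_zero_of_notMem_tsupport fun h => hu (hδS h)
  set dlt : M → V3 := e.source.indicator fun x => δ (e x) with hdltd
  set cor : M → Rn n →L[ℝ] V3 := e.source.indicator fun x => C (e x) with hcord
  have hdlt : ContMDiff (𝓡 2) 𝓘(ℝ, V3) ∞ dlt := contMDiff_ext x₀ hχc hχT hδ hδ0
  have hcor : ContMDiff (𝓡 2) 𝓘(ℝ, Rn n →L[ℝ] V3) ∞ cor := contMDiff_ext x₀ hχc hχT hC hC0
  -- on the chart
  have key : ∀ x ∈ e.source, ∀ v : R2,
      (Φ x + cor x) (dι ι x v) =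
        (Ψ (e x) + L (e x)) (jac x₀ x v) ∧
      dF (f + dlt) x v =
        (fderiv ℝ g (e x) + fderiv ℝ δ (e x)) (jac x₀ x v) ∧
      Φ x (dι ι x v) = Ψ (e x) (jac x₀ x v) ∧
      dF f x v = fderiv ℝ g (e x) (jac x₀ x v) := by
    intro x hx v
    have hu : e x ∈ T := e.map_source hx
    have h3 : Φ x (dι ι x v) = Ψ (e x) (jac x₀ x v) := by
      simp [hΨd, hdι x hx v, e.left_inv hx]
    refine ⟨?_, ?_, h3, mfderiv_chart x₀ hf hx v⟩
    · rw [add_apply, h3, hcord, indicator_of_mem hx]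
      simp [hCd, hdι x hx v, hBA _ hu]
    · rw [mfderiv_chart x₀ (f := f + dlt) (hf.add hdlt) hx v]
      congr 1
      have hd : (f + dlt) ∘ e.symm =ᶠ[𝓝 (e x)] g + δ :=
        eventuallyEq_of_mem (hT.mem_nhds hu) fun u hu => by
          simp [hgd, hdltd, indicator_of_mem (e.map_target hu), e.right_inv hu]
      rw [hd.fderiv_eq, fderiv_add ((hg.contDiffAt (hT.mem_nhds hu)).differentiableAt (by simp))
        (hδ.differentiable (by simp)).differentiableAt]
  -- off the chart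
  have hoff : ∀ x ∉ e.source, μ x = 0 ∧ cor x = 0 ∧
      dF (f + dlt) x = dF f x := by
    intro x hx
    refine ⟨image_eq_zero_of_notMem_tsupport fun h => hx (hμs h),
      indicator_of_notMem hx _, EventuallyEq.mfderiv_eq ?_⟩
    have hK : IsClosed (e.symm '' tsupport χ) :=
      (hχc.image_of_continuousOn ((continuousOn_extChartAt_symm x₀).mono hχT)).isClosed
    have hxK : x ∉ e.symm '' tsupport χ := by
      rintro ⟨u, hu, rfl⟩
      exact hx (e.map_target (hχT hu))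
    refine eventuallyEq_of_mem (hK.isOpen_compl.mem_nhds hxK) fun y hy => ?_
    by_cases hys : y ∈ e.source
    · simp [hdltd, indicator_of_mem hys,
        hδ0 (e y) fun hu => hy ⟨e y, hu, e.left_inv hys⟩]
    · simp [hdltd, indicator_of_notMem hys]
  refine ⟨f + dlt, Φ + cor, hf.add hdlt, hΦ.add hcor, fun x => ?_, fun x v => ?_⟩
  · by_cases hx : x ∈ e.source
    · obtain ⟨J, hJ⟩ := hinv x hx
      have hi : Injective (Ψ (e x) + L (e x)) := by
        refine (cross_ne_zero_iff _).1 ?_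
        convert hind (e x) (e.map_source hx) using 3 <;>
          simp [hLd, hφd, pd, add_assoc]
      intro a b hab
      refine J.injective (hi ?_)
      simp only [Pi.add_apply] at hab
      rw [(key x hx a).1, (key x hx b).1, hJ, hJ] at hab
      exact hab
    · simpa [(hoff x hx).2.1] using hinj x
  · by_cases hx : x ∈ e.source
    · obtain ⟨k1, k2, k3, k4⟩ := key x hx v
      rw [k2, Pi.add_apply, k1, k3, k4]
      simp [hLd, hμce x hx]
      module
    · obtain ⟨h1, h2, h3⟩ := hoff x hx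
      simp [h1, h2, h3]

/-- **The h-principle**: a formal immersion gives an immersion in `ℝ³`. -/
theorem hPrinciple : HPrincipleProp := by
  intro M _ _ _ _ _ n ι Φ hι hΦ
  classical
  set q : R3 ≃L[ℝ] V3 := EuclideanSpace.equiv (Fin 3) ℝ with hq
  obtain ⟨κ, fs, hfs⟩ := SmoothBumpCovering.exists_isSubordinate (𝓡 2) isClosed_univ
    (fun (x : M) _ => (Filter.univ_mem : (univ : Set M) ∈ 𝓝 x))
  have hk := fs.fintype
  have main : ∀ s : Finset κ, ∃ (f : M → V3) (Ψ : M → Rn n →L[ℝ] V3),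
      ContMDiff (𝓡 2) 𝓘(ℝ, V3) ∞ f ∧ ContMDiff (𝓡 2) 𝓘(ℝ, Rn n →L[ℝ] V3) ∞ Ψ ∧
      (∀ x, Injective fun v : R2 => Ψ x (dι ι x v)) ∧
      ∀ i ∈ s, ∀ x, fs i x = 1 →
        ∀ v : R2, dF f x v = Ψ x (dι ι x v) := by
    intro s
    induction s using Finset.induction_on with
    | empty =>
      exact ⟨fun _ => 0, fun x => (q : R3 →L[ℝ] V3).comp (Φ x), contMDiff_const,
        contMDiff_const.clm_comp hΦ.1, fun x => q.injective.comp (hΦ.2 x), by simp⟩
    | insert i s _ ih =>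
      obtain ⟨f, Ψ, hf, hΨ, hinj, hhol⟩ := ih
      obtain ⟨f', Ψ', hf', hΨ', hinj', hd⟩ := chartStep hι hΨ hinj hf (fs.c i) (μ := fs i)
        (fs i).contMDiff (by simpa [extChartAt_source] using (fs i).tsupport_subset_chartAt_source)
      refine ⟨f', Ψ', hf', hΨ', hinj', fun j hj x hx v => sub_eq_zero.1 ?_⟩
      rw [hd x v]
      rcases Finset.mem_insert.1 hj with rfl | hj
      · simp [hx]
      · simp [hhol j hj x hx v]
  obtain ⟨f, Ψ, hf, -, hinj, hhol⟩ := main Finset.univ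
  refine ⟨fun x => q.symm (f x), q.symm.toContinuousLinearMap.contMDiff.comp hf, fun x => ?_⟩
  have hh : ∀ v : R2, dF f x v = Ψ x (dι ι x v) :=
    hhol (fs.ind x trivial) (Finset.mem_univ _) x (fs.apply_ind x trivial)
  have hd : mfderiv (𝓡 2) 𝓘(ℝ, R3) (fun y => q.symm (f y)) x =
      (q.symm : V3 →L[ℝ] R3).comp (mfderiv (𝓡 2) 𝓘(ℝ, V3) f x) :=
    (((q.symm : V3 →L[ℝ] R3).hasFDerivAt.hasMFDerivAt).comp x
      (hf.mdifferentiableAt (by simp)).hasMFDerivAt).mfderiv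
  intro a b hab
  rw [hd] at hab
  exact hinj x (((hh a).symm.trans (q.symm.injective hab : dF f x a = dF f x b)).trans (hh b))

end Vale.Agent.P205.Full.Topo
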