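import Vale.Agent.P205.Full.Topo.MovesCancel

/-!
# TOPO Moves 7: all zeros of the normal field are removed, and the formal immersion follows

The zero `q` is walked through its component; the first time it comes near another zero the two
are cancelled.
-/

open scoped Manifold ContDiff Topology
open Function Set Filter Metric

namespace Vale.Agent.P205.Full.Topo

open Open (ich tgt)

variable {M : Type} [TopologicalSpace M] [ChartedSpace R2 M] [IsManifold (𝓡 2) ∞ M] {n : ℕ}
variable {ι : M → Rn n} {Ψ : M → Rn n →L[ℝ] R4} {N : M → R4}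

/-- An adapted ball at `p` which meets a given finite set at most in `p`. -/
lemma exists_ball_avoid [T2Space M] (hι : IsEmb ι)
    (hΨ : ContMDiff (𝓡 2) 𝓘(ℝ, Rn n →L[ℝ] R4) ∞ Ψ)
    (hinj : ∀ x, Injective fun v : R2 => Ψ x (dι ι x v)) (p : M) {F : Set M} (hF : F.Finite) :
    ∃ B : Ball ι Ψ, B.c = p ∧ B.u0 = co p p ∧ ∀ z ∈ B.region, z ∈ F → z = p := by
  obtain ⟨B, hc, hu⟩ := exists_ball hι hΨ hinj p
  have hp := mem_chart_source R2 p
  have hnhds : (F \ {p})ᶜ ∈ 𝓝 (ich p (co p p)) := by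
    rw [ich_co hp]
    exact hF.sdiff.isClosed.isOpen_compl.mem_nhds fun h => h.2 rfl
  have hcont : ContinuousAt (ich p) (co p p) := (continuousOn_extChartAt_symm p).continuousAt
    ((Open.isOpen_tgt p).mem_nhds (co_mem hp))
  obtain ⟨ε, hε, hεs⟩ := Metric.mem_nhds_iff.1 (hcont.preimage_mem_nhds hnhds)
  have hsub : closedBall B.u0 (min B.R ε) ⊆ closedBall B.u0 B.R :=
    closedBall_subset_closedBall (min_le_left _ _)
  refine ⟨{ B with
    R := min B.R ε
    hR := lt_min B.hR hε
    sub := hsub.trans B.sub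
    bij := fun u h => B.bij u (hsub h)
    bijP := fun u h => B.bijP u (hsub h) }, hc, hu, ?_⟩
  rintro z ⟨hz1, hz2⟩ hzF
  simp only [hc] at hz1
  simp only [mem_preimage, Ball.dom, hc, hu, mem_ball, lt_min_iff] at hz2
  by_contra hne
  have h := hεs (mem_ball.2 hz2.2)
  simp only [mem_preimage, ich_co hz1, mem_compl_iff] at h
  exact h ⟨hzF, hne⟩

/-- Some zero can always be removed. -/
lemma exists_reduce [T2Space M] (hι : IsEmb ι) (hst : State ι Ψ N)
    (hne : (bad ι Ψ N).Nonempty) :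
    ∃ Ψ' N', State ι Ψ' N' ∧ (bad ι Ψ' N').ncard < (bad ι Ψ N).ncard := by
  classical
  by_contra hno
  haveI : LocallyConnectedSpace M := ChartedSpace.locallyConnectedSpace R2 M
  obtain ⟨q, hq⟩ := hne
  set F := bad ι Ψ N \ {q} with hFdef
  have hFfin : F.Finite := hst.finite.sdiff
  obtain ⟨C, hC1, hmove⟩ := exists_move (ι := ι) hι
  set A : Set M := {y | y ∉ F ∧ ∃ N', State ι Ψ N' ∧ bad ι Ψ N' = insert y F} with hA
  have hqA : q ∈ A := ⟨fun h => h.2 rfl, N, hst, by rw [hFdef, insert_sdiff_self_of_mem hq]⟩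
  have hlocal : ∀ p : M, ∃ U ∈ 𝓝 p, (U ∩ A).Nonempty → U ⊆ A := by
    intro p
    obtain ⟨B, hc, hu, hav⟩ := exists_ball_avoid hι hst.smoothΨ hst.inj p hFfin
    set δ := B.R / (8 * C) with hδ
    have hR := B.hR
    have hC0 : 0 < 8 * C := by linarith
    have hδC : 8 * C * δ = B.R := by rw [hδ]; field_simp
    have hδ0 : 0 < δ := div_pos hR hC0
    have hδR : δ ≤ B.R / 8 := by nlinarith
    have hpr : p ∈ B.region := by
      refine ⟨hc ▸ mem_chart_source R2 p, ?_⟩
      show co B.c p ∈ B.dom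
      rw [hc, ← hu]; exact mem_ball_self hR
    have hcop : co B.c p = B.u0 := by rw [hc, hu]
    set U := B.region ∩ co B.c ⁻¹' ball B.u0 δ with hU
    have hUn : U ∈ 𝓝 p := by
      refine inter_mem (B.isOpen_region.mem_nhds hpr) ?_
      refine ((continuousOn_extChartAt (I := 𝓡 2) B.c).continuousAt
        ((isOpen_extChartAt_source B.c).mem_nhds ?_)).preimage_mem_nhds ?_
      · rw [extChartAt_source]; exact hpr.1
      · show ball B.u0 δ ∈ 𝓝 (co B.c p)
        rw [hcop]; exact ball_mem_nhds _ hδ0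
    refine ⟨U, hUn, ?_⟩
    rintro ⟨y, ⟨hy, hyd⟩, hyF, N', hst', hbad'⟩ z ⟨hz, hzd⟩
    simp only [mem_preimage, mem_ball] at hyd hzd
    have hyb : y ∈ bad ι Ψ N' := by rw [hbad']; exact mem_insert _ _
    by_cases hpF : p ∈ F
    · refine absurd ?_ hno
      have hpy : y ≠ p := fun h => hyF (h ▸ hpF)
      have hpb : p ∈ bad ι Ψ N' := by rw [hbad']; exact mem_insert_of_mem _ hpF
      obtain ⟨Ψ'', N'', hst'', hbad''⟩ := exists_cancel hι hst' B hpy hy hpr hyb hpb
        (by linarith) (by rw [hcop, dist_self]; positivity) fun w hw hwb => by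
          rw [hbad'] at hwb
          rcases hwb with rfl | h
          · exact Or.inl rfl
          · exact Or.inr (hav w hw h)
      refine ⟨Ψ'', N'', hst'', lt_of_le_of_lt (ncard_le_ncard ?_ hFfin)
        (ncard_sdiff_singleton_lt_of_mem hq hst.finite)⟩
      rw [hbad'', hbad']
      rintro w ⟨rfl | hw, hne'⟩
      · exact absurd (mem_insert _ _) hne'
      · exact hw
    · have hnF : ∀ w ∈ B.region, w ∉ F := fun w hw h => hpF (hav w hw h ▸ h)
      refine ⟨hnF z hz, ?_⟩
      have hsub : closedBall (co B.c y) (B.R / 2) ⊆ closedBall B.u0 (3 * B.R / 4) :=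
        closedBall_subset_closedBall' (by linarith)
      obtain ⟨N'', hst'', hbad''⟩ := hmove Ψ N' hst' B (co B.c y) (co B.c z) (B.R / 2)
        (3 * B.R / 4) (by linarith) hsub ((B.mem_bad_iff_nu hι hy).1 hyb)
        (fun u hu h0 => by
          have hud : u ∈ B.dom := closedBall_subset_ball (by linarith) (hsub hu)
          have hur := B.ich_mem_region hud
          have hub : ich B.c u ∈ bad ι Ψ N' :=
            (B.mem_bad_iff_nu hι hur).2 (by rw [co_ich (B.dom_tgt hud)]; exact h0)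
          rw [hbad'] at hub
          rcases hub with h | h
          · rw [← h, co_ich (B.dom_tgt hud)]
          · exact absurd h (hnF _ hur))
        (by
          have h1 : ‖co B.c z - co B.c y‖ < 2 * δ := by
            rw [← dist_eq_norm]
            have := dist_triangle_right (co B.c z) (co B.c y) B.u0
            linarith
          nlinarith [norm_nonneg (co B.c z - co B.c y)])
      refine ⟨N'', hst'', ?_⟩
      rw [hbad'', ich_co hz.1, ich_co hy.1, hbad', insert_sdiff_self_of_notMem hyF]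
  have hAc : IsClopen A := by
    refine ⟨⟨isOpen_iff_mem_nhds.2 fun p hp => ?_⟩, isOpen_iff_mem_nhds.2 fun p hp => ?_⟩
    · obtain ⟨U, hU, h⟩ := hlocal p
      exact mem_of_superset hU fun z hz hzA => hp (h ⟨z, hz, hzA⟩ (mem_of_mem_nhds hU))
    · obtain ⟨U, hU, h⟩ := hlocal p
      exact mem_of_superset hU (h ⟨p, mem_of_mem_nhds hU, hp⟩)
  obtain ⟨r, ⟨hr, hrS⟩, hrq⟩ : ∃ r ∈ bad ι Ψ N ∩ connectedComponent q, r ≠ q := by
    by_contra h
    push Not at h
    have he : bad ι Ψ N ∩ connectedComponent q = {q} :=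
      eq_singleton_iff_unique_mem.2 ⟨⟨hq, mem_connectedComponent⟩, h⟩
    have := hst.even _ (isClopen_connectedComponent (x := q))
    rw [he, ncard_singleton] at this
    exact absurd this (by decide)
  exact (hAc.connectedComponent_subset hqA hrS).1 ⟨hr, hrq⟩

/-- All zeros can be removed. -/
lemma exists_bad_empty [T2Space M] (hι : IsEmb ι) : ∀ k : ℕ, ∀ (Ψ : M → Rn n →L[ℝ] R4) (N : M → R4),
    State ι Ψ N → (bad ι Ψ N).ncard = k → ∃ Ψ' N', State ι Ψ' N' ∧ bad ι Ψ' N' = ∅ := by
  intro k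
  induction k using Nat.strong_induction_on with
  | _ k ih =>
    intro Ψ N hst hk
    rcases (bad ι Ψ N).eq_empty_or_nonempty with h | h
    · exact ⟨Ψ, N, hst, h⟩
    · obtain ⟨Ψ', N', hst', hlt⟩ := exists_reduce hι hst h
      exact ih _ (hk ▸ hlt) Ψ' N' hst' rfl

/-- The imaginary part of `conj a * v` in the quaternions. -/
noncomputable def imConjMul (a v : R4) : R3 :=
  WithLp.toLp 2 ![a 0 * v 1 - a 1 * v 0 - a 2 * v 3 + a 3 * v 2,
    a 0 * v 2 + a 1 * v 3 - a 2 * v 0 - a 3 * v 1,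
    a 0 * v 3 - a 1 * v 2 + a 2 * v 1 - a 3 * v 0]

/-- Its bilinear map. -/
noncomputable def projAlong : R4 →L[ℝ] R4 →L[ℝ] R3 :=
  ((LinearMap.toContinuousLinearMap : (R4 →ₗ[ℝ] R3) ≃ₗ[ℝ] (R4 →L[ℝ] R3)).toLinearMap.comp
    (LinearMap.mk₂ ℝ imConjMul
      (fun a b v => by ext i; fin_cases i <;> simp [imConjMul] <;> ring)
      (fun c a v => by ext i; fin_cases i <;> simp [imConjMul] <;> ring)
      (fun a v w => by ext i; fin_cases i <;> simp [imConjMul] <;> ring)
      (fun c a v => by ext i; fin_cases i <;> simp [imConjMul] <;> ring))).toContinuousLinearMap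

lemma projAlong_apply (a v : R4) : projAlong a v = imConjMul a v := rfl

/-- The kernel of `projAlong a` is the line of `a`. -/
lemma projAlong_ker {a v : R4} (ha : a ≠ 0) (h : projAlong a v = 0) : ∃ c : ℝ, v = c • a := by
  rw [projAlong_apply, imConjMul] at h
  have h1 := congrArg (fun w : R3 => w 0) h
  have h2 := congrArg (fun w : R3 => w 1) h
  have h3 := congrArg (fun w : R3 => w 2) h
  simp at h1 h2 h3
  set s := a 0 * a 0 + a 1 * a 1 + a 2 * a 2 + a 3 * a 3 with hs
  have hs0 : s ≠ 0 := by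
    intro h0
    apply ha
    ext i
    fin_cases i <;> simp <;>
      nlinarith [mul_self_nonneg (a 0), mul_self_nonneg (a 1), mul_self_nonneg (a 2),
        mul_self_nonneg (a 3)]
  refine ⟨(a 0 * v 0 + a 1 * v 1 + a 2 * v 2 + a 3 * v 3) / s, ?_⟩
  ext i
  simp only [PiLp.smul_apply, smul_eq_mul]
  rw [div_mul_eq_mul_div, eq_div_iff hs0, hs]
  fin_cases i <;> simp
  · linear_combination -a 1 * h1 - a 2 * h2 - a 3 * h3
  · linear_combination a 0 * h1 - a 3 * h2 + a 2 * h3
  · linear_combination a 3 * h1 + a 0 * h2 - a 1 * h3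
  · linear_combination -a 2 * h1 + a 1 * h2 + a 0 * h3

/-- **TOPO, moves.** A generic projection to `ℝ⁴` gives a formal immersion in `ℝ³`. -/
theorem formal : FormalProp := by
  intro M _ _ _ _ _ n ι A hι hA
  obtain ⟨Ψ, N, hst, hbad⟩ := exists_bad_empty hι _ _ _ (state_start hι hA) rfl
  have hnot : ∀ x (v : R2), Ψ x (dι ι x v) ≠ N x := fun x v h => by
    have : x ∈ bad ι Ψ N := ⟨v, h⟩
    rwa [hbad] at this
  refine ⟨fun x => (projAlong (N x)).comp (Ψ x),
    (projAlong.contMDiff.comp hst.smoothN).clm_comp hst.smoothΨ, fun x v w hvw => ?_⟩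
  have hN0 : N x ≠ 0 := fun h => hnot x 0 (by simp [h])
  have hk : projAlong (N x) (Ψ x (dι ι x (v - w))) = 0 := by
    simp only [map_sub]
    exact sub_eq_zero.2 hvw
  obtain ⟨c, hc⟩ := projAlong_ker hN0 hk
  by_cases hc0 : c = 0
  · rw [hc0, zero_smul] at hc
    exact hst.inj x (by simpa [map_sub, sub_eq_zero] using hc)
  · refine absurd ?_ (hnot x (c⁻¹ • (v - w)))
    rw [map_smul, map_smul, hc, smul_smul, inv_mul_cancel₀ hc0, one_smul]

end Vale.Agent.P205.Full.Topo
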