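import Vale.Agent.P205.Full.Topo.GenericProof
import Vale.Agent.P205.Full.Topo.Moves
import Vale.Agent.P205.Full.Topo.HPrinciple

/-!
# P205 full, module TOPO: every closed surface immerses in `ℝ³`
-/

namespace Vale.Agent.P205.Full.Topo

/-- **Every closed smooth surface has a smooth immersion in `ℝ³`.** -/
theorem surfacesImmerse : SurfacesImmerse := surfacesImmerse_of generic formal hPrinciple

end Vale.Agent.P205.Full.Topo
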