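import Vale.Agent.P205.Full.Topo.Interface

/-!
# P205 full, module TOPO: the embedding in charts
-/

open scoped Manifold ContDiff Topology
open Set Function Filter

namespace Vale.Agent.P205.Full.Topo

variable {M : Type} [TopologicalSpace M] [ChartedSpace R2 M] [IsManifold (𝓡 2) ∞ M] {n : ℕ}
  {ι : M → Rn n} (A : Rn n →L[ℝ] R4)

/-- `ι` in the chart at `c`. -/
noncomputable def ic (ι : M → Rn n) (c : M) : R2 → Rn n :=
  fun u => ι ((extChartAt (𝓡 2) c).symm u)

lemma contDiffOn_ic (hι : IsEmb ι) (c : M) :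
    ContDiffOn ℝ ∞ (ic ι c) (extChartAt (𝓡 2) c).target :=
  contMDiffOn_iff_contDiffOn.1 (hι.smooth.comp_contMDiffOn (contMDiffOn_extChartAt_symm c))

lemma contDiffOn_gChart (hι : IsEmb ι) (c : M) :
    ContDiffOn ℝ ∞ (gChart ι A c) (extChartAt (𝓡 2) c).target :=
  A.contDiff.comp_contDiffOn (contDiffOn_ic hι c)

lemma fderiv_ic (hι : IsEmb ι) (c : M) {u : R2} (hu : u ∈ (extChartAt (𝓡 2) c).target) :
    ∃ T : R2 →L[ℝ] R2, Bijective T ∧
      ∀ v, fderiv ℝ (ic ι c) u v = dι ι ((extChartAt (𝓡 2) c).symm u) (T v) := by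
  have hs := ((contMDiffOn_extChartAt_symm (I := 𝓡 2) (n := ∞) c).contMDiffAt
    ((isOpen_extChartAt_target c).mem_nhds hu)).mdifferentiableAt (by simp)
  set T : R2 →L[ℝ] R2 := mfderiv 𝓘(ℝ, R2) (𝓡 2) (extChartAt (𝓡 2) c).symm u with hT
  have hinj : Injective T := by
    have h := mfderiv_extChartAt_comp_mfderivWithin_extChartAt_symm (I := 𝓡 2) hu
    rw [(𝓡 2).range_eq_univ, mfderivWithin_univ] at h
    intro a b hab
    have ha := DFunLike.congr_fun h a
    have hb := DFunLike.congr_fun h b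
    exact (ha.symm.trans (congrArg (mfderiv (𝓡 2) 𝓘(ℝ, R2) (extChartAt (𝓡 2) c)
      ((extChartAt (𝓡 2) c).symm u)) hab)).trans hb
  refine ⟨T, ⟨hinj, LinearMap.injective_iff_surjective (f := T.toLinearMap).1 hinj⟩, fun v => ?_⟩
  have hc := mfderiv_comp u (hι.smooth.mdifferentiableAt (by simp)) hs
  rw [mfderiv_eq_fderiv] at hc
  exact DFunLike.congr_fun hc v

lemma fderiv_gChart (hι : IsEmb ι) (c : M) {u : R2} (hu : u ∈ (extChartAt (𝓡 2) c).target)
    (v : R2) : fderiv ℝ (gChart ι A c) u v = A (fderiv ℝ (ic ι c) u v) := by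
  have h : HasFDerivAt (gChart ι A c) (A.comp (fderiv ℝ (ic ι c) u)) u :=
    A.hasFDerivAt.comp u (((contDiffOn_ic hι c).differentiableOn (by simp)).differentiableAt
      ((isOpen_extChartAt_target c).mem_nhds hu)).hasFDerivAt
  rw [h.fderiv]
  rfl

lemma injective_fderiv_ic (hι : IsEmb ι) (c : M) {u : R2}
    (hu : u ∈ (extChartAt (𝓡 2) c).target) : Injective (fderiv ℝ (ic ι c) u) := by
  obtain ⟨T, hT, h⟩ := fderiv_ic hι c hu
  intro a b hab
  rw [h, h] at hab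
  exact hT.1 (hι.imm _ hab)

lemma injective_fderiv_gChart (hι : IsEmb ι) (c : M) {x : M}
    (hx : x ∈ (extChartAt (𝓡 2) c).source) (himm : Injective fun v : R2 => A (dι ι x v)) :
    Injective (fderiv ℝ (gChart ι A c) (extChartAt (𝓡 2) c x)) := by
  have hu := (extChartAt (𝓡 2) c).map_source hx
  obtain ⟨T, hT, h⟩ := fderiv_ic hι c hu
  intro a b hab
  rw [fderiv_gChart A hι c hu, fderiv_gChart A hι c hu, h, h,
    (extChartAt (𝓡 2) c).left_inv hx] at hab
  exact hT.1 (himm hab)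

lemma mem_umb_iff (hι : IsEmb ι) (c : M) {x : M} (hx : x ∈ (extChartAt (𝓡 2) c).source) :
    x ∈ umb ι A ↔ ∃ w, fderiv ℝ (gChart ι A c) (extChartAt (𝓡 2) c x) w = e4 := by
  have hu := (extChartAt (𝓡 2) c).map_source hx
  obtain ⟨T, hT, h⟩ := fderiv_ic hι c hu
  rw [(extChartAt (𝓡 2) c).left_inv hx] at h
  constructor
  · rintro ⟨v, hv⟩
    obtain ⟨w, rfl⟩ := hT.2 v
    exact ⟨w, by rw [fderiv_gChart A hι c hu, h, hv]⟩
  · rintro ⟨w, hw⟩
    exact ⟨T w, by rw [← h, ← fderiv_gChart A hι c hu, hw]⟩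

/-- Nondegeneracy passes from the chart at `c` to the chart at `z`. -/
lemma nondeg_transfer (hι : IsEmb ι) {c z : M} (hz : z ∈ (extChartAt (𝓡 2) c).source)
    (hc : ∀ w, fderiv ℝ (gChart ι A c) (extChartAt (𝓡 2) c z) w = e4 →
      Bijective (fderiv ℝ (fun p : R2 × R2 => fderiv ℝ (gChart ι A c) p.1 p.2)
        (extChartAt (𝓡 2) c z, w)))
    (w : R2) (hw : fderiv ℝ (gChart ι A z) (extChartAt (𝓡 2) z z) w = e4) :
    Bijective (fderiv ℝ (fun p : R2 × R2 => fderiv ℝ (gChart ι A z) p.1 p.2)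
      (extChartAt (𝓡 2) z z, w)) := by
  set φz := extChartAt (𝓡 2) z
  set φc := extChartAt (𝓡 2) c
  set u₀ := φz z with hu₀
  have hu₀t : u₀ ∈ φz.target := φz.map_source (mem_extChartAt_source z)
  have hz0 : φz.symm u₀ = z := φz.left_inv (mem_extChartAt_source z)
  set W := φz.target ∩ φz.symm ⁻¹' φc.source
  have hWo : IsOpen W := (continuousOn_extChartAt_symm z).isOpen_inter_preimage
    (isOpen_extChartAt_target z) (isOpen_extChartAt_source c)
  have hu₀W : u₀ ∈ W := ⟨hu₀t, by show φz.symm u₀ ∈ φc.source; rw [hz0]; exact hz⟩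
  set τ : R2 → R2 := fun u => φc (φz.symm u)
  have hτ : ContDiffOn ℝ ∞ τ W :=
    contMDiffOn_iff_contDiffOn.1 ((contMDiffOn_extChartAt (I := 𝓡 2) (x := c)).comp
      ((contMDiffOn_extChartAt_symm z).mono inter_subset_left) fun u hu => by
        rw [← extChartAt_source (𝓡 2)]; exact hu.2)
  have hτmem : ∀ u ∈ W, τ u ∈ φc.target := fun u hu => φc.map_source hu.2
  have heq : ∀ u ∈ W, ic ι z u = ic ι c (τ u) := fun u hu => by
    show ι (φz.symm u) = ι (φc.symm (φc (φz.symm u)))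
    rw [φc.left_inv hu.2]
  have hd : ∀ u ∈ W, fderiv ℝ (gChart ι A z) u =
      (fderiv ℝ (gChart ι A c) (τ u)).comp (fderiv ℝ τ u) := fun u hu => by
    have h1 : gChart ι A z =ᶠ[𝓝 u] gChart ι A c ∘ τ := by
      filter_upwards [hWo.mem_nhds hu] with v hv
      exact congrArg A (heq v hv)
    rw [h1.fderiv_eq]
    exact fderiv_comp u (((contDiffOn_gChart A hι c).differentiableOn (by simp)).differentiableAt
      ((isOpen_extChartAt_target c).mem_nhds (hτmem u hu)))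
      ((hτ.differentiableOn (by simp)).differentiableAt (hWo.mem_nhds hu))
  have hτinj : Injective (fderiv ℝ τ u₀) := by
    have h1 : ic ι z =ᶠ[𝓝 u₀] ic ι c ∘ τ := by
      filter_upwards [hWo.mem_nhds hu₀W] with v hv
      exact heq v hv
    have h2 := injective_fderiv_ic hι z hu₀t
    rw [h1.fderiv_eq, fderiv_comp u₀ (((contDiffOn_ic hι c).differentiableOn (by simp)).differentiableAt
      ((isOpen_extChartAt_target c).mem_nhds (hτmem u₀ hu₀W)))
      ((hτ.differentiableOn (by simp)).differentiableAt (hWo.mem_nhds hu₀W))] at h2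
    exact Injective.of_comp h2
  set T : R2 × R2 → R2 × R2 := fun p => (τ p.1, fderiv ℝ τ p.1 p.2)
  have hτ1 : HasFDerivAt τ (fderiv ℝ τ u₀) u₀ :=
    ((hτ.differentiableOn (by simp)).differentiableAt (hWo.mem_nhds hu₀W)).hasFDerivAt
  have hτ2 : HasFDerivAt (fderiv ℝ τ) (fderiv ℝ (fderiv ℝ τ) u₀) u₀ :=
    (((hτ.fderiv_of_isOpen hWo (m := ∞) le_rfl).differentiableOn (by simp)).differentiableAt
      (hWo.mem_nhds hu₀W)).hasFDerivAt
  have hfst : HasFDerivAt (fun p : R2 × R2 => p.1) (ContinuousLinearMap.fst ℝ R2 R2) (u₀, w) :=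
    hasFDerivAt_fst
  have hsnd : HasFDerivAt (fun p : R2 × R2 => p.2) (ContinuousLinearMap.snd ℝ R2 R2) (u₀, w) :=
    hasFDerivAt_snd
  have ha : HasFDerivAt (fun p : R2 × R2 => τ p.1)
      ((fderiv ℝ τ u₀).comp (ContinuousLinearMap.fst ℝ R2 R2)) (u₀, w) :=
    HasFDerivAt.comp (g := τ) (f := fun p : R2 × R2 => p.1) ((u₀, w) : R2 × R2) hτ1 hfst
  have hb₂ : HasFDerivAt (fun p : R2 × R2 => fderiv ℝ τ p.1)
      ((fderiv ℝ (fderiv ℝ τ) u₀).comp (ContinuousLinearMap.fst ℝ R2 R2)) (u₀, w) :=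
    HasFDerivAt.comp (g := fderiv ℝ τ) (f := fun p : R2 × R2 => p.1) ((u₀, w) : R2 × R2) hτ2 hfst
  have hTd : HasFDerivAt T _ (u₀, w) := ha.prodMk (hb₂.clm_apply hsnd)
  have hTeq : T (u₀, w) = (φc z, fderiv ℝ τ u₀ w) := by
    show (φc (φz.symm u₀), _) = _
    rw [hz0]
  have hg : DifferentiableAt ℝ (fderiv ℝ (gChart ι A c)) (T (u₀, w)).1 :=
    (((contDiffOn_gChart A hι c).fderiv_of_isOpen (isOpen_extChartAt_target c)
      (m := ∞) le_rfl).differentiableOn (by simp)).differentiableAt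
      ((isOpen_extChartAt_target c).mem_nhds (hτmem u₀ hu₀W))
  have hH : DifferentiableAt ℝ (fun p : R2 × R2 => fderiv ℝ (gChart ι A c) p.1 p.2)
      (T (u₀, w)) :=
    (DifferentiableAt.comp (g := fderiv ℝ (gChart ι A c)) (f := fun p : R2 × R2 => p.1)
      (T (u₀, w)) hg differentiableAt_fst).clm_apply differentiableAt_snd
  have hee : (fun p : R2 × R2 => fderiv ℝ (gChart ι A z) p.1 p.2) =ᶠ[𝓝 (u₀, w)]
      (fun p : R2 × R2 => fderiv ℝ (gChart ι A c) p.1 p.2) ∘ T := by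
    filter_upwards [continuous_fst.continuousAt.preimage_mem_nhds (hWo.mem_nhds hu₀W)] with p hp
    simp only [hd p.1 hp]
    rfl
  rw [hee.fderiv_eq, fderiv_comp (u₀, w) hH hTd.differentiableAt, hTd.fderiv]
  have hb := hc (fderiv ℝ τ u₀ w) (by
    rw [hd u₀ hu₀W] at hw
    show fderiv ℝ (gChart ι A c) (φc z) (fderiv ℝ τ u₀ w) = e4
    rw [show φc z = τ u₀ by simp [τ, hz0]]
    exact hw)
  rw [← hTeq] at hb
  refine hb.comp ?_
  refine ⟨?_, LinearMap.injective_iff_surjective.1 ?_⟩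
  all_goals
    refine (injective_iff_map_eq_zero _).2 fun v hv => ?_
    have h1 : fderiv ℝ τ u₀ v.1 = 0 := congrArg Prod.fst hv
    have h2 : v.1 = 0 := hτinj (h1.trans (map_zero _).symm)
    have h3 : fderiv ℝ τ u₀ v.2 + fderiv ℝ (fderiv ℝ τ) u₀ v.1 w = 0 := congrArg Prod.snd hv
    rw [h2, map_zero, zero_apply, add_zero] at h3
    exact Prod.ext h2 (hτinj (h3.trans (map_zero _).symm))

end Vale.Agent.P205.Full.Topo
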