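import Vale.Agent.P205.Full.Topo.Interface

/-!
# P205 full, module TOPO: chords of an immersed surface in `ℝ⁴` parallel to `e4`, near the diagonal
-/

open scoped Topology ContDiff
open Set Filter Metric Function

namespace Vale.Agent.P205.Full.Topo

variable {G : R2 → R4} {U : Set R2} (hU : IsOpen U) (hG : ContDiffOn ℝ ∞ G U) {u₀ : R2}
  (hu₀ : u₀ ∈ U)

include hU hG hu₀ in
/-- Near `u₀` the map and its differential are close to the differential at `u₀`. -/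
lemma exists_slope {η : ℝ} (hη : 0 < η) : ∃ r > 0, ball u₀ r ⊆ U ∧
    (∀ u ∈ ball u₀ r, ‖fderiv ℝ G u - fderiv ℝ G u₀‖ ≤ η) ∧
    ∀ u ∈ ball u₀ r, ∀ v ∈ ball u₀ r, ‖G u - G v - fderiv ℝ G u₀ (u - v)‖ ≤ η * ‖u - v‖ := by
  have hc := (hG.continuousOn_fderiv_of_isOpen hU (by simp)).continuousAt (hU.mem_nhds hu₀)
  obtain ⟨r, hr, hb⟩ := Metric.mem_nhds_iff.1
    (inter_mem (hU.mem_nhds hu₀) (hc.preimage_mem_nhds (closedBall_mem_nhds _ hη)))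
  have hd : ∀ u ∈ ball u₀ r, ‖fderiv ℝ G u - fderiv ℝ G u₀‖ ≤ η := fun u hu => by
    simpa [dist_eq_norm] using (hb hu).2
  exact ⟨r, hr, fun u hu => (hb hu).1, hd, fun u hu v hv =>
    (convex_ball u₀ r).norm_image_sub_le_of_norm_fderiv_le'
      (fun w hw => (hG.differentiableOn (by simp)).differentiableAt (hU.mem_nhds (hb hw).1))
      hd hv hu⟩

lemma exists_lower (hi : Injective (fderiv ℝ G u₀)) :
    ∃ c > 0, ∀ w : R2, c * ‖w‖ ≤ ‖fderiv ℝ G u₀ w‖ := by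
  obtain ⟨K, hK, hA⟩ := LinearMap.exists_antilipschitzWith (fderiv ℝ G u₀).toLinearMap
    (LinearMap.ker_eq_bot.2 hi)
  refine ⟨(K : ℝ)⁻¹, inv_pos.2 (NNReal.coe_pos.2 hK), fun w => ?_⟩
  rw [inv_mul_le_iff₀ (NNReal.coe_pos.2 hK)]
  simpa using ZeroHomClass.bound_of_antilipschitz (fderiv ℝ G u₀) hA w

lemma norm_e4 : ‖e4‖ = 1 := by simp [e4]

include hU hG hu₀ in
lemma local_inj (hi : Injective (fderiv ℝ G u₀)) :
    ∃ r > 0, ∀ u ∈ ball u₀ r, ∀ v ∈ ball u₀ r, G u = G v → u = v := by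
  obtain ⟨c, hc, hlow⟩ := exists_lower hi
  obtain ⟨r, hr, -, -, hs⟩ := exists_slope hU hG hu₀ (half_pos hc)
  refine ⟨r, hr, fun u hu v hv h => ?_⟩
  have h1 := hs u hu v hv
  rw [h, sub_self, zero_sub, norm_neg] at h1
  have h2 := hlow (u - v)
  have h3 : ‖u - v‖ ≤ 0 := by nlinarith [norm_nonneg (u - v)]
  exact sub_eq_zero.1 (norm_le_zero_iff.1 h3)

include hU hG hu₀ in
lemma local_none (hi : Injective (fderiv ℝ G u₀)) (hne : ∀ w, fderiv ℝ G u₀ w ≠ e4) :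
    ∃ r > 0, ball u₀ r ⊆ U ∧ (∀ u ∈ ball u₀ r, ∀ w, fderiv ℝ G u w ≠ e4) ∧
      ∀ u ∈ ball u₀ r, ∀ v ∈ ball u₀ r, ∀ s : ℝ, s ≠ 0 → G u - G v ≠ s • e4 := by
  obtain ⟨c, hc, hlow⟩ := exists_lower hi
  obtain ⟨d, hd, hdist⟩ : ∃ d > 0, ∀ w, d ≤ ‖e4 - fderiv ℝ G u₀ w‖ := by
    have hcl := (LinearMap.range (fderiv ℝ G u₀).toLinearMap).closed_of_finiteDimensional
    have hmem : e4 ∉ (LinearMap.range (fderiv ℝ G u₀).toLinearMap : Set R4) := fun ⟨w, hw⟩ =>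
      hne w hw
    refine ⟨infDist e4 (LinearMap.range (fderiv ℝ G u₀).toLinearMap : Set R4),
      (hcl.notMem_iff_infDist_pos ⟨0, Submodule.zero_mem _⟩).1 hmem, fun w => ?_⟩
    rw [← dist_eq_norm]
    exact infDist_le_dist_of_mem ⟨w, rfl⟩
  -- a solution `w` of `‖e4 - DG w‖ ≤ η ‖w‖` is bounded by `2 / c`
  set η := min (c / 2) (c * d / 4)
  have hη : 0 < η := by positivity
  have key : ∀ w, ‖e4 - fderiv ℝ G u₀ w‖ ≤ η * ‖w‖ → False := by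
    intro w hw
    have h1 := hlow w
    have h2 : ‖fderiv ℝ G u₀ w‖ ≤ ‖e4‖ + ‖e4 - fderiv ℝ G u₀ w‖ :=
      norm_le_norm_add_norm_sub _ _
    rw [norm_e4] at h2
    have h3 : c / 2 * ‖w‖ ≤ 1 := by nlinarith [min_le_left (c / 2) (c * d / 4), norm_nonneg w]
    have h4 := hdist w
    nlinarith [mul_le_mul_of_nonneg_right (min_le_right (c / 2) (c * d / 4)) (norm_nonneg w)]
  obtain ⟨r, hr, hsub, hd', hs⟩ := exists_slope hU hG hu₀ hη
  refine ⟨r, hr, hsub, fun u hu w hw => key w ?_, fun u hu v hv s hs0 h => key (s⁻¹ • (u - v)) ?_⟩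
  · rw [← hw, ← sub_apply]
    exact (ContinuousLinearMap.le_opNorm _ _).trans
      (mul_le_mul_of_nonneg_right (hd' u hu) (norm_nonneg w))
  · have h1 := hs u hu v hv
    rw [h] at h1
    have h2 : e4 - fderiv ℝ G u₀ (s⁻¹ • (u - v)) = s⁻¹ • (s • e4 - fderiv ℝ G u₀ (u - v)) := by
      rw [map_smul, smul_sub, smul_smul, inv_mul_cancel₀ hs0, one_smul]
    rw [h2, norm_smul, norm_smul, mul_left_comm η]
    exact mul_le_mul_of_nonneg_left h1 (norm_nonneg _)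

/-- The difference quotient in the variables `(v, w)`, `u = v + s w`. -/
noncomputable def quotMap (G : R2 → R4) (s : ℝ) (p : R2 × R2) : R4 :=
  s⁻¹ • (G (p.1 + s • p.2) - G p.1)

/-- `(u, w) ↦ DG u w`. -/
noncomputable def dirMap (G : R2 → R4) (p : R2 × R2) : R4 := fderiv ℝ G p.1 p.2

/-- The derivative of `dirMap G` at `(u, w)`. -/
noncomputable def dirLin (G : R2 → R4) (u w : R2) : R2 × R2 →L[ℝ] R4 :=
  (fderiv ℝ G u).comp (.snd ℝ R2 R2) +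
    ((fderiv ℝ (fderiv ℝ G) u).comp (.fst ℝ R2 R2)).flip w

lemma dirLin_apply (u w : R2) (z : R2 × R2) :
    dirLin G u w z = fderiv ℝ G u z.2 + fderiv ℝ (fderiv ℝ G) u z.1 w := rfl

include hU hG in
lemma hasFDerivAt_dirMap {p : R2 × R2} (hp : p.1 ∈ U) :
    HasFDerivAt (dirMap G) (dirLin G p.1 p.2) p := by
  have h : HasFDerivAt (fderiv ℝ G) (fderiv ℝ (fderiv ℝ G) p.1) p.1 :=
    (((hG.fderiv_of_isOpen hU (m := ∞) le_rfl).differentiableOn (by simp)).differentiableAt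
      (hU.mem_nhds hp)).hasFDerivAt
  exact (h.comp p hasFDerivAt_fst).clm_apply hasFDerivAt_snd

include hU hG hu₀ in
lemma second_symm (a b : R2) :
    fderiv ℝ (fderiv ℝ G) u₀ a b = fderiv ℝ (fderiv ℝ G) u₀ b a :=
  ((hG.contDiffAt (hU.mem_nhds hu₀)).isSymmSndFDerivAt
    (by rw [minSmoothness_of_isRCLikeNormedField]; exact WithTop.coe_le_coe.2 le_top)).eq a b

include hU hG hu₀ in
/-- Radii: the segment stays in a small ball with control of two derivatives. -/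
lemma exists_radii {η : ℝ} (hη : 0 < η) (w₀ : R2) : ∃ τ δ : ℝ, 0 < τ ∧ τ ≤ 1 ∧ 0 < δ ∧
    ‖fderiv ℝ (fderiv ℝ G) u₀‖ * τ ≤ η ∧ ∃ ρ : ℝ, ball u₀ ρ ⊆ U ∧
    (∀ u ∈ ball u₀ ρ, ‖fderiv ℝ G u - fderiv ℝ G u₀‖ ≤ η) ∧
    (∀ u ∈ ball u₀ ρ, ‖fderiv ℝ (fderiv ℝ G) u - fderiv ℝ (fderiv ℝ G) u₀‖ ≤ η) ∧
    ∀ p ∈ closedBall ((u₀, w₀) : R2 × R2) τ, ‖p.2 - w₀‖ ≤ τ ∧ ‖p.2‖ ≤ ‖w₀‖ + 1 ∧
      p.1 ∈ ball u₀ ρ ∧ ∀ s : ℝ, |s| < δ → p.1 + s • p.2 ∈ ball u₀ ρ := by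
  obtain ⟨r₁, hr₁, hsub, hd1, -⟩ := exists_slope hU hG hu₀ hη
  have hG1 : ContDiffOn ℝ ∞ (fderiv ℝ G) U := hG.fderiv_of_isOpen hU le_rfl
  obtain ⟨r₂, hr₂, hd2⟩ := Metric.mem_nhds_iff.1
    (((hG1.continuousOn_fderiv_of_isOpen hU (by simp)).continuousAt
      (hU.mem_nhds hu₀)).preimage_mem_nhds (closedBall_mem_nhds _ hη))
  set B₂ := fderiv ℝ (fderiv ℝ G) u₀
  set ρ := min r₁ r₂
  have hρ0 : 0 < ρ := lt_min hr₁ hr₂
  set τ := min (min (ρ / 2) 1) (η / (1 + ‖B₂‖))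
  have hτρ : τ ≤ ρ / 2 := (min_le_left _ _).trans (min_le_left _ _)
  have hτ1 : τ ≤ 1 := (min_le_left _ _).trans (min_le_right _ _)
  have hτ0 : 0 < τ := lt_min (lt_min (half_pos hρ0) one_pos) (by positivity)
  refine ⟨τ, ρ / (2 * (‖w₀‖ + 1)), hτ0, hτ1, by positivity, ?_, ρ,
    fun u hu => hsub (ball_subset_ball (min_le_left _ _) hu),
    fun u hu => hd1 u (ball_subset_ball (min_le_left _ _) hu),
    fun u hu => by simpa [dist_eq_norm] using hd2 (ball_subset_ball (min_le_right _ _) hu),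
    fun p hp => ?_⟩
  · have h1 : τ * (1 + ‖B₂‖) ≤ η := (le_div_iff₀ (by positivity)).1 (min_le_right _ _)
    linarith [hτ0.le]
  · have h : ‖p - (u₀, w₀)‖ ≤ τ := by simpa [dist_eq_norm] using hp
    have h1 : ‖p.1 - u₀‖ ≤ τ := (norm_fst_le _).trans h
    have h2 : ‖p.2 - w₀‖ ≤ τ := (norm_snd_le _).trans h
    have h3 : ‖p.2‖ ≤ ‖w₀‖ + 1 :=
      (norm_le_norm_add_norm_sub' _ _).trans (add_le_add le_rfl (h2.trans hτ1))
    refine ⟨h2, h3, mem_ball_iff_norm.2 (by linarith), fun s hs => mem_ball_iff_norm.2 ?_⟩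
    rw [add_sub_right_comm]
    refine (norm_add_le _ _).trans_lt ?_
    rw [norm_smul, Real.norm_eq_abs]
    have h4 : |s| * ‖p.2‖ ≤ |s| * (‖w₀‖ + 1) := mul_le_mul_of_nonneg_left h3 (abs_nonneg s)
    have h5 : |s| * (2 * (‖w₀‖ + 1)) < ρ := (lt_div_iff₀ (by positivity)).1 hs
    linarith

include hU hG hu₀ in
lemma dirLin_near {η W τ : ℝ} (hη : 0 ≤ η) (hW : 0 ≤ W) {u w w₀ : R2}
    (h1 : ‖fderiv ℝ G u - fderiv ℝ G u₀‖ ≤ η)
    (h2 : ‖fderiv ℝ (fderiv ℝ G) u - fderiv ℝ (fderiv ℝ G) u₀‖ ≤ η)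
    (h3 : ‖w - w₀‖ ≤ τ) (h4 : ‖w‖ ≤ W) (h5 : ‖fderiv ℝ (fderiv ℝ G) u₀‖ * τ ≤ η) :
    ‖dirLin G u w - dirLin G u₀ w₀‖ ≤ η * (W + 2) := by
  refine ContinuousLinearMap.opNorm_le_bound _ (by positivity) fun z => ?_
  set B₂ := fderiv ℝ (fderiv ℝ G) u₀
  have hτ : 0 ≤ τ := (norm_nonneg _).trans h3
  have hz : (dirLin G u w - dirLin G u₀ w₀) z = (fderiv ℝ G u - fderiv ℝ G u₀) z.2 +
      ((fderiv ℝ (fderiv ℝ G) u - B₂) z.1 w + B₂ z.1 (w - w₀)) := by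
    simp only [sub_apply, dirLin_apply, map_sub, B₂]
    abel
  have i1 : ‖(fderiv ℝ G u - fderiv ℝ G u₀) z.2‖ ≤ η * ‖z‖ :=
    (ContinuousLinearMap.le_opNorm _ _).trans (by gcongr; exact norm_snd_le z)
  have i2 : ‖(fderiv ℝ (fderiv ℝ G) u - B₂) z.1 w‖ ≤ η * ‖z‖ * W :=
    (ContinuousLinearMap.le_opNorm₂ _ _ _).trans (by gcongr; exact norm_fst_le z)
  have i3 : ‖B₂ z.1 (w - w₀)‖ ≤ η * ‖z‖ := by
    rw [second_symm hU hG hu₀]
    refine (B₂.le_opNorm₂ _ _).trans ?_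
    calc ‖B₂‖ * ‖w - w₀‖ * ‖z.1‖ ≤ ‖B₂‖ * τ * ‖z‖ := by gcongr; exact norm_fst_le z
      _ ≤ η * ‖z‖ := by gcongr
  rw [hz]
  calc _ ≤ η * ‖z‖ + (η * ‖z‖ * W + η * ‖z‖) :=
        (norm_add_le _ _).trans (add_le_add i1 ((norm_add_le _ _).trans (add_le_add i2 i3)))
    _ = η * (W + 2) * ‖z‖ := by ring

include hU hG hu₀ in
lemma quot_near {η W τ s ρ : ℝ} (hη : 0 ≤ η) (hW : 0 ≤ W) (hs : s ≠ 0) {p : R2 × R2} {w₀ : R2}
    (hsub : ball u₀ ρ ⊆ U) (hp : p.1 ∈ ball u₀ ρ) (hp' : p.1 + s • p.2 ∈ ball u₀ ρ)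
    (hd1 : ∀ u ∈ ball u₀ ρ, ‖fderiv ℝ G u - fderiv ℝ G u₀‖ ≤ η)
    (hd2 : ∀ u ∈ ball u₀ ρ, ‖fderiv ℝ (fderiv ℝ G) u - fderiv ℝ (fderiv ℝ G) u₀‖ ≤ η)
    (h3 : ‖p.2 - w₀‖ ≤ τ) (h4 : ‖p.2‖ ≤ W) (h5 : ‖fderiv ℝ (fderiv ℝ G) u₀‖ * τ ≤ η) :
    ∃ D : R2 × R2 →L[ℝ] R4, HasFDerivAt (quotMap G s) D p ∧
      ‖D - dirLin G u₀ w₀‖ ≤ η * (W + 2) ∧
      ∀ z : R2 × R2, D z = s⁻¹ • (fderiv ℝ G (p.1 + s • p.2) (z.1 + s • z.2) -
        fderiv ℝ G p.1 z.1) := by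
  have hGd : ∀ u ∈ U, HasFDerivAt G (fderiv ℝ G u) u := fun u hu =>
    ((hG.differentiableOn (by simp)).differentiableAt (hU.mem_nhds hu)).hasFDerivAt
  have hτ : 0 ≤ τ := (norm_nonneg _).trans h3
  set u := p.1 + s • p.2 with hu
  set D := s⁻¹ • ((fderiv ℝ G u).comp (.fst ℝ R2 R2 + s • .snd ℝ R2 R2) -
    (fderiv ℝ G p.1).comp (.fst ℝ R2 R2))
  have hDd : HasFDerivAt (quotMap G s) D p :=
    (((hGd u (hsub hp')).comp p (hasFDerivAt_fst.add (hasFDerivAt_snd.const_smul s))).sub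
      ((hGd p.1 (hsub hp)).comp p hasFDerivAt_fst)).const_smul s⁻¹
  refine ⟨D, hDd, ?_, fun z => by simp [D]⟩
  refine ContinuousLinearMap.opNorm_le_bound _ (by positivity) fun z => ?_
  set B₂ := fderiv ℝ (fderiv ℝ G) u₀ with hB₂
  set Q := fderiv ℝ G u - fderiv ℝ G p.1 - B₂ (u - p.1) with hQ
  have hQn : ‖Q‖ ≤ η * ‖u - p.1‖ := (convex_ball u₀ ρ).norm_image_sub_le_of_norm_fderiv_le'
    (fun w hw => ((hG.fderiv_of_isOpen hU (m := ∞) le_rfl).differentiableOn (by simp)).differentiableAt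
      (hU.mem_nhds (hsub hw))) hd2 hp hp'
  have hus : u - p.1 = s • p.2 := by simp [hu]
  have hsplit : (D - dirLin G u₀ w₀) z = s⁻¹ • Q z.1 + B₂ (p.2 - w₀) z.1 +
      (fderiv ℝ G u - fderiv ℝ G u₀) z.2 := by
    have e1 : D z = s⁻¹ • (fderiv ℝ G u (z.1 + s • z.2) - fderiv ℝ G p.1 z.1) := by simp [D]
    rw [sub_apply, dirLin_apply, e1, hQ, second_symm hU hG hu₀ z.1 w₀, ← hB₂]
    simp only [sub_apply, map_add, map_smul, map_sub, hus, smul_apply]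
    simp only [smul_sub, smul_add, smul_smul, inv_mul_cancel₀ hs, one_smul]
    abel
  have i1 : ‖s⁻¹ • Q z.1‖ ≤ η * W * ‖z‖ := by
    rw [hus, norm_smul, Real.norm_eq_abs] at hQn
    rw [norm_smul, norm_inv, Real.norm_eq_abs]
    calc |s|⁻¹ * ‖Q z.1‖ ≤ |s|⁻¹ * ((η * (|s| * ‖p.2‖)) * ‖z.1‖) := by
          gcongr
          exact (Q.le_opNorm _).trans (by gcongr)
      _ = η * ‖p.2‖ * ‖z.1‖ := by field_simp
      _ ≤ η * W * ‖z‖ := by gcongr; exact norm_fst_le z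
  have i2 : ‖B₂ (p.2 - w₀) z.1‖ ≤ η * ‖z‖ := by
    refine (B₂.le_opNorm₂ _ _).trans ?_
    calc ‖B₂‖ * ‖p.2 - w₀‖ * ‖z.1‖ ≤ ‖B₂‖ * τ * ‖z‖ := by gcongr; exact norm_fst_le z
      _ ≤ η * ‖z‖ := by gcongr
  have i3 : ‖(fderiv ℝ G u - fderiv ℝ G u₀) z.2‖ ≤ η * ‖z‖ :=
    (ContinuousLinearMap.le_opNorm _ _).trans (by gcongr; exacts [hd1 u hp', norm_snd_le z])
  rw [hsplit]
  calc _ ≤ η * W * ‖z‖ + η * ‖z‖ + η * ‖z‖ := (norm_add₃_le).trans (by gcongr)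
    _ = η * (W + 2) * ‖z‖ := by ring

lemma approx_of_near {f : R2 × R2 → R4} {L : R2 × R2 →L[ℝ] R4} {T : Set (R2 × R2)}
    (hT : Convex ℝ T) {κ : NNReal}
    (h : ∀ p ∈ T, ∃ D, HasFDerivAt f D p ∧ ‖D - L‖ ≤ κ) : ApproximatesLinearOn f L T κ := by
  rw [ApproximatesLinearOn.approximatesLinearOn_iff_lipschitzOnWith]
  refine hT.lipschitzOnWith_of_nnnorm_hasFDerivWithin_le
    (f' := fun p => fderiv ℝ f p - L) (fun p hp => ?_) fun p hp => ?_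
  · obtain ⟨D, hD, -⟩ := h p hp
    rw [hD.fderiv]
    exact (hD.sub L.hasFDerivAt).hasFDerivWithinAt
  · obtain ⟨D, hD, hn⟩ := h p hp
    rw [hD.fderiv]
    exact hn

include hU hG hu₀ in
/-- Both `dirMap` and the difference quotients are uniformly close to an invertible linear map. -/
lemma exists_model {w₀ : R2} (hb : Bijective (fderiv ℝ (dirMap G) (u₀, w₀))) :
    ∃ (e : (R2 × R2) ≃L[ℝ] R4) (κ : NNReal) (τ δ : ℝ), 0 < τ ∧ τ ≤ 1 ∧ 0 < δ ∧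
      κ < ‖(e.symm : R4 →L[ℝ] R2 × R2)‖₊⁻¹ ∧
      ApproximatesLinearOn (dirMap G) (e : R2 × R2 →L[ℝ] R4) (closedBall (u₀, w₀) τ) κ ∧
      ∀ s : ℝ, s ≠ 0 → |s| < δ →
        ApproximatesLinearOn (quotMap G s) (e : R2 × R2 →L[ℝ] R4) (closedBall (u₀, w₀) τ) κ ∧
        ∀ p ∈ closedBall ((u₀, w₀) : R2 × R2) τ, Injective fun z : R2 × R2 =>
          fderiv ℝ G (p.1 + s • p.2) z.1 - fderiv ℝ G p.1 z.2 := by
  rw [(hasFDerivAt_dirMap hU hG (p := (u₀, w₀)) hu₀).fderiv] at hb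
  let e : (R2 × R2) ≃L[ℝ] R4 :=
    (LinearEquiv.ofBijective (dirLin G u₀ w₀).toLinearMap hb).toContinuousLinearEquiv
  have he : (e : R2 × R2 →L[ℝ] R4) = dirLin G u₀ w₀ := DFunLike.ext _ _ fun z => rfl
  set N := ‖(e.symm : R4 →L[ℝ] R2 × R2)‖₊ with hN
  have hN0 : 0 < N := e.nnnorm_symm_pos
  set κ : NNReal := (2 * (N + 1))⁻¹ with hκ
  have hκN : κ < N⁻¹ := inv_strictAnti₀ hN0 (lt_of_lt_of_le (lt_add_one _)
    (le_mul_of_one_le_left zero_le one_le_two))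
  set W := ‖w₀‖ + 1
  have hη : 0 < (κ : ℝ) / (W + 2) := by rw [hκ]; positivity
  obtain ⟨τ, δ, hτ, hτ1, hδ, h5, ρ, hsub, hd1, hd2, hmem⟩ := exists_radii hU hG hu₀ hη w₀
  have hW : 0 ≤ W := by positivity
  have hκeq : (κ : ℝ) / (W + 2) * (W + 2) = κ := by field_simp
  refine ⟨e, κ, τ, δ, hτ, hτ1, hδ, hκN, approx_of_near (convex_closedBall _ _) fun p hp => ?_,
    fun s hs0 hs => ?_⟩
  · obtain ⟨h2, h3, h1, -⟩ := hmem p hp
    refine ⟨_, hasFDerivAt_dirMap hU hG (hsub h1), ?_⟩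
    rw [he]
    exact (dirLin_near hU hG hu₀ hη.le hW (hd1 _ h1) (hd2 _ h1) h2 h3 h5).trans_eq hκeq
  have hq : ∀ p ∈ closedBall ((u₀, w₀) : R2 × R2) τ, ∃ D : R2 × R2 →L[ℝ] R4,
      HasFDerivAt (quotMap G s) D p ∧ ‖D - (e : R2 × R2 →L[ℝ] R4)‖ ≤ κ ∧
      ∀ z : R2 × R2, D z = s⁻¹ • (fderiv ℝ G (p.1 + s • p.2) (z.1 + s • z.2) -
        fderiv ℝ G p.1 z.1) := by
    intro p hp
    obtain ⟨h2, h3, h1, h4⟩ := hmem p hp
    obtain ⟨D, hD, hn, hz⟩ := quot_near hU hG hu₀ hη.le hW hs0 hsub h1 (h4 s hs) hd1 hd2 h2 h3 h5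
    exact ⟨D, hD, by rw [he]; exact hn.trans_eq hκeq, hz⟩
  refine ⟨approx_of_near (convex_closedBall _ _) fun p hp => ?_, fun p hp => ?_⟩
  · obtain ⟨D, hD, hn, -⟩ := hq p hp
    exact ⟨D, hD, hn⟩
  obtain ⟨D, -, hn, hDz⟩ := hq p hp
  rintro ⟨a, b⟩ ⟨a', b'⟩ hab
  simp only at hab
  set z : R2 × R2 := (b - b', s⁻¹ • ((a - a') - (b - b')))
  have hz : D z = 0 := by
    have e1 : z.1 + s • z.2 = a - a' := by
      simp only [z, smul_smul, mul_inv_cancel₀ hs0, one_smul, add_sub_cancel]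
    rw [hDz, e1]
    simp only [z, map_sub]
    rw [sub_sub_sub_comm, hab, sub_self, smul_zero]
  have h1 : ‖e z‖ ≤ κ * ‖z‖ := by
    have := (D - (e : R2 × R2 →L[ℝ] R4)).le_opNorm z
    rw [sub_apply, hz, zero_sub, norm_neg] at this
    exact this.trans (mul_le_mul_of_nonneg_right hn (norm_nonneg z))
  have h2 : ‖z‖ ≤ N * ‖e z‖ := by
    simpa [hN] using (e.symm : R4 →L[ℝ] R2 × R2).le_opNorm (e z)
  have h3 : (N : ℝ) * κ < 1 := by
    have h4 : (κ : ℝ) * (2 * ((N : ℝ) + 1)) = 1 := by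
      rw [hκ, NNReal.coe_inv, NNReal.coe_mul, NNReal.coe_add, NNReal.coe_ofNat, NNReal.coe_one,
        inv_mul_cancel₀ (by positivity)]
    nlinarith [κ.coe_nonneg, mul_nonneg κ.coe_nonneg N.coe_nonneg]
  have hz0 : z = 0 := norm_le_zero_iff.1 (by
    nlinarith [mul_le_mul_of_nonneg_left h1 (NNReal.coe_nonneg N), norm_nonneg z])
  have hb' : b = b' := sub_eq_zero.1 (congrArg Prod.fst hz0)
  have ha : a - a' - (b - b') = 0 :=
    (smul_eq_zero.1 (congrArg Prod.snd hz0)).resolve_left (inv_ne_zero hs0)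
  rw [hb', sub_self, sub_zero, sub_eq_zero] at ha
  rw [ha, hb']

include hU hG hu₀ in
/-- At a nondegenerate point: no other umbilic nearby, and one short chord for each small `s`. -/
lemma local_one (hi : Injective (fderiv ℝ G u₀)) {w₀ : R2} (hw₀ : fderiv ℝ G u₀ w₀ = e4)
    (hb : Bijective (fderiv ℝ (fun p : R2 × R2 => fderiv ℝ G p.1 p.2) (u₀, w₀))) :
    ∃ r > 0, ball u₀ r ⊆ U ∧ (∀ u ∈ ball u₀ r, ∀ w, fderiv ℝ G u w = e4 → u = u₀) ∧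
      (∀ᶠ s in 𝓝[≠] (0 : ℝ), ∀ u ∈ ball u₀ r, ∀ v ∈ ball u₀ r, G u - G v = s • e4 →
        Injective (fun p : R2 × R2 => fderiv ℝ G u p.1 - fderiv ℝ G v p.2) ∧
        ∀ u' ∈ ball u₀ r, ∀ v' ∈ ball u₀ r, G u' - G v' = s • e4 → u' = u ∧ v' = v) ∧
      ∀ ε > 0, ∀ᶠ s in 𝓝[≠] (0 : ℝ), ∃ u ∈ ball u₀ ε, ∃ v ∈ ball u₀ ε, G u - G v = s • e4 := by
  obtain ⟨c, hc, hlow⟩ := exists_lower hi
  obtain ⟨e, κ, τ, δ, hτ, hτ1, hδ, hκN, hapH, hap⟩ := exists_model hU hG hu₀ (w₀ := w₀) hb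
  set W := ‖w₀‖ + 1
  set M := c * τ / (8 * (W + 1)) with hM
  have hM0 : 0 < M := by positivity
  obtain ⟨r₃, hr₃, hsub, hd3, hs3⟩ := exists_slope hU hG hu₀ (lt_min (half_pos hc) hM0)
  set r := min r₃ τ
  have hr0 : 0 < r := lt_min hr₃ hτ
  have hrsub : ball u₀ r ⊆ ball u₀ r₃ := ball_subset_ball (min_le_left _ _)
  have key : ∀ w, ‖e4 - fderiv ℝ G u₀ w‖ ≤ min (c / 2) M * ‖w‖ → ‖w - w₀‖ ≤ τ := by
    intro w hw
    have h3 := hlow (w - w₀)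
    rw [map_sub, hw₀, norm_sub_rev _ e4] at h3
    have h4 : c * ‖w - w₀‖ ≤ M * ‖w‖ :=
      h3.trans (hw.trans (mul_le_mul_of_nonneg_right (min_le_right _ _) (norm_nonneg w)))
    have h5 : ‖w‖ ≤ ‖w₀‖ + ‖w - w₀‖ := norm_le_norm_add_norm_sub' _ _
    have h8 : M * (8 * (W + 1)) = c * τ := by rw [hM, div_mul_cancel₀ _ (by positivity)]
    by_contra hlt
    push Not at hlt
    have hW0 : ‖w₀‖ ≤ W := le_add_of_nonneg_right zero_le_one
    have a0 : 0 ≤ M * W := by positivity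
    have a1 : M * 8 ≤ c := by nlinarith
    have a2 : M * ‖w₀‖ * 8 ≤ c * τ := by nlinarith [mul_le_mul_of_nonneg_left hW0 hM0.le]
    have a3 : M * ‖w - w₀‖ * 8 ≤ c * ‖w - w₀‖ := by nlinarith [norm_nonneg (w - w₀)]
    have a4 : M * ‖w‖ ≤ M * ‖w₀‖ + M * ‖w - w₀‖ := by
      rw [← mul_add]; exact mul_le_mul_of_nonneg_left h5 hM0.le
    have a5 : c * τ < c * ‖w - w₀‖ := mul_lt_mul_of_pos_left hlt hc
    linarith
  have hball : ∀ u ∈ ball u₀ r, ∀ w, ‖w - w₀‖ ≤ τ →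
      (u, w) ∈ closedBall ((u₀, w₀) : R2 × R2) τ := fun u hu w hw => by
    simp only [mem_closedBall, dist_eq_norm, Prod.mk_sub_mk, Prod.norm_def]
    exact max_le ((mem_ball_iff_norm.1 hu).le.trans (min_le_right _ _)) hw
  refine ⟨r, hr0, fun u hu => hsub (hrsub hu), fun u hu w hw => ?_, ?_, fun ε hε => ?_⟩
  · have hw' : ‖w - w₀‖ ≤ τ := key w (by
      rw [← hw, ← sub_apply]
      exact (ContinuousLinearMap.le_opNorm _ _).trans
        (mul_le_mul_of_nonneg_right (hd3 u (hrsub hu)) (norm_nonneg w)))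
    have := hapH.injOn (Or.inr hκN) (hball u hu w hw')
      (hball u₀ (mem_ball_self hr0) w₀ (by simp [hτ.le]))
      (show fderiv ℝ G u w = fderiv ℝ G u₀ w₀ by rw [hw, hw₀])
    exact congrArg Prod.fst this
  · have hev : ∀ᶠ s in 𝓝[≠] (0 : ℝ), s ≠ 0 ∧ |s| < δ :=
      Eventually.and self_mem_nhdsWithin (nhdsWithin_le_nhds
        ((continuous_abs.continuousAt).eventually_lt continuousAt_const (by simpa using hδ)))
    filter_upwards [hev] with s ⟨hs0, hs⟩ u hu v hv huv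
    have mk : ∀ u ∈ ball u₀ r, ∀ v ∈ ball u₀ r, G u - G v = s • e4 →
        (v, s⁻¹ • (u - v)) ∈ closedBall ((u₀, w₀) : R2 × R2) τ ∧
        quotMap G s (v, s⁻¹ • (u - v)) = e4 ∧ v + s • s⁻¹ • (u - v) = u := by
      intro u hu v hv h
      have he1 : v + s • s⁻¹ • (u - v) = u := by
        rw [smul_smul, mul_inv_cancel₀ hs0, one_smul, add_sub_cancel]
      refine ⟨hball v hv _ (key _ ?_), ?_, he1⟩
      · have h1 := hs3 u (hrsub hu) v (hrsub hv)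
        rw [h] at h1
        rw [map_smul, show e4 - s⁻¹ • fderiv ℝ G u₀ (u - v) =
          s⁻¹ • (s • e4 - fderiv ℝ G u₀ (u - v)) by
            rw [smul_sub, smul_smul, inv_mul_cancel₀ hs0, one_smul],
          norm_smul, norm_smul, mul_left_comm (min (c / 2) M)]
        exact mul_le_mul_of_nonneg_left h1 (norm_nonneg _)
      · show s⁻¹ • (G (v + s • s⁻¹ • (u - v)) - G v) = e4
        rw [he1, h, smul_smul, inv_mul_cancel₀ hs0, one_smul]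
    obtain ⟨hmT, hKe, heu⟩ := mk u hu v hv huv
    refine ⟨?_, fun u' hu' v' hv' h' => ?_⟩
    · have h := (hap s hs0 hs).2 _ hmT
      simp only [heu] at h
      exact h
    · obtain ⟨hmT', hKe', heu'⟩ := mk u' hu' v' hv' h'
      have h := (hap s hs0 hs).1.injOn (Or.inr hκN) hmT' hmT (hKe'.trans hKe.symm)
      have hv2 : v' = v := congrArg Prod.fst h
      have hw2 : s⁻¹ • (u' - v') = s⁻¹ • (u - v) := congrArg Prod.snd h
      exact ⟨by rw [← heu', ← heu, hw2, hv2], hv2⟩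
  · set ε' := min τ (ε / 2)
    have hε'0 : 0 < ε' := lt_min hτ (half_pos hε)
    have hlim : Tendsto (fun s => quotMap G s (u₀, w₀)) (𝓝[≠] 0) (𝓝 e4) := by
      have hline : HasDerivAt (fun s : ℝ => u₀ + s • w₀) w₀ 0 := by
        simpa using ((hasDerivAt_id (0 : ℝ)).smul_const w₀).const_add u₀
      have hh : HasFDerivAt G (fderiv ℝ G u₀) ((fun s : ℝ => u₀ + s • w₀) 0) := by
        simpa using ((hG.differentiableOn (by simp)).differentiableAt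
          (hU.mem_nhds hu₀)).hasFDerivAt
      have := hasDerivAt_iff_tendsto_slope_zero.1 (hh.comp_hasDerivAt (0 : ℝ) hline)
      simpa [hw₀, quotMap] using this
    set N := ‖(e.symm : R4 →L[ℝ] R2 × R2)‖₊
    have hgap : (0 : ℝ) < ((N : ℝ)⁻¹ - κ) * ε' := by
      refine mul_pos (sub_pos.2 ?_) hε'0
      exact_mod_cast hκN
    have hev : ∀ᶠ s in 𝓝[≠] (0 : ℝ), (s ≠ 0 ∧ |s| < δ ∧ |s| * W < ε / 2) ∧
        quotMap G s (u₀, w₀) ∈ closedBall e4 (((N : ℝ)⁻¹ - κ) * ε') := by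
      refine Eventually.and (Eventually.and self_mem_nhdsWithin
        (Eventually.and (nhdsWithin_le_nhds
          ((continuous_abs.continuousAt).eventually_lt continuousAt_const (by simpa using hδ)))
          (nhdsWithin_le_nhds ((continuous_abs.mul continuous_const).continuousAt.eventually_lt
            continuousAt_const (by simpa using half_pos hε)))))
        (hlim.eventually (closedBall_mem_nhds _ hgap))
    filter_upwards [hev] with s ⟨⟨hs0, hs, hsW⟩, hKs⟩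
    obtain ⟨p, hp, hpe⟩ := (hap s hs0 hs).1.surjOn_closedBall_of_nonlinearRightInverse
      e.toNonlinearRightInverse hε'0.le (closedBall_subset_closedBall (min_le_left _ _))
      (show e4 ∈ closedBall (quotMap G s (u₀, w₀)) (((N : ℝ)⁻¹ - κ) * ε') by
        rw [mem_closedBall, dist_comm]; exact mem_closedBall.1 hKs)
    rw [mem_closedBall, dist_eq_norm] at hp
    have h1 : ‖p.1 - u₀‖ ≤ ε / 2 := ((norm_fst_le _).trans hp).trans (min_le_right _ _)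
    have h2 : ‖p.2 - w₀‖ ≤ 1 :=
      ((norm_snd_le _).trans hp).trans ((min_le_left _ _).trans hτ1)
    have h3 : ‖p.2‖ ≤ W := (norm_le_norm_add_norm_sub' _ _).trans (add_le_add le_rfl h2)
    refine ⟨p.1 + s • p.2, mem_ball_iff_norm.2 ?_, p.1, mem_ball_iff_norm.2 (by linarith), ?_⟩
    · rw [add_sub_right_comm]
      refine (norm_add_le _ _).trans_lt ?_
      rw [norm_smul, Real.norm_eq_abs]
      nlinarith [abs_nonneg s]
    · have h := congrArg (fun x : R4 => s • x) hpe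
      simpa [quotMap, smul_smul, mul_inv_cancel₀ hs0] using h

end Vale.Agent.P205.Full.Topo
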