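import Vale.Agent.P205.Full.Topo.GenericA
import Vale.Agent.P205.Full.Topo.DiagLocal

/-!
# P205 full, module TOPO: chords parallel to `e4` near each pair of points
-/

open scoped Manifold ContDiff Topology
open Set Function Filter Metric

namespace Vale.Agent.P205.Full.Topo

variable {M : Type} [TopologicalSpace M] [ChartedSpace R2 M] [IsManifold (𝓡 2) ∞ M] {n : ℕ}
  {ι : M → Rn n} {A : Rn n →L[ℝ] R4}

/-- The chord `(x, y)` is `s e4`. -/
def IsChord (ι : M → Rn n) (A : Rn n →L[ℝ] R4) (s : ℝ) (p : M × M) : Prop :=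
  A (ι p.1) - A (ι p.2) = s • e4

/-- No short chord near `p`. -/
def NoChord (ι : M → Rn n) (A : Rn n →L[ℝ] R4) (O : Set (M × M)) : Prop :=
  ∀ᶠ s in 𝓝[≠] (0 : ℝ), ∀ q ∈ O, ¬ IsChord ι A s q

/-- Exactly one short transverse chord near `p`. -/
def OneChord (ι : M → Rn n) (A : Rn n →L[ℝ] R4) (p : M × M) (O : Set (M × M)) : Prop :=
  (∀ᶠ s in 𝓝[≠] (0 : ℝ), ∀ q ∈ O, IsChord ι A s q →
    TrInj ι A q.1 q.2 ∧ ∀ q' ∈ O, IsChord ι A s q' → q' = q) ∧
  ∀ N : Set (M × M), IsOpen N → p ∈ N →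
    ∀ᶠ s in 𝓝[≠] (0 : ℝ), ∃ q ∈ N, IsChord ι A s q

omit [IsManifold (𝓡 2) ∞ M] in
lemma gChart_apply {c x : M} (hx : x ∈ (extChartAt (𝓡 2) c).source) :
    gChart ι A c (extChartAt (𝓡 2) c x) = A (ι x) :=
  congrArg (fun y => A (ι y)) ((extChartAt (𝓡 2) c).left_inv hx)

lemma trInj_of_chart (hι : IsEmb ι) {c c' x y : M} (hx : x ∈ (extChartAt (𝓡 2) c).source)
    (hy : y ∈ (extChartAt (𝓡 2) c').source)
    (h : Injective fun p : R2 × R2 => fderiv ℝ (gChart ι A c) (extChartAt (𝓡 2) c x) p.1 -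
      fderiv ℝ (gChart ι A c') (extChartAt (𝓡 2) c' y) p.2) : TrInj ι A x y := by
  have hu := (extChartAt (𝓡 2) c).map_source hx
  have hv := (extChartAt (𝓡 2) c').map_source hy
  obtain ⟨T1, hT1, h1⟩ := fderiv_ic hι c hu
  obtain ⟨T2, hT2, h2⟩ := fderiv_ic hι c' hv
  rw [(extChartAt (𝓡 2) c).left_inv hx] at h1
  rw [(extChartAt (𝓡 2) c').left_inv hy] at h2
  rintro ⟨a, b⟩ ⟨a', b'⟩ hab
  obtain ⟨s, rfl⟩ := hT1.2 a
  obtain ⟨t, rfl⟩ := hT2.2 b
  obtain ⟨s', rfl⟩ := hT1.2 a'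
  obtain ⟨t', rfl⟩ := hT2.2 b'
  have := h (a₁ := (s, t)) (a₂ := (s', t')) (by
    show fderiv ℝ (gChart ι A c) (extChartAt (𝓡 2) c x) s -
        fderiv ℝ (gChart ι A c') (extChartAt (𝓡 2) c' y) t =
      fderiv ℝ (gChart ι A c) (extChartAt (𝓡 2) c x) s' -
        fderiv ℝ (gChart ι A c') (extChartAt (𝓡 2) c' y) t'
    rw [fderiv_gChart A hι c hu, fderiv_gChart A hι c hu, fderiv_gChart A hι c' hv,
      fderiv_gChart A hι c' hv, h1, h2, h1, h2]
    exact hab)
  rw [Prod.mk.injEq] at this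
  rw [this.1, this.2]

omit [IsManifold (𝓡 2) ∞ M] in
lemma isOpen_chartBall (z : M) (r : ℝ) :
    IsOpen ((extChartAt (𝓡 2) z).source ∩
      extChartAt (𝓡 2) z ⁻¹' ball (extChartAt (𝓡 2) z z) r) :=
  (continuousOn_extChartAt z).isOpen_inter_preimage (isOpen_extChartAt_source z) isOpen_ball

/-- At a point off `umb`: no umbrella and no chord nearby. -/
lemma near_not_umb (hι : IsEmb ι) (hA : GenA ι A) {z : M} (hz : z ∉ umb ι A) :
    ∃ N : Set M, IsOpen N ∧ z ∈ N ∧ (∀ x ∈ N, x ∉ umb ι A) ∧ NoChord ι A (N ×ˢ N) ∧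
      ∀ x ∈ N, ∀ y ∈ N, A (ι x) = A (ι y) → x = y := by
  have hm := mem_extChartAt_source (I := 𝓡 2) z
  have hu := (extChartAt (𝓡 2) z).map_source hm
  have hG := contDiffOn_gChart A hι z
  have hi := injective_fderiv_gChart A hι z hm (hA.imm z)
  obtain ⟨r, hr, hsub, hn, hc⟩ := local_none (isOpen_extChartAt_target z) hG hu hi
    fun w hw => hz ((mem_umb_iff A hι z hm).2 ⟨w, hw⟩)
  obtain ⟨r', hr', hinj⟩ := local_inj (isOpen_extChartAt_target z) hG hu hi
  refine ⟨_, isOpen_chartBall z (min r r'), ⟨hm, mem_ball_self (lt_min hr hr')⟩,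
    fun x hx hxu => ?_, ?_, fun x hx y hy h => ?_⟩
  · obtain ⟨w, hw⟩ := (mem_umb_iff A hι z hx.1).1 hxu
    exact hn _ (ball_subset_ball (min_le_left _ _) hx.2) w hw
  · filter_upwards [self_mem_nhdsWithin] with s hs q hq h
    refine hc _ (ball_subset_ball (min_le_left _ _) hq.1.2) _
      (ball_subset_ball (min_le_left _ _) hq.2.2) s hs ?_
    rw [gChart_apply hq.1.1, gChart_apply hq.2.1]
    exact h
  · refine (extChartAt (𝓡 2) z).injOn hx.1 hy.1 (hinj _ (ball_subset_ball (min_le_right _ _) hx.2) _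
      (ball_subset_ball (min_le_right _ _) hy.2) ?_)
    rw [gChart_apply hx.1, gChart_apply hy.1, h]

/-- At a point of `umb`: no other umbrella nearby and one short chord. -/
lemma near_umb (hι : IsEmb ι) (hA : GenA ι A) {z : M} (hz : z ∈ umb ι A) :
    ∃ N : Set M, IsOpen N ∧ z ∈ N ∧ (∀ x ∈ N, x ∈ umb ι A → x = z) ∧
      OneChord ι A (z, z) (N ×ˢ N) ∧ ∀ x ∈ N, ∀ y ∈ N, A (ι x) = A (ι y) → x = y := by
  have hm := mem_extChartAt_source (I := 𝓡 2) z
  have hu := (extChartAt (𝓡 2) z).map_source hm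
  have hG := contDiffOn_gChart A hι z
  have hi := injective_fderiv_gChart A hι z hm (hA.imm z)
  obtain ⟨w₀, hw₀⟩ := (mem_umb_iff A hι z hm).1 hz
  obtain ⟨r, hr, hsub, hn, huni, hex⟩ :=
    local_one (isOpen_extChartAt_target z) hG hu hi hw₀ (hA.nondeg z w₀ hw₀)
  obtain ⟨r', hr', hinj⟩ := local_inj (isOpen_extChartAt_target z) hG hu hi
  refine ⟨_, isOpen_chartBall z (min r r'), ⟨hm, mem_ball_self (lt_min hr hr')⟩,
    fun x hx hxu => ?_, ⟨?_, fun N hN hzN => ?_⟩, fun x hx y hy h => ?_⟩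
  · obtain ⟨w, hw⟩ := (mem_umb_iff A hι z hx.1).1 hxu
    exact (extChartAt (𝓡 2) z).injOn hx.1 hm
      (hn _ (ball_subset_ball (min_le_left _ _) hx.2) w hw)
  · filter_upwards [huni] with s hs q hq h
    have hb := fun {x : M} (hx : x ∈ (extChartAt (𝓡 2) z).source ∩
      extChartAt (𝓡 2) z ⁻¹' ball (extChartAt (𝓡 2) z z) (min r r')) =>
      ball_subset_ball (min_le_left _ _) hx.2
    obtain ⟨ht, hun⟩ := hs _ (hb hq.1) _ (hb hq.2)
      (by rw [gChart_apply hq.1.1, gChart_apply hq.2.1]; exact h)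
    refine ⟨trInj_of_chart hι hq.1.1 hq.2.1 ht, fun q' hq' h' => ?_⟩
    obtain ⟨h1, h2⟩ := hun _ (hb hq'.1) _ (hb hq'.2)
      (by rw [gChart_apply hq'.1.1, gChart_apply hq'.2.1]; exact h')
    exact Prod.ext ((extChartAt (𝓡 2) z).injOn hq'.1.1 hq.1.1 h1)
      ((extChartAt (𝓡 2) z).injOn hq'.2.1 hq.2.1 h2)
  · have hc : ContinuousAt (fun p : R2 × R2 =>
        ((extChartAt (𝓡 2) z).symm p.1, (extChartAt (𝓡 2) z).symm p.2))
        (extChartAt (𝓡 2) z z, extChartAt (𝓡 2) z z) :=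
      (((continuousOn_extChartAt_symm z).comp continuousOn_fst fun q hq => hq.1).prodMk
        ((continuousOn_extChartAt_symm z).comp continuousOn_snd fun q hq => hq.2)).continuousAt
          (((isOpen_extChartAt_target z).prod (isOpen_extChartAt_target z)).mem_nhds ⟨hu, hu⟩)
    obtain ⟨ε, hε, hball⟩ := Metric.mem_nhds_iff.1 (hc.preimage_mem_nhds
      (hN.mem_nhds (by simpa [(extChartAt (𝓡 2) z).left_inv hm] using hzN)))
    filter_upwards [hex ε hε] with s ⟨u, hu', v, hv', huv⟩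
    have hmem : ((u, v) : R2 × R2) ∈ ball (extChartAt (𝓡 2) z z, extChartAt (𝓡 2) z z) ε := by
      rw [mem_ball, Prod.dist_eq]
      exact max_lt hu' hv'
    exact ⟨_, hball hmem, huv⟩
  · refine (extChartAt (𝓡 2) z).injOn hx.1 hy.1 (hinj _ (ball_subset_ball (min_le_right _ _) hx.2) _
      (ball_subset_ball (min_le_right _ _) hy.2) ?_)
    rw [gChart_apply hx.1, gChart_apply hy.1, h]

omit [IsManifold (𝓡 2) ∞ M] in
/-- Off the diagonal, no chord near a pair with different values. -/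
lemma near_ne (hι : IsEmb ι) {p : M × M} (hp : A (ι p.1) ≠ A (ι p.2)) :
    ∃ O : Set (M × M), IsOpen O ∧ p ∈ O ∧ NoChord ι A O := by
  set f : M × M → R4 := fun q => A (ι q.1) - A (ι q.2)
  have hf : Continuous f := (A.continuous.comp (hι.smooth.continuous.comp continuous_fst)).sub
    (A.continuous.comp (hι.smooth.continuous.comp continuous_snd))
  have hd : 0 < ‖f p‖ := norm_pos_iff.2 (sub_ne_zero.2 hp)
  refine ⟨{q | ‖f p‖ / 2 < ‖f q‖}, isOpen_lt continuous_const hf.norm, half_lt_self hd, ?_⟩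
  have hev : ∀ᶠ s in 𝓝[≠] (0 : ℝ), |s| < ‖f p‖ / 2 := nhdsWithin_le_nhds
    (continuous_abs.continuousAt.eventually_lt continuousAt_const (by simpa using half_pos hd))
  filter_upwards [hev] with s hs q hq h
  have h' : ‖f q‖ = |s| := by
    rw [show f q = s • e4 from h, norm_smul, norm_e4, mul_one, Real.norm_eq_abs]
  have hq' : ‖f p‖ / 2 < ‖f q‖ := hq
  linarith

/-- At a transverse double point: isolated, and one short chord nearby. -/
lemma near_double (hι : IsEmb ι) {p : M × M} (h0 : A (ι p.1) = A (ι p.2))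
    (ht : TrInj ι A p.1 p.2) :
    ∃ O : Set (M × M), IsOpen O ∧ p ∈ O ∧ OneChord ι A p O ∧
      ∀ q ∈ O, A (ι q.1) = A (ι q.2) → q = p := by
  set c := p.1
  set c' := p.2
  set φ := extChartAt (𝓡 2) c
  set φ' := extChartAt (𝓡 2) c'
  have hx : c ∈ φ.source := mem_extChartAt_source c
  have hy : c' ∈ φ'.source := mem_extChartAt_source c'
  set U := φ.target ×ˢ φ'.target
  have hU : IsOpen U := (isOpen_extChartAt_target c).prod (isOpen_extChartAt_target c')
  set F : R2 × R2 → R4 := fun q => gChart ι A c q.1 - gChart ι A c' q.2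
  have hF : ContDiffOn ℝ ∞ F U :=
    ((contDiffOn_gChart A hι c).comp contDiff_fst.contDiffOn fun q hq => hq.1).sub
      ((contDiffOn_gChart A hι c').comp contDiff_snd.contDiffOn fun q hq => hq.2)
  set q₀ : R2 × R2 := (φ c, φ' c')
  have hq₀ : q₀ ∈ U := ⟨φ.map_source hx, φ'.map_source hy⟩
  have hDF : ∀ q ∈ U, ∀ v : R2 × R2, fderiv ℝ F q v =
      fderiv ℝ (gChart ι A c) q.1 v.1 - fderiv ℝ (gChart ι A c') q.2 v.2 := by
    intro q hq v
    have d1 : HasFDerivAt (gChart ι A c) (fderiv ℝ (gChart ι A c) q.1) q.1 :=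
      (((contDiffOn_gChart A hι c).differentiableOn (by simp)).differentiableAt
        ((isOpen_extChartAt_target c).mem_nhds hq.1)).hasFDerivAt
    have d2 : HasFDerivAt (gChart ι A c') (fderiv ℝ (gChart ι A c') q.2) q.2 :=
      (((contDiffOn_gChart A hι c').differentiableOn (by simp)).differentiableAt
        ((isOpen_extChartAt_target c').mem_nhds hq.2)).hasFDerivAt
    have d3 : HasFDerivAt F _ q :=
      (d1.comp q hasFDerivAt_fst).sub (d2.comp q hasFDerivAt_snd)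
    rw [d3.fderiv]
    rfl
  have hinj : Injective (fderiv ℝ F q₀) := by
    obtain ⟨T1, hT1, h1⟩ := fderiv_ic hι c hq₀.1
    obtain ⟨T2, hT2, h2⟩ := fderiv_ic hι c' hq₀.2
    rw [φ.left_inv hx] at h1
    rw [φ'.left_inv hy] at h2
    intro a b hab
    rw [hDF q₀ hq₀, hDF q₀ hq₀, fderiv_gChart A hι c hq₀.1, fderiv_gChart A hι c hq₀.1,
      fderiv_gChart A hι c' hq₀.2, fderiv_gChart A hι c' hq₀.2, h1, h1, h2, h2] at hab
    have := ht (a₁ := (T1 a.1, T2 a.2)) (a₂ := (T1 b.1, T2 b.2)) hab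
    rw [Prod.mk.injEq] at this
    exact Prod.ext (hT1.1 this.1) (hT2.1 this.2)
  have hdim : Module.finrank ℝ (R2 × R2) = Module.finrank ℝ R4 := by simp
  let e : (R2 × R2) ≃L[ℝ] R4 := (LinearEquiv.ofBijective (fderiv ℝ F q₀).toLinearMap
    ⟨hinj, (LinearMap.injective_iff_surjective_of_finrank_eq_finrank hdim).1 hinj⟩).toContinuousLinearEquiv
  have hstrict : HasStrictFDerivAt F (e : R2 × R2 →L[ℝ] R4) q₀ :=
    (hF.contDiffAt (hU.mem_nhds hq₀)).hasStrictFDerivAt' (by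
      exact ((hF.differentiableOn (by simp)).differentiableAt (hU.mem_nhds hq₀)).hasFDerivAt)
      (by simp)
  set h := hstrict.toOpenPartialHomeomorph F
  have hBo : IsOpen (range ((↑) : ((R2 × R2) ≃L[ℝ] R4) → (R2 × R2 →L[ℝ] R4))) :=
    ContinuousLinearEquiv.isOpen
  set W := h.source ∩ (U ∩ fderiv ℝ F ⁻¹' range ((↑) : ((R2 × R2) ≃L[ℝ] R4) → (R2 × R2 →L[ℝ] R4)))
  have hW : IsOpen W := h.open_source.inter
    ((hF.continuousOn_fderiv_of_isOpen hU (by simp)).isOpen_inter_preimage hU hBo)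
  have hq₀W : q₀ ∈ W := ⟨hstrict.mem_toOpenPartialHomeomorph_source, hq₀, e, rfl⟩
  set O : Set (M × M) := (φ.source ×ˢ φ'.source) ∩ (fun q => (φ q.1, φ' q.2)) ⁻¹' W
  have hO : IsOpen O := (((continuousOn_extChartAt c).comp continuousOn_fst fun q hq => hq.1).prodMk
    ((continuousOn_extChartAt c').comp continuousOn_snd fun q hq => hq.2)).isOpen_inter_preimage
      ((isOpen_extChartAt_source c).prod (isOpen_extChartAt_source c')) hW
  have hFeq : ∀ q ∈ O, F (φ q.1, φ' q.2) = A (ι q.1) - A (ι q.2) := fun q hq => by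
    simp only [F, φ, φ', gChart_apply hq.1.1, gChart_apply hq.1.2]
  have hinjO : ∀ q ∈ O, ∀ q' ∈ O, A (ι q.1) - A (ι q.2) = A (ι q'.1) - A (ι q'.2) → q = q' := by
    intro q hq q' hq' he
    rw [← hFeq q hq, ← hFeq q' hq'] at he
    have h2 : (φ q.1, φ' q.2) = (φ q'.1, φ' q'.2) := h.injOn hq.2.1 hq'.2.1 he
    rw [Prod.mk.injEq] at h2
    exact Prod.ext (φ.injOn hq.1.1 hq'.1.1 h2.1) (φ'.injOn hq.1.2 hq'.1.2 h2.2)
  have hpO : p ∈ O := ⟨⟨hx, hy⟩, hq₀W⟩
  refine ⟨O, hO, hpO, ⟨Eventually.of_forall fun s q hq hs => ⟨?_, fun q' hq' hs' =>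
    hinjO q' hq' q hq (hs'.trans hs.symm)⟩, fun N hN hpN => ?_⟩, fun q hq hq0 =>
      hinjO q hq p hpO (by rw [hq0, h0, sub_self, sub_self])⟩
  · obtain ⟨L, hL⟩ := hq.2.2.2
    refine trInj_of_chart hι hq.1.1 hq.1.2 fun a b hab => L.injective ?_
    show (L : R2 × R2 →L[ℝ] R4) a = (L : R2 × R2 →L[ℝ] R4) b
    rw [hL, hDF _ hq.2.2.1, hDF _ hq.2.2.1]
    exact hab
  · set W' := W ∩ (fun q : R2 × R2 => (φ.symm q.1, φ'.symm q.2)) ⁻¹' N
    have hW' : W' ∈ 𝓝 q₀ := by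
      refine inter_mem (hW.mem_nhds hq₀W) ?_
      have hc : ContinuousAt (fun q : R2 × R2 => (φ.symm q.1, φ'.symm q.2)) q₀ :=
        (((continuousOn_extChartAt_symm c).comp continuousOn_fst fun q hq => hq.1).prodMk
          ((continuousOn_extChartAt_symm c').comp continuousOn_snd fun q hq => hq.2)).continuousAt
            (hU.mem_nhds hq₀)
      exact hc.preimage_mem_nhds
        (hN.mem_nhds (by simpa [q₀, φ.left_inv hx, φ'.left_inv hy] using hpN))
    have himg : F '' W' ∈ 𝓝 (0 : R4) := by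
      have := hstrict.map_nhds_eq_of_equiv
      rw [← show F q₀ = 0 by simp only [q₀]; rw [hFeq p hpO, h0, sub_self], ← this]
      exact image_mem_map hW'
    have hev : ∀ᶠ s in 𝓝[≠] (0 : ℝ), s • e4 ∈ F '' W' := nhdsWithin_le_nhds
      ((continuous_id.smul continuous_const).continuousAt.preimage_mem_nhds
        (by simpa using himg))
    filter_upwards [hev] with s ⟨q, hq, hqs⟩
    exact ⟨(φ.symm q.1, φ'.symm q.2), hq.2, hqs⟩

end Vale.Agent.P205.Full.Topo
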