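import Mathlib

/-!
# P205 full, module TOPO: parametric Sard lemma for equations affine in the parameter

If `R u : P → Y` is onto for every `u` in an open `U ⊆ X`, `dim X = dim Y`, then for almost every
parameter `A` every solution of `R u A = b u` is nondegenerate.
-/

open MeasureTheory Module Set Filter Function
open scoped Topology

namespace Vale.Agent.P205.Full.Topo

variable {X Y P : Type*} [NormedAddCommGroup X] [NormedSpace ℝ X] [FiniteDimensional ℝ X]
  [NormedAddCommGroup Y] [NormedSpace ℝ Y] [FiniteDimensional ℝ Y]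
  [NormedAddCommGroup P] [NormedSpace ℝ P] [FiniteDimensional ℝ P]

/-- One piece: a fixed right inverse `S` of `R u` up to an invertible map. -/
theorem null_singular_piece [MeasurableSpace P] [BorelSpace P] (μ : Measure P)
    [μ.IsAddHaarMeasure] (e : X ≃L[ℝ] Y) {V : Set X} (hV : IsOpen V) (R : X → P →L[ℝ] Y)
    (b : X → Y) (hR : ContDiffOn ℝ 1 R V) (hb : ContDiffOn ℝ 1 b V) (R₀ : P →L[ℝ] Y)
    (S : Y →L[ℝ] P) (hS : ∀ y, R₀ (S y) = y)
    (hinv : ∀ u ∈ V, Bijective ((R u).comp S)) :
    μ {A | ∃ u ∈ V, R u A = b u ∧ ¬ Bijective (fderiv ℝ (fun v => R v A - b v) u)} = 0 := by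
  classical
  set q : P → X → Y := fun k u =>
    ContinuousLinearMap.inverse ((R u).comp S) (b u - R u k) with hq
  set uof : P →L[ℝ] X := (e.symm : Y →L[ℝ] X).comp R₀ with huof
  set kof : P →L[ℝ] P := ContinuousLinearMap.id ℝ P - S.comp R₀ with hkof
  set Θ : P → P := fun B => kof B + S (q (kof B) (uof B)) with hΘ
  set D : Set P := {B | uof B ∈ V} with hD
  have hDo : IsOpen D := hV.preimage uof.continuous
  have hTequiv : ∀ u ∈ V, ∃ T : Y ≃L[ℝ] Y, (T : Y →L[ℝ] Y) = (R u).comp S := fun u hu =>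
    ⟨(LinearEquiv.ofBijective ((R u).comp S).toLinearMap (hinv u hu)).toContinuousLinearEquiv,
      by ext; rfl⟩
  have hqd : ∀ k, ∀ u ∈ V, DifferentiableAt ℝ (q k) u := by
    intro k u hu
    obtain ⟨T, hT⟩ := hTequiv u hu
    have hRu := (hR.contDiffAt (hV.mem_nhds hu)).differentiableAt (by simp)
    have hbu := (hb.contDiffAt (hV.mem_nhds hu)).differentiableAt (by simp)
    have hi : DifferentiableAt ℝ ContinuousLinearMap.inverse ((R u).comp S) := by
      rw [← hT]; exact (contDiffAt_map_inverse (n := 1) T).differentiableAt (by simp)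
    exact ((hi.comp u (hRu.clm_comp (differentiableAt_const S))).clm_apply
      (hbu.sub (hRu.clm_apply (differentiableAt_const k))))
  have hsol : ∀ k, ∀ u ∈ V, R u (k + S (q k u)) = b u := by
    intro k u hu
    obtain ⟨T, hT⟩ := hTequiv u hu
    have : R u (S (q k u)) = b u - R u k := by
      show ((R u).comp S) _ = _
      simp only [hq, ← hT, ContinuousLinearMap.inverse_equiv]
      exact T.apply_symm_apply _
    rw [map_add, this, add_sub_cancel]
  have hΘd : ∀ B ∈ D, DifferentiableAt ℝ Θ B := by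
    intro B hB
    have hq2 : DifferentiableAt ℝ (fun B => q (kof B) (uof B)) B := by
      obtain ⟨T, hT⟩ := hTequiv _ hB
      have hu : DifferentiableAt ℝ uof B := uof.differentiableAt
      have hRu := (((hR.contDiffAt (hV.mem_nhds hB)).differentiableAt (by simp)).comp B hu)
      have hbu := (((hb.contDiffAt (hV.mem_nhds hB)).differentiableAt (by simp)).comp B hu)
      have hi : DifferentiableAt ℝ ContinuousLinearMap.inverse ((R (uof B)).comp S) := by
        rw [← hT]; exact (contDiffAt_map_inverse (n := 1) T).differentiableAt (by simp)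
      exact ((hi.comp B (hRu.clm_comp (differentiableAt_const S))).clm_apply
        (hbu.sub (hRu.clm_apply kof.differentiableAt)))
    exact kof.differentiableAt.add (S.differentiableAt.comp B hq2)
  refine measure_mono_null (t := Θ '' {B ∈ D | (fderiv ℝ Θ B).det = 0}) ?_
    (addHaar_image_eq_zero_of_det_fderivWithin_eq_zero μ
      (fun B hB => (hΘd B hB.1).hasFDerivAt.hasFDerivWithinAt) fun B hB => hB.2)
  rintro A ⟨u, hu, hA, hbad⟩
  set B := A - S (R₀ A) + S (e u) with hB
  have hR₀B : R₀ B = e u := by simp [hB, map_add, hS]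
  have huB : uof B = u := by simp [huof, hR₀B]
  have hkB : kof B = A - S (R₀ A) := by
    simp [hkof, hR₀B]; simp [hB]
  have hBD : B ∈ D := by simp [hD, huB, hu]
  have hqA : q (kof B) u = R₀ A := by
    refine (hinv u hu).injective ?_
    have h := hsol (kof B) u hu
    rw [map_add, ← eq_sub_iff_add_eq'] at h
    show R u (S (q (kof B) u)) = R u (S (R₀ A))
    rw [h, hkB, map_sub, hA]
    abel
  have hΘB : Θ B = A := by
    simp only [hΘ, huB, hqA]; rw [hkB]; abel
  refine ⟨B, ⟨hBD, ?_⟩, hΘB⟩
  -- a kernel vector of the derivative at the solution gives one of `DΘ`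
  have hni : ¬ Injective (fderiv ℝ (fun v => R v A - b v) u) := fun h =>
    hbad ⟨h, (LinearMap.injective_iff_surjective_of_finrank_eq_finrank
      (f := (fderiv ℝ (fun v => R v A - b v) u).toLinearMap) e.toLinearEquiv.finrank_eq).1 h⟩
  rw [injective_iff_map_eq_zero] at hni
  push Not at hni
  obtain ⟨v, hv, hv0⟩ := hni
  set k := kof B
  have hqk := hqd k u hu
  have hRu := (hR.contDiffAt (hV.mem_nhds hu)).differentiableAt (by simp)
  have hbu := (hb.contDiffAt (hV.mem_nhds hu)).differentiableAt (by simp)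
  have hq' : fderiv ℝ (q k) u v = 0 := by
    have h0 : (fun w => R w (k + S (q k w)) - b w) =ᶠ[𝓝 u] fun _ => (0 : Y) := by
      filter_upwards [hV.mem_nhds hu] with w hw
      simp [hsol k w hw]
    have h1 := (hRu.hasFDerivAt.clm_apply ((S.hasFDerivAt.comp u hqk.hasFDerivAt).const_add k)).sub
      hbu.hasFDerivAt
    have h2 := congrArg (fun L : X →L[ℝ] Y => L v)
      (h1.unique ((hasFDerivAt_const (0 : Y) u).congr_of_eventuallyEq h0))
    have h3 : k + S (q k u) = A := by rw [hqA, hkB]; abel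
    have h4 := hv
    have h6 : HasFDerivAt (fun v => R v A - b v) _ u :=
      (hRu.hasFDerivAt.clm_apply (hasFDerivAt_const A u)).sub hbu.hasFDerivAt
    rw [h6.fderiv] at h4
    refine (hinv u hu).injective ?_
    simp at h2 h4
    rw [← map_add, h3] at h2
    simp only [ContinuousLinearMap.comp_apply, map_zero]
    have h5 : (fderiv ℝ R u v) A = fderiv ℝ b u v := sub_eq_zero.1 h4
    rw [h5, add_sub_cancel_right] at h2
    exact h2
  have hker : fderiv ℝ Θ B (S (e v)) = 0 := by
    have hline : HasDerivAt (fun τ : ℝ => B + τ • S (e v)) (S (e v)) 0 := by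
      simpa using ((hasDerivAt_id (0 : ℝ)).smul_const (S (e v))).const_add B
    have h1 : HasDerivAt (fun τ : ℝ => Θ (B + τ • S (e v))) (fderiv ℝ Θ B (S (e v))) 0 := by
      have hh : HasFDerivAt Θ (fderiv ℝ Θ B) ((fun τ : ℝ => B + τ • S (e v)) 0) := by
        simpa using (hΘd B hBD).hasFDerivAt
      exact hh.comp_hasDerivAt (0 : ℝ) hline
    have heq : (fun τ : ℝ => Θ (B + τ • S (e v))) = fun τ => k + S (q k (u + τ • v)) := by
      funext τ
      have e1 : uof (S (e v)) = v := by simp [huof, hS]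
      have e2 : kof (S (e v)) = 0 := by simp [hkof, hS]
      simp only [hΘ, map_add, map_smul, e1, e2, huB, smul_zero, add_zero]
      rfl
    have h2 : HasDerivAt (fun τ : ℝ => k + S (q k (u + τ • v))) (S (fderiv ℝ (q k) u v)) 0 := by
      refine HasDerivAt.const_add k (S.hasFDerivAt.comp_hasDerivAt (0 : ℝ) ?_)
      have hl : HasDerivAt (fun τ : ℝ => u + τ • v) v 0 := by
        simpa using ((hasDerivAt_id (0 : ℝ)).smul_const v).const_add u
      have hh : HasFDerivAt (q k) (fderiv ℝ (q k) u) ((fun τ : ℝ => u + τ • v) 0) := by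
        simpa using hqk.hasFDerivAt
      exact hh.comp_hasDerivAt (0 : ℝ) hl
    rw [hq', map_zero, ← heq] at h2
    exact h1.unique h2
  have hne : S (e v) ≠ 0 := fun h => hv0 (by
    have := congrArg R₀ h
    simpa [hS] using this)
  by_contra hdet
  refine hne (((fderiv ℝ Θ B).toContinuousLinearEquivOfDetNeZero hdet).injective ?_)
  simpa using hker

/-- **Parametric Sard lemma.** -/
theorem ae_regular [MeasurableSpace P] [BorelSpace P] (μ : Measure P) [μ.IsAddHaarMeasure]
    (hdim : finrank ℝ X = finrank ℝ Y) {U : Set X} (hU : IsOpen U) (R : X → P →L[ℝ] Y) (b : X → Y)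
    (hR : ContDiffOn ℝ 1 R U) (hb : ContDiffOn ℝ 1 b U) (hs : ∀ u ∈ U, Surjective (R u)) :
    ∀ᵐ A ∂μ, ∀ u ∈ U, R u A = b u → Bijective (fderiv ℝ (fun v => R v A - b v) u) := by
  classical
  let e : X ≃L[ℝ] Y := ContinuousLinearEquiv.ofFinrankEq hdim
  have hS : ∀ u : U, ∃ S : Y →L[ℝ] P, ∀ y, R u (S y) = y := by
    intro u
    obtain ⟨g, hg⟩ := (R u).toLinearMap.exists_rightInverse_of_surjective
      (LinearMap.range_eq_top.2 (hs u u.2))
    exact ⟨LinearMap.toContinuousLinearMap g, fun y => LinearMap.congr_fun hg y⟩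
  choose S hS using hS
  set V : U → Set X := fun u => U ∩ {v | ((R v).comp (S u)).det ≠ 0}
  have hVo : ∀ u, IsOpen (V u) := fun u =>
    (ContinuousLinearMap.continuous_det.comp_continuousOn
      (hR.continuousOn.clm_comp continuousOn_const)).isOpen_inter_preimage hU isOpen_ne
  have hmem : ∀ u : U, (u : X) ∈ V u := fun u => ⟨u.2, by
    have h1 : (R u).comp (S u) = ContinuousLinearMap.id ℝ Y := by ext y; exact hS u y
    show ((R u).comp (S u)).det ≠ 0
    rw [h1]
    exact (LinearMap.det_id (M := Y) (A := ℝ)).trans_ne one_ne_zero⟩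
  obtain ⟨T, hT, hTeq⟩ := TopologicalSpace.isOpen_iUnion_countable V hVo
  have hnull : μ (⋃ u ∈ T, {A | ∃ v ∈ V u, R v A = b v ∧
      ¬ Bijective (fderiv ℝ (fun v => R v A - b v) v)}) = 0 := by
    refine (measure_biUnion_null_iff hT).2 fun u _ => ?_
    refine null_singular_piece μ e (hVo u) R b (hR.mono inter_subset_left)
      (hb.mono inter_subset_left) (R u) (S u) (hS u) fun v hv => ?_
    exact (((R v).comp (S u)).toContinuousLinearEquivOfDetNeZero hv.2).bijective
  filter_upwards [measure_eq_zero_iff_ae_notMem.1 hnull] with A hA u hu hAu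
  by_contra hbad
  have hu' : u ∈ ⋃ w ∈ T, V w := by
    rw [hTeq]; exact mem_iUnion.2 ⟨⟨u, hu⟩, hmem ⟨u, hu⟩⟩
  obtain ⟨w, hw, huw⟩ := mem_iUnion₂.1 hu'
  exact hA (mem_iUnion₂.2 ⟨w, hw, u, huw, hAu, hbad⟩)

end Vale.Agent.P205.Full.Topo
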