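import Vale.Agent.P205.Full.Topo.ChartCalc
import Vale.Agent.P205.Full.Topo.Param

/-!
# P205 full, module TOPO: a generic linear projection of the embedded surface to `ℝ⁴`
-/

open scoped Manifold ContDiff Topology
open Set Function Filter MeasureTheory

namespace Vale.Agent.P205.Full.Topo

variable {M : Type} [TopologicalSpace M] [ChartedSpace R2 M] [IsManifold (𝓡 2) ∞ M] {n : ℕ}

/-- The two tangent planes at a double chord span `ℝ⁴`. -/
def TrInj (ι : M → Rn n) (A : Rn n →L[ℝ] R4) (x y : M) : Prop :=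
  Injective fun p : R2 × R2 => A (dι ι x p.1) - A (dι ι y p.2)

/-- Genericity of `A`. -/
structure GenA (ι : M → Rn n) (A : Rn n →L[ℝ] R4) : Prop where
  imm : ∀ x, Injective fun v : R2 => A (dι ι x v)
  double : ∀ x y, x ≠ y → A (ι x) = A (ι y) → TrInj ι A x y
  nondeg : ∀ z : M, ∀ w : R2, fderiv ℝ (gChart ι A z) (extChartAt (𝓡 2) z z) w = e4 →
    Bijective (fderiv ℝ (fun p : R2 × R2 => fderiv ℝ (gChart ι A z) p.1 p.2)
      (extChartAt (𝓡 2) z z, w))

lemma surjective_apply {a : Rn n} (ha : a ≠ 0) :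
    Surjective (ContinuousLinearMap.apply ℝ R4 a : (Rn n →L[ℝ] R4) →L[ℝ] R4) := by
  intro y
  obtain ⟨f, hf⟩ := SeparatingDual.exists_eq_one (R := ℝ) ha
  exact ⟨f.smulRight y, by simp [hf]⟩

/-- The two normalised directions `e₀ + r e₁` and `e₁ + r e₀`. -/
noncomputable def dir (k : Fin 2) (r : ℝ) : R2 :=
  EuclideanSpace.single k (1 : ℝ) + r • EuclideanSpace.single (1 - k) (1 : ℝ)

lemma dir_ne_zero (k : Fin 2) (r : ℝ) : dir k r ≠ 0 := fun h => by
  have := congrArg (fun v : R2 => v k) h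
  fin_cases k <;> simp [dir] at this

lemma exists_dir {v : R2} (hv : v ≠ 0) : ∃ k r, ∃ a : ℝ, v = a • dir k r ∧ a ≠ 0 := by
  by_cases h : v 0 = 0
  · have h1 : v 1 ≠ 0 := fun h1 => hv (by ext i; fin_cases i <;> simp [h, h1])
    refine ⟨1, 0, v 1, ?_, h1⟩
    ext i; fin_cases i <;> simp [dir, h]
  · refine ⟨0, v 1 / v 0, v 0, ?_, h⟩
    ext i; fin_cases i <;> simp [dir]
    field_simp

variable [T2Space M] [CompactSpace M] {ι : M → Rn n}

omit [T2Space M] in
theorem exists_genA (hι : IsEmb ι) : ∃ A, GenA ι A := by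
  classical
  obtain ⟨C, -, hC⟩ := isCompact_univ.elim_nhds_subcover
    (fun x : M => (extChartAt (𝓡 2) x).source) fun x _ => extChartAt_source_mem_nhds x
  have hcov : ∀ x : M, ∃ c ∈ C, x ∈ (extChartAt (𝓡 2) c).source := fun x => by
    simpa using hC (mem_univ x)
  let _ : MeasurableSpace (Rn n →L[ℝ] R4) := borel _
  have : BorelSpace (Rn n →L[ℝ] R4) := ⟨rfl⟩
  let μ : Measure (Rn n →L[ℝ] R4) := Measure.addHaar
  let T : M → Set R2 := fun c => (extChartAt (𝓡 2) c).target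
  have hT : ∀ c, IsOpen (T c) := fun c => isOpen_extChartAt_target c
  have hic : ∀ c, ContDiffOn ℝ 1 (ic ι c) (T c) := fun c => (contDiffOn_ic hι c).of_le (by simp)
  have hdic : ∀ c, ContDiffOn ℝ 1 (fderiv ℝ (ic ι c)) (T c) := fun c =>
    (contDiffOn_ic hι c).fderiv_of_isOpen (hT c) (by norm_cast)
  have hap : ∀ {X : Type} [NormedAddCommGroup X] [NormedSpace ℝ X] {U : Set X} {f : X → Rn n},
      ContDiffOn ℝ 1 f U → ContDiffOn ℝ 1
        (fun x => (ContinuousLinearMap.apply ℝ R4 (f x) : (Rn n →L[ℝ] R4) →L[ℝ] R4)) U :=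
    fun hf => contDiffOn_clm_apply.2 fun A => A.contDiff.comp_contDiffOn hf
  -- immersion
  have h1 : ∀ᵐ A ∂μ, ∀ c ∈ C, ∀ k : Fin 2,
      ∀ x ∈ ((T c ×ˢ (univ : Set ℝ)) ×ˢ (univ : Set ℝ)),
      A (fderiv ℝ (ic ι c) x.1.1 (dir k x.1.2)) ≠ 0 := by
    refine (ae_ball_iff C.countable_toSet).2 fun c _ => ae_all_iff.2 fun k => ?_
    have hd : ContDiff ℝ 1 fun x : (R2 × ℝ) × ℝ => dir k x.1.2 :=
      contDiff_const.add ((contDiff_snd.comp contDiff_fst).smul contDiff_const)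
    have hf : ContDiffOn ℝ 1 (fun x : (R2 × ℝ) × ℝ => fderiv ℝ (ic ι c) x.1.1 (dir k x.1.2))
        ((T c ×ˢ univ) ×ˢ univ) :=
      ((hdic c).comp (contDiff_fst.comp contDiff_fst).contDiffOn fun x hx => hx.1.1).clm_apply
        hd.contDiffOn
    refine (ae_regular μ (by simp) (((hT c).prod isOpen_univ).prod isOpen_univ)
      (fun x : (R2 × ℝ) × ℝ => ContinuousLinearMap.apply ℝ R4
        (fderiv ℝ (ic ι c) x.1.1 (dir k x.1.2))) (fun _ => 0) (hap hf) contDiffOn_const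
      fun x hx => surjective_apply fun h => dir_ne_zero k x.1.2
        (injective_fderiv_ic hι c hx.1.1 (h.trans (map_zero _).symm))).mono ?_
    intro A hA x hx h0
    have hb := hA x hx h0
    set F : (R2 × ℝ) × ℝ → R4 := fun v =>
      ContinuousLinearMap.apply ℝ R4 (fderiv ℝ (ic ι c) v.1.1 (dir k v.1.2)) A - 0
    have hFd : DifferentiableAt ℝ F x :=
      (((hap hf).clm_apply contDiffOn_const).sub contDiffOn_const).differentiableOn (by simp)
        |>.differentiableAt ((((hT c).prod isOpen_univ).prod isOpen_univ).mem_nhds hx)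
    have hline : HasDerivAt (fun τ : ℝ => x + τ • ((0 : R2 × ℝ), (1 : ℝ)))
        ((0 : R2 × ℝ), (1 : ℝ)) 0 := by
      simpa using ((hasDerivAt_id (0 : ℝ)).smul_const ((0 : R2 × ℝ), (1 : ℝ))).const_add x
    have hh : HasFDerivAt F (fderiv ℝ F x) ((fun τ : ℝ => x + τ • ((0 : R2 × ℝ), (1 : ℝ))) 0) := by
      simpa using hFd.hasFDerivAt
    have h2 : HasDerivAt (fun τ : ℝ => F (x + τ • ((0 : R2 × ℝ), (1 : ℝ))))
        (fderiv ℝ F x ((0 : R2 × ℝ), (1 : ℝ))) 0 :=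
      HasFDerivAt.comp_hasDerivAt (l := F) (f := fun τ : ℝ => x + τ • ((0 : R2 × ℝ), (1 : ℝ)))
        (0 : ℝ) hh hline
    have h3 : (fun τ : ℝ => F (x + τ • ((0 : R2 × ℝ), (1 : ℝ)))) = fun _ => F x := by
      funext τ; simp [F]
    rw [h3] at h2
    have h4 := hb.1 ((h2.unique (hasDerivAt_const (0 : ℝ) (F x))).trans (map_zero _).symm)
    exact one_ne_zero (congrArg Prod.snd h4)
  -- double points
  have h2 : ∀ᵐ A ∂μ, ∀ c ∈ C, ∀ c' ∈ C,
      ∀ x ∈ (T c ×ˢ T c') ∩ {x : R2 × R2 | ic ι c x.1 - ic ι c' x.2 ≠ 0},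
      A (ic ι c x.1 - ic ι c' x.2) = 0 →
      Bijective (fderiv ℝ (fun y : R2 × R2 => A (ic ι c y.1 - ic ι c' y.2)) x) := by
    refine (ae_ball_iff C.countable_toSet).2 fun c _ => (ae_ball_iff C.countable_toSet).2 fun c' _ => ?_
    have hf : ContDiffOn ℝ 1 (fun x : R2 × R2 => ic ι c x.1 - ic ι c' x.2) (T c ×ˢ T c') :=
      ((hic c).comp contDiff_fst.contDiffOn fun x hx => hx.1).sub
        ((hic c').comp contDiff_snd.contDiffOn fun x hx => hx.2)
    have ho : IsOpen ((T c ×ˢ T c') ∩ {x : R2 × R2 | ic ι c x.1 - ic ι c' x.2 ≠ 0}) :=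
      hf.continuousOn.isOpen_inter_preimage ((hT c).prod (hT c')) isOpen_ne
    refine (ae_regular μ (by simp) ho
      (fun x : R2 × R2 => ContinuousLinearMap.apply ℝ R4 (ic ι c x.1 - ic ι c' x.2)) (fun _ => 0)
      ((hap hf).mono inter_subset_left) contDiffOn_const
      fun x hx => surjective_apply hx.2).mono ?_
    intro A hA x hx h0
    simpa using hA x hx h0
  -- umbrellas
  have h3 : ∀ᵐ A ∂μ, ∀ c ∈ C, ∀ x ∈ T c ×ˢ {w : R2 | w ≠ 0},
      A (fderiv ℝ (ic ι c) x.1 x.2) = e4 →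
      Bijective (fderiv ℝ (fun y : R2 × R2 => A (fderiv ℝ (ic ι c) y.1 y.2)) x) := by
    refine (ae_ball_iff C.countable_toSet).2 fun c _ => ?_
    have hf : ContDiffOn ℝ 1 (fun x : R2 × R2 => fderiv ℝ (ic ι c) x.1 x.2)
        (T c ×ˢ {w : R2 | w ≠ 0}) :=
      ((hdic c).comp contDiff_fst.contDiffOn fun x hx => hx.1).clm_apply contDiffOn_snd
    refine (ae_regular μ (by simp) ((hT c).prod isOpen_ne)
      (fun x : R2 × R2 => ContinuousLinearMap.apply ℝ R4 (fderiv ℝ (ic ι c) x.1 x.2))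
      (fun _ => e4) (hap hf) contDiffOn_const fun x hx => surjective_apply fun h =>
        hx.2 (injective_fderiv_ic hι c hx.1 (h.trans (map_zero _).symm))).mono ?_
    intro A hA x hx h0
    have := hA x hx h0
    simpa [fderiv_sub_const] using this
  obtain ⟨A, hA1, hA2, hA3⟩ : ∃ A, _ := ((h1.and (h2.and h3))).exists
  refine ⟨A, fun x => ?_, fun x y hxy heq => ?_, fun z => ?_⟩
  · obtain ⟨c, hc, hx⟩ := hcov x
    have hu := (extChartAt (𝓡 2) c).map_source hx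
    obtain ⟨Tc, hTc, h⟩ := fderiv_ic hι c hu
    rw [(extChartAt (𝓡 2) c).left_inv hx] at h
    intro a b hab
    by_contra hne
    obtain ⟨v, hv⟩ := hTc.2 (a - b)
    have hv0 : v ≠ 0 := fun h0 => hne (sub_eq_zero.1 (by rw [← hv, h0, map_zero]))
    obtain ⟨k, r, t, hvk, ht⟩ := exists_dir hv0
    refine hA1 c hc k (((extChartAt (𝓡 2) c x), r), 0) ⟨⟨hu, mem_univ _⟩, mem_univ _⟩ ?_
    have h5 : A (dι ι x (Tc v)) = 0 := by
      rw [hv, map_sub, map_sub, sub_eq_zero]; exact hab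
    rw [← h, hvk, map_smul, map_smul] at h5
    exact (smul_eq_zero.1 h5).resolve_left ht
  · obtain ⟨c, hc, hx⟩ := hcov x
    obtain ⟨c', hc', hy⟩ := hcov y
    have hu := (extChartAt (𝓡 2) c).map_source hx
    have hv := (extChartAt (𝓡 2) c').map_source hy
    set p : R2 × R2 := (extChartAt (𝓡 2) c x, extChartAt (𝓡 2) c' y)
    have he1 : ic ι c p.1 = ι x := congrArg ι ((extChartAt (𝓡 2) c).left_inv hx)
    have he2 : ic ι c' p.2 = ι y := congrArg ι ((extChartAt (𝓡 2) c').left_inv hy)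
    have hb := hA2 c hc c' hc' p ⟨⟨hu, hv⟩, by
      show ic ι c p.1 - ic ι c' p.2 ≠ 0
      rw [he1, he2, sub_ne_zero]
      exact fun h => hxy (hι.inj h)⟩ (by rw [he1, he2, map_sub, heq, sub_self])
    have d1 : HasFDerivAt (ic ι c) (fderiv ℝ (ic ι c) p.1) p.1 :=
      (((hic c).differentiableOn (by simp)).differentiableAt ((hT c).mem_nhds hu)).hasFDerivAt
    have d2 : HasFDerivAt (ic ι c') (fderiv ℝ (ic ι c') p.2) p.2 :=
      (((hic c').differentiableOn (by simp)).differentiableAt ((hT c').mem_nhds hv)).hasFDerivAt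
    have d3 : HasFDerivAt (fun y : R2 × R2 => A (ic ι c y.1 - ic ι c' y.2)) _ p :=
      A.hasFDerivAt.comp p ((d1.comp p hasFDerivAt_fst).sub (d2.comp p hasFDerivAt_snd))
    rw [d3.fderiv] at hb
    obtain ⟨T1, hT1, h1'⟩ := fderiv_ic hι c hu
    obtain ⟨T2, hT2, h2'⟩ := fderiv_ic hι c' hv
    rw [(extChartAt (𝓡 2) c).left_inv hx] at h1'
    rw [(extChartAt (𝓡 2) c').left_inv hy] at h2'
    rintro ⟨a, b⟩ ⟨a', b'⟩ hab
    obtain ⟨s, rfl⟩ := hT1.2 a
    obtain ⟨t, rfl⟩ := hT2.2 b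
    obtain ⟨s', rfl⟩ := hT1.2 a'
    obtain ⟨t', rfl⟩ := hT2.2 b'
    have := hb.1 (a₁ := (s, t)) (a₂ := (s', t')) (by
      show A (fderiv ℝ (ic ι c) p.1 s - fderiv ℝ (ic ι c') p.2 t) =
        A (fderiv ℝ (ic ι c) p.1 s' - fderiv ℝ (ic ι c') p.2 t')
      rw [h1' s, h2' t, h1' s', h2' t', map_sub, map_sub]
      exact hab)
    simp only [Prod.mk.injEq] at this
    rw [this.1, this.2]
  · obtain ⟨c, hc, hz⟩ := hcov z
    refine nondeg_transfer A hι hz fun w hw => ?_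
    have hu := (extChartAt (𝓡 2) c).map_source hz
    rw [fderiv_gChart A hι c hu] at hw
    have hw0 : w ≠ 0 := fun h => by
      rw [h, map_zero, map_zero] at hw
      simpa [e4] using congrArg norm hw
    have hb := hA3 c hc ((extChartAt (𝓡 2) c z), w) ⟨hu, hw0⟩ hw
    have hee : (fun p : R2 × R2 => fderiv ℝ (gChart ι A c) p.1 p.2) =ᶠ[𝓝 (extChartAt (𝓡 2) c z, w)]
        fun p => A (fderiv ℝ (ic ι c) p.1 p.2) := by
      filter_upwards [continuous_fst.continuousAt.preimage_mem_nhds ((hT c).mem_nhds hu)] with p hp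
      exact fderiv_gChart A hι c hp p.2
    rw [hee.fderiv_eq]
    exact hb

end Vale.Agent.P205.Full.Topo
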