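import Vale.Agent.P205.Full.Topo.Interface
import Vale.Agent.P228.Degree

/-!
# P205 full, module TOPO: local mod 2 degree of linear maps on a parametrised compact set
-/

open scoped Topology ContDiff
open Set Filter Metric Function

namespace Vale.Agent.P205.Full.Topo

variable {V : Type} [NormedAddCommGroup V] [NormedSpace ℝ V]

/-- A local parametrisation of `K` by an open subset of `ℝ⁴`. -/
structure Patch (K : Set V) where
  U : Set R4
  openU : IsOpen U
  ψ : R4 → V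
  smooth : ContDiffOn ℝ ∞ ψ U
  imm : ∀ u ∈ U, Injective (fderiv ℝ ψ u)
  W : Set V
  openW : IsOpen W
  φ : V → R4
  contφ : ContinuousOn φ (K ∩ W)
  mapsψ : ∀ u ∈ U, ψ u ∈ K ∩ W
  mapsφ : ∀ p ∈ K ∩ W, φ p ∈ U
  left : ∀ u ∈ U, φ (ψ u) = u
  right : ∀ p ∈ K ∩ W, ψ (φ p) = p

variable {K : Set V} {ι : Type} (P : ι → Patch K)

/-- The equation `L (ψ u) = c` in patch `i`, for `q = (L, c)`. -/
def fibEqn (q : (V →L[ℝ] R4) × R4) (i : ι) (u : R4) : R4 := q.1 ((P i).ψ u) - q.2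

/-- `c` is a regular value of `L` on `K`, in every patch. -/
def Reg (q : (V →L[ℝ] R4) × R4) : Prop :=
  ∀ i, ∀ u ∈ (P i).U, fibEqn P q i u = 0 → Bijective (fderiv ℝ (fibEqn P q i) u)

/-- The fibre. -/
def fib (K : Set V) (q : (V →L[ℝ] R4) × R4) : Set V := {p ∈ K | q.1 p = q.2}

/-- Moving the value along `e4`. -/
noncomputable def line (q : (V →L[ℝ] R4) × R4) (t : ℝ) : (V →L[ℝ] R4) × R4 := (q.1, q.2 + t • e4)

lemma differentiableAt_fibEqn (q : (V →L[ℝ] R4) × R4) (i : ι) {u : R4} (hu : u ∈ (P i).U) :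
    DifferentiableAt ℝ (fibEqn P q i) u :=
  (q.1.differentiableAt.comp u (((P i).smooth.contDiffAt
    ((P i).openU.mem_nhds hu)).differentiableAt (by simp))).sub_const _

lemma regularAt_of_bijective {f : R4 → R4} {u : R4} (hf : DifferentiableAt ℝ f u)
    (hb : Bijective (fderiv ℝ f u)) : P228.RegularAt f u :=
  ⟨(LinearEquiv.ofBijective (fderiv ℝ f u).toLinearMap hb).toContinuousLinearEquiv, hf.hasFDerivAt⟩

lemma Patch.exists_open_image (π : Patch K) {S : Set R4} (hS : IsOpen S) (hSU : S ⊆ π.U) :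
    ∃ O : Set V, IsOpen O ∧ O ∩ K = π.ψ '' S := by
  obtain ⟨O, hO, hOeq⟩ := continuousOn_iff'.1 π.contφ S hS
  refine ⟨O ∩ π.W, hO.inter π.openW, Set.ext fun p => ⟨fun hp => ?_, ?_⟩⟩
  · have h2 : p ∈ O ∩ (K ∩ π.W) := ⟨hp.1.1, hp.2, hp.1.2⟩
    rw [← hOeq] at h2
    exact ⟨π.φ p, h2.1, π.right p ⟨hp.2, hp.1.2⟩⟩
  · rintro ⟨u, hu, rfl⟩
    have hm := π.mapsψ u (hSU hu)
    have h2 : π.ψ u ∈ π.φ ⁻¹' S ∩ (K ∩ π.W) := ⟨by simpa [π.left u (hSU hu)] using hu, hm⟩
    rw [hOeq] at h2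
    exact ⟨⟨h2.1, hm.2⟩, hm.1⟩

/-- A nondegenerate point of a fibre is isolated in it. -/
lemma isolated_of_bijective {q : (V →L[ℝ] R4) × R4} {p : V} {i : ι} (hp : p ∈ fib K q)
    (hW : p ∈ (P i).W) (hb : Bijective (fderiv ℝ (fibEqn P q i) ((P i).φ p))) :
    ∃ O : Set V, IsOpen O ∧ p ∈ O ∧ ∀ x ∈ O ∩ fib K q, x = p := by
  have hu := (P i).mapsφ p ⟨hp.1, hW⟩
  obtain ⟨L, hL⟩ := regularAt_of_bijective (differentiableAt_fibEqn P q i hu) hb
  have hev := eventually_nhdsWithin_iff.1 (hL.eventually_ne (c := 0) ⟨_, L.antilipschitz⟩)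
  obtain ⟨S, hS, hSo, hpS⟩ := _root_.mem_nhds_iff.1 (inter_mem hev ((P i).openU.mem_nhds hu))
  obtain ⟨O, hO, hOeq⟩ := (P i).exists_open_image hSo fun x hx => (hS hx).2
  refine ⟨O, hO, ?_, fun x hx => ?_⟩
  · have h1 : p ∈ (P i).ψ '' S := ⟨_, hpS, (P i).right p ⟨hp.1, hW⟩⟩
    exact (hOeq ▸ h1 : p ∈ O ∩ K).1
  · have h1 : x ∈ O ∩ K := ⟨hx.1, hx.2.1⟩
    rw [hOeq] at h1
    obtain ⟨y, hy, rfl⟩ := h1
    by_contra hne
    refine (hS hy).1 (fun h => hne ?_) ?_
    · rw [mem_singleton_iff] at h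
      rw [h, (P i).right p ⟨hp.1, hW⟩]
    · simp only [fibEqn, hx.2.2, sub_self]

/-- A closed ball in a patch. -/
structure Box where
  i : ι
  c : R4
  r : ℝ
  sub : closedBall c r ⊆ (P i).U

variable {P}

/-- The image of the open ball. -/
def Box.img (b : Box P) : Set V := (P b.i).ψ '' ball b.c b.r

/-- The image of the closed ball. -/
def Box.cimg (b : Box P) : Set V := (P b.i).ψ '' closedBall b.c b.r

lemma Box.isCompact_cimg (b : Box P) : IsCompact b.cimg :=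
  (isCompact_closedBall _ _).image_of_continuousOn ((P b.i).smooth.continuousOn.mono b.sub)

lemma Box.img_subset (b : Box P) : b.img ⊆ b.cimg := image_mono ball_subset_closedBall

lemma Box.cimg_subset (b : Box P) : b.cimg ⊆ K := by
  rintro _ ⟨u, hu, rfl⟩
  exact ((P b.i).mapsψ u (b.sub hu)).1

lemma Box.mem_img_of_fib (b : Box P) {q : (V →L[ℝ] R4) × R4} {p : V}
    (hsph : ∀ u ∈ sphere b.c b.r, fibEqn P q b.i u ≠ 0) (hp : p ∈ fib K q) (hb : p ∈ b.cimg) :
    p ∈ b.img := by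
  obtain ⟨u, hu, rfl⟩ := hb
  rcases eq_or_lt_of_le (mem_closedBall.1 hu) with h | h
  · exact absurd (show fibEqn P q b.i u = 0 by simp only [fibEqn, hp.2, sub_self])
      (hsph u (mem_sphere.2 h))
  · exact ⟨u, mem_ball.2 h, rfl⟩

/-- The mod 2 degree near a fibre does not depend on the nearby regular fibre. -/
theorem parity_local (hK : IsCompact K) {κ : Type*} [Fintype κ] (B : κ → Box P)
    (q₀ : (V →L[ℝ] R4) × R4) (hdisj : ∀ a b, a ≠ b → Disjoint (B a).cimg (B b).cimg)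
    (hsph : ∀ a, ∀ u ∈ sphere (B a).c (B a).r, fibEqn P q₀ (B a).i u ≠ 0)
    (hcov : fib K q₀ ⊆ ⋃ a, (B a).img) :
    ∃ O : Set ((V →L[ℝ] R4) × R4), IsOpen O ∧ q₀ ∈ O ∧ ∀ q ∈ O, ∀ q' ∈ O, Reg P q → Reg P q' →
      ((fib K q).ncard : ZMod 2) = (fib K q').ncard := by
  classical
  choose Q hQ hQeq using fun a =>
    (P (B a).i).exists_open_image (isOpen_ball (x := (B a).c) (ε := (B a).r))
      (ball_subset_closedBall.trans (B a).sub)
  set K₀ := K \ ⋃ a, Q a with hK₀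
  have hK₀c : IsCompact K₀ := hK.diff (isOpen_iUnion hQ)
  have h1 : ∀ᶠ q in 𝓝 q₀, ∀ p ∈ K₀, q.1 p - q.2 ≠ 0 := by
    refine hK₀c.eventually_forall_of_forall_eventually fun p hp => ?_
    refine (((continuous_fst.comp continuous_fst).clm_apply continuous_snd).sub
      (continuous_snd.comp continuous_fst)).continuousAt.eventually_ne ?_
    intro h
    obtain ⟨a, ha⟩ := mem_iUnion.1 (hcov ⟨hp.1, sub_eq_zero.1 h⟩)
    have ha' : p ∈ (P (B a).i).ψ '' ball (B a).c (B a).r := ha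
    rw [← hQeq a] at ha'
    exact hp.2 (mem_iUnion.2 ⟨a, ha'.1⟩)
  have h2 : ∀ᶠ q in 𝓝 q₀, ∀ a, ∀ u ∈ sphere (B a).c (B a).r,
      2 * ‖fibEqn P q (B a).i u - fibEqn P q₀ (B a).i u‖ < ‖fibEqn P q₀ (B a).i u‖ := by
    refine eventually_all.2 fun a => ?_
    set S := sphere (B a).c (B a).r
    obtain ⟨δ, hδ, hmin⟩ : ∃ δ, 0 < δ ∧ ∀ u ∈ S, δ ≤ ‖fibEqn P q₀ (B a).i u‖ := by
      have hS : S ⊆ (P (B a).i).U := sphere_subset_closedBall.trans (B a).sub
      have hc : ContinuousOn (fibEqn P q₀ (B a).i) S := fun u hu =>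
        (differentiableAt_fibEqn P q₀ _ (hS hu)).continuousAt.continuousWithinAt
      obtain ⟨δ, hδ, h⟩ := (isCompact_sphere _ _).exists_forall_le' hc.norm
        fun u hu => norm_pos_iff.2 (hsph a u hu)
      exact ⟨δ, hδ, h⟩
    have hCc : IsCompact ((P (B a).i).ψ '' S) :=
      (isCompact_sphere _ _).image_of_continuousOn
        ((P (B a).i).smooth.continuousOn.mono (sphere_subset_closedBall.trans (B a).sub))
    have hev : ∀ᶠ q in 𝓝 q₀, ∀ p ∈ (P (B a).i).ψ '' S,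
        2 * ‖(q.1 p - q.2) - (q₀.1 p - q₀.2)‖ < δ := by
      refine hCc.eventually_forall_of_forall_eventually fun p _ => ?_
      refine ContinuousAt.eventually_lt ?_ continuousAt_const (by simpa using hδ)
      exact (continuous_const.mul ((((continuous_fst.comp continuous_fst).clm_apply
        continuous_snd).sub (continuous_snd.comp continuous_fst)).sub
        ((q₀.1.continuous.comp continuous_snd).sub continuous_const)).norm).continuousAt
    filter_upwards [hev] with q hq u hu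
    exact (hq _ ⟨u, hu, rfl⟩).trans_le (hmin u hu)
  obtain ⟨O, hO, hOo, hq₀⟩ := _root_.mem_nhds_iff.1 (h1.and h2)
  refine ⟨O, hOo, hq₀, fun q hq q' hq' hr hr' => ?_⟩
  have key : ∀ q ∈ O, Reg P q → ∃ Z : κ → Finset R4,
      (∀ a x, x ∈ Z a ↔ x ∈ closedBall (B a).c (B a).r ∧ fibEqn P q (B a).i x = 0) ∧
      (∀ a, ∀ x ∈ Z a, P228.RegularAt (fibEqn P q (B a).i) x) ∧
      ((fib K q).ncard : ZMod 2) =
        ∑ a, ((∑ x ∈ Z a, P228.dsign (fibEqn P q (B a).i) x : ℤ) : ZMod 2) := by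
    intro q hq hr
    have hfin : ∀ a, {x ∈ closedBall (B a).c (B a).r | fibEqn P q (B a).i x = 0}.Finite := fun a => by
      have hc : ContinuousOn (fibEqn P q (B a).i) (closedBall (B a).c (B a).r) := fun u hu =>
        (differentiableAt_fibEqn P q _ ((B a).sub hu)).continuousAt.continuousWithinAt
      have hcpt : IsCompact {x ∈ closedBall (B a).c (B a).r | fibEqn P q (B a).i x = 0} :=
        (isCompact_closedBall _ _).of_isClosed_subset
          (hc.preimage_isClosed_of_isClosed isClosed_closedBall isClosed_singleton)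
          inter_subset_left
      refine hcpt.finite (isDiscrete_iff_forall_mem_exists_isOpen.2 fun x hx => ?_)
      obtain ⟨L, hL⟩ := regularAt_of_bijective (differentiableAt_fibEqn P q _ ((B a).sub hx.1))
        (hr _ x ((B a).sub hx.1) hx.2)
      obtain ⟨U, hU, hUo, hxU⟩ := _root_.mem_nhds_iff.1
        (eventually_nhdsWithin_iff.1 (hL.eventually_ne (c := 0) ⟨_, L.antilipschitz⟩))
      refine ⟨U, hUo, Set.ext fun z => ⟨fun hz => ?_, fun hz => ?_⟩⟩
      · by_contra hne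
        exact hU hz.1 hne hz.2.2
      · rw [mem_singleton_iff] at hz
        exact hz ▸ ⟨hxU, hx⟩
    let Z : κ → Finset R4 := fun a => (hfin a).toFinset
    have hZ : ∀ a x, x ∈ Z a ↔ x ∈ closedBall (B a).c (B a).r ∧ fibEqn P q (B a).i x = 0 :=
      fun a x => (hfin a).mem_toFinset
    refine ⟨Z, hZ, fun a x hx => regularAt_of_bijective
      (differentiableAt_fibEqn P q _ ((B a).sub ((hZ a x).1 hx).1))
      (hr _ x ((B a).sub ((hZ a x).1 hx).1) ((hZ a x).1 hx).2), ?_⟩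
    have hfib : fib K q = ↑((Finset.univ : Finset κ).biUnion
        fun a => (Z a).image (P (B a).i).ψ) := by
      ext p
      simp only [Finset.coe_biUnion, Finset.coe_univ, mem_univ, iUnion_true, mem_iUnion,
        Finset.coe_image, mem_image, Finset.mem_coe, hZ]
      refine ⟨fun hp => ?_, ?_⟩
      · have hn : p ∉ K₀ := fun h => (hO hq).1 p h (sub_eq_zero.2 hp.2)
        simp only [hK₀, Set.mem_sdiff, hp.1, true_and, not_not, mem_iUnion] at hn
        obtain ⟨a, ha⟩ := hn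
        have h' : p ∈ Q a ∩ K := ⟨ha, hp.1⟩
        rw [hQeq a] at h'
        obtain ⟨u, hu, rfl⟩ := h'
        exact ⟨a, u, ⟨ball_subset_closedBall hu, sub_eq_zero.2 hp.2⟩, rfl⟩
      · rintro ⟨a, u, ⟨hu, hue⟩, rfl⟩
        exact ⟨((P (B a).i).mapsψ u ((B a).sub hu)).1, sub_eq_zero.1 hue⟩
    rw [hfib, ncard_coe_finset, Finset.card_biUnion, Nat.cast_sum]
    · refine Finset.sum_congr rfl fun a _ => ?_
      rw [Finset.card_image_of_injOn, Int.cast_sum, Finset.card_eq_sum_ones, Nat.cast_sum]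
      · refine Finset.sum_congr rfl fun x _ => ?_
        unfold P228.dsign
        split_ifs <;> simp
      · intro x hx y hy h
        rw [← (P (B a).i).left x ((B a).sub ((hZ a x).1 hx).1), h,
          (P (B a).i).left y ((B a).sub ((hZ a y).1 hy).1)]
    · intro a _ b _ hab
      refine Finset.disjoint_left.2 fun p hpa hpb => ?_
      obtain ⟨u, hu, rfl⟩ := Finset.mem_image.1 hpa
      obtain ⟨v, hv, hve⟩ := Finset.mem_image.1 hpb
      exact Set.disjoint_left.1 (hdisj a b hab) ⟨u, ((hZ a u).1 hu).1, rfl⟩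
        ⟨v, ((hZ b v).1 hv).1, hve⟩
  obtain ⟨Z, hZ, hZr, e⟩ := key q hq hr
  obtain ⟨Z', hZ', hZr', e'⟩ := key q' hq' hr'
  rw [e, e']
  refine Finset.sum_congr rfl fun a _ => congrArg _ ?_
  refine P228.degree_compare
    (fun u hu => (differentiableAt_fibEqn P q _ ((B a).sub hu)).continuousAt.continuousWithinAt)
    (fun u hu => (differentiableAt_fibEqn P q' _ ((B a).sub hu)).continuousAt.continuousWithinAt)
    (Z a) (Z' a) (hZ a) (hZ' a) (hZr a) (hZr' a) fun w hw t ht h0 => ?_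
  have e1 := (hO hq).2 a w (mem_sphere.2 hw)
  have e2 := (hO hq').2 a w (mem_sphere.2 hw)
  set A := fibEqn P q₀ (B a).i w
  set X := fibEqn P q (B a).i w
  set Y := fibEqn P q' (B a).i w
  have h3 : A = -((1 - t) • (X - A) + t • (Y - A)) := by
    have : (1 - t) • (X - A) + t • (Y - A) = ((1 - t) • X + t • Y) - A := by module
    rw [this, h0, zero_sub, neg_neg]
  have h4 : ‖A‖ ≤ (1 - t) * ‖X - A‖ + t * ‖Y - A‖ := by
    rw [h3, norm_neg, ← h3]
    refine (norm_add_le _ _).trans (le_of_eq ?_)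
    rw [norm_smul, norm_smul, Real.norm_of_nonneg (by linarith [ht.2]), Real.norm_of_nonneg ht.1]
  have h5 : (0 : ℝ) ≤ 1 - t := by linarith [ht.2]
  nlinarith [mul_le_mul_of_nonneg_left e1.le h5, mul_le_mul_of_nonneg_left e2.le ht.1,
    norm_nonneg (X - A)]

/-- Boxes around a fibre whose degenerate points are finitely many. -/
theorem exists_boxes [FiniteDimensional ℝ V] (hK : IsCompact K)
    (hcover : ∀ p ∈ K, ∃ i, p ∈ (P i).W) (q : (V →L[ℝ] R4) × R4) {T : Set V} (hT : T.Finite)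
    (hTf : T ⊆ fib K q)
    (hiso : ∀ p ∈ fib K q \ T, ∃ O : Set V, IsOpen O ∧ p ∈ O ∧ ∀ x ∈ O ∩ fib K q, x = p) :
    ∃ (κ : Type) (_ : Fintype κ) (B : κ → Box P),
      (∀ a b, a ≠ b → Disjoint (B a).cimg (B b).cimg) ∧
      (∀ a, ∀ u ∈ sphere (B a).c (B a).r, fibEqn P q (B a).i u ≠ 0) ∧
      fib K q ⊆ ⋃ a, (B a).img := by
  classical
  have : ProperSpace V := FiniteDimensional.proper ℝ V
  have hfc : IsCompact (fib K q) :=
    hK.inter_right (isClosed_eq q.1.continuous continuous_const)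
  have hcount : (fib K q).Countable := by
    have h1 : (fib K q \ T).Countable := by
      refine IsLindelof.countable_of_isDiscrete ?_ (isDiscrete_iff_forall_mem_exists_isOpen.2 fun p hp => ?_)
      · exact HereditarilyLindelofSpace.isLindelof _
      · obtain ⟨O, hO, hpO, hOx⟩ := hiso p hp
        exact ⟨O, hO, Set.ext fun x => ⟨fun hx => hOx x ⟨hx.1, hx.2.1⟩,
          fun hx => by rw [mem_singleton_iff] at hx; exact hx ▸ ⟨hpO, hp⟩⟩⟩
    exact (h1.union hT.countable).mono fun p hp => by by_cases h : p ∈ T <;> simp [h, hp]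
  -- a box around each point of `fib`, inside a given open set, with a free sphere
  have mk : ∀ p ∈ fib K q, ∀ O : Set V, IsOpen O → p ∈ O → ∃ b : Box P, p ∈ b.img ∧ b.cimg ⊆ O ∧
      ∀ u ∈ sphere b.c b.r, fibEqn P q b.i u ≠ 0 := by
    intro p hp O hO hpO
    obtain ⟨i, hi⟩ := hcover p hp.1
    have hu := (P i).mapsφ p ⟨hp.1, hi⟩
    have hop : IsOpen ((P i).U ∩ (P i).ψ ⁻¹' O) :=
      (P i).smooth.continuousOn.isOpen_inter_preimage (P i).openU hO
    obtain ⟨δ, hδ, hball⟩ := Metric.isOpen_iff.1 hop ((P i).φ p)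
      ⟨hu, by simpa [(P i).right p ⟨hp.1, hi⟩] using hpO⟩
    obtain ⟨r, hr, hbad⟩ : ∃ r ∈ Ioo (0 : ℝ) δ,
        r ∈ ((fun x => dist ((P i).φ x) ((P i).φ p)) '' fib K q)ᶜ :=
      ((hcount.image _).dense_compl ℝ).exists_mem_open isOpen_Ioo (nonempty_Ioo.2 hδ) |>.imp
        fun _ h => ⟨h.2, h.1⟩
    have hsub : closedBall ((P i).φ p) r ⊆ (P i).U ∩ (P i).ψ ⁻¹' O :=
      (closedBall_subset_ball hr.2).trans hball
    refine ⟨⟨i, (P i).φ p, r, fun u hu => (hsub hu).1⟩,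
      ⟨(P i).φ p, mem_ball_self hr.1, (P i).right p ⟨hp.1, hi⟩⟩, ?_, fun u hu h0 => hbad ?_⟩
    · rintro _ ⟨u, hu, rfl⟩
      exact (hsub hu).2
    · have hU := (hsub (sphere_subset_closedBall hu)).1
      refine ⟨(P i).ψ u, ⟨((P i).mapsψ u hU).1, sub_eq_zero.1 h0⟩, ?_⟩
      simpa [(P i).left u hU] using mem_sphere.1 hu
  obtain ⟨UT, hUT, hUTd⟩ := hT.t2_separation
  choose bT hbT1 hbT2 hbT3 using fun p : T => mk p (hTf p.2) (UT p) (hUT p).2 (hUT p).1
  have := hT.fintype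
  choose QT hQT hQTeq using fun p : T =>
    (P (bT p).i).exists_open_image (isOpen_ball (x := (bT p).c) (ε := (bT p).r))
      (ball_subset_closedBall.trans (bT p).sub)
  set R := fib K q \ ⋃ p : T, QT p with hR
  have hRT : ∀ x ∈ R, x ∉ T ∧ ∀ p : T, x ∉ (bT p).cimg := by
    intro x hx
    have h1 : ∀ p : T, x ∉ (bT p).cimg := fun p h => hx.2 (mem_iUnion.2 ⟨p, by
      have := (bT p).mem_img_of_fib (hbT3 p) hx.1 h
      rw [Box.img, ← hQTeq p] at this
      exact this.1⟩)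
    exact ⟨fun h => h1 ⟨x, h⟩ ((bT ⟨x, h⟩).img_subset (hbT1 ⟨x, h⟩)), h1⟩
  have hRfin : R.Finite := by
    refine (hfc.diff (isOpen_iUnion hQT)).finite
      (isDiscrete_iff_forall_mem_exists_isOpen.2 fun p hp => ?_)
    obtain ⟨O, hO, hpO, hOx⟩ := hiso p ⟨hp.1, (hRT p hp).1⟩
    exact ⟨O, hO, Set.ext fun x => ⟨fun hx => hOx x ⟨hx.1, hx.2.1⟩,
      fun hx => by rw [mem_singleton_iff] at hx; exact hx ▸ ⟨hpO, hp⟩⟩⟩
  obtain ⟨UR, hUR, hURd⟩ := hRfin.t2_separation
  have := hRfin.fintype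
  set C := ⋃ p : T, (bT p).cimg
  have hC : IsClosed C := isClosed_iUnion_of_finite fun p => (bT p).isCompact_cimg.isClosed
  choose bR hbR1 hbR2 hbR3 using fun x : R => mk x x.2.1 (UR x \ C) ((hUR x).2.sdiff hC)
    ⟨(hUR x).1, fun h => by
      obtain ⟨p, hp⟩ := mem_iUnion.1 h
      exact (hRT x x.2).2 p hp⟩
  refine ⟨T ⊕ R, inferInstance, Sum.elim bT bR, ?_, ?_, ?_⟩
  · rintro (a | a) (b | b) hab
    · exact (hUTd a.2 b.2 fun h => hab (congrArg Sum.inl (Subtype.ext h))).mono (hbT2 a) (hbT2 b)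
    · exact Set.disjoint_left.2 fun x hxa hxb => (hbR2 b hxb).2 (mem_iUnion.2 ⟨a, hxa⟩)
    · exact Set.disjoint_left.2 fun x hxa hxb => (hbR2 a hxa).2 (mem_iUnion.2 ⟨b, hxb⟩)
    · exact (hURd a.2 b.2 fun h => hab (congrArg Sum.inr (Subtype.ext h))).mono
        ((hbR2 a).trans sdiff_subset) ((hbR2 b).trans sdiff_subset)
  · rintro (a | a)
    · exact hbT3 a
    · exact hbR3 a
  · intro p hp
    by_cases h : p ∈ R
    · exact mem_iUnion.2 ⟨Sum.inr ⟨p, h⟩, hbR1 ⟨p, h⟩⟩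
    · simp only [hR, Set.mem_sdiff, hp, true_and, not_not, mem_iUnion] at h
      obtain ⟨a, ha⟩ := h
      refine mem_iUnion.2 ⟨Sum.inl a, ?_⟩
      show p ∈ (P (bT a).i).ψ '' ball (bT a).c (bT a).r
      rw [← hQTeq a]
      exact ⟨ha, hp.1⟩

end Vale.Agent.P205.Full.Topo
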