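import Vale.Agent.P205.Full.Topo.Param
import Vale.Agent.P205.Full.Topo.Patches

/-!
# P205 full, module TOPO: a regular fibre of a linear map on a compact parametrised set is even
-/

open scoped Topology ContDiff
open Set Filter Metric Function MeasureTheory

namespace Vale.Agent.P205.Full.Topo

/-- `w` with its `k`-th coordinate replaced by `1`. -/
noncomputable def vk (k : Fin 4) (w : R4) : R4 := w + (1 - w k) • EuclideanSpace.single k 1

lemma contDiff_coord (k : Fin 4) : ContDiff ℝ ∞ fun w : R4 => w k :=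
  (EuclideanSpace.proj (𝕜 := ℝ) k).contDiff

lemma contDiff_vk (k : Fin 4) : ContDiff ℝ ∞ (vk k) :=
  contDiff_id.add ((contDiff_const.sub (contDiff_coord k)).smul contDiff_const)

lemma vk_ne_zero (k : Fin 4) (w : R4) : vk k w ≠ 0 := fun h => by
  have := congrArg (fun v : R4 => v k) h
  simp [vk] at this

variable {V : Type} [NormedAddCommGroup V] [NormedSpace ℝ V] [FiniteDimensional ℝ V]
variable {K : Set V} {ι : Type} (P : ι → Patch K)

/-- The linear map `(L, c) ↦ (L a - c, L b)`. -/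
noncomputable def pairEval (z : V × V) : ((V →L[ℝ] R4) × R4) →L[ℝ] R4 × R4 :=
  ((ContinuousLinearMap.apply ℝ R4 z.1).comp (.fst ℝ (V →L[ℝ] R4) R4) -
      .snd ℝ (V →L[ℝ] R4) R4).prod
    ((ContinuousLinearMap.apply ℝ R4 z.2).comp (.fst ℝ (V →L[ℝ] R4) R4))

omit [FiniteDimensional ℝ V] in
lemma pairEval_apply (z : V × V) (q : (V →L[ℝ] R4) × R4) :
    pairEval z q = (q.1 z.1 - q.2, q.1 z.2) := rfl

lemma contDiff_pairEval : ContDiff ℝ ∞ (pairEval (V := V)) :=
  contDiff_clm_apply_iff.2 fun q =>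
    ((q.1.contDiff.comp contDiff_fst).sub contDiff_const).prodMk (q.1.contDiff.comp contDiff_snd)

/-- The system for a degenerate point of the fibre over `c + t e4`: `x = (u, w)`, `t = w k`. -/
noncomputable def sys (q : (V →L[ℝ] R4) × R4) (i : ι) (k : Fin 4) (x : R4 × R4) : R4 × R4 :=
  pairEval ((P i).ψ x.1, fderiv ℝ (P i).ψ x.1 (vk k x.2)) q - ((x.2 k) • e4, 0)

/-- Generic parameters. -/
def Good (q : (V →L[ℝ] R4) × R4) : Prop :=
  ∀ i k, ∀ x ∈ (P i).U ×ˢ (univ : Set R4), sys P q i k x = 0 →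
    Bijective (fderiv ℝ (sys P q i k) x)

lemma contDiffOn_sys_aux (i : ι) (k : Fin 4) :
    ContDiffOn ℝ 1 (fun x : R4 × R4 => pairEval ((P i).ψ x.1, fderiv ℝ (P i).ψ x.1 (vk k x.2)))
      ((P i).U ×ˢ univ) := by
  have h1 : ContDiffOn ℝ 1 (fun x : R4 × R4 => (P i).ψ x.1) ((P i).U ×ˢ univ) :=
    ((P i).smooth.of_le (by simp)).comp contDiff_fst.contDiffOn fun x hx => hx.1
  have h2 : ContDiffOn ℝ 1 (fun x : R4 × R4 => fderiv ℝ (P i).ψ x.1) ((P i).U ×ˢ univ) :=
    ((P i).smooth.fderiv_of_isOpen (P i).openU (m := 1) (by norm_cast)).comp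
      contDiff_fst.contDiffOn fun x hx => hx.1
  exact (contDiff_pairEval.of_le (by simp)).comp_contDiffOn
    (h1.prodMk (h2.clm_apply (((contDiff_vk k).comp contDiff_snd).of_le (by simp)).contDiffOn))

lemma contDiff_shift (k : Fin 4) :
    ContDiff ℝ 1 fun x : R4 × R4 => (((x.2 k) • e4, 0) : R4 × R4) :=
  ((((contDiff_coord k).comp contDiff_snd).smul contDiff_const).prodMk contDiff_const).of_le
    (by simp)

lemma contDiffOn_sys (q : (V →L[ℝ] R4) × R4) (i : ι) (k : Fin 4) :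
    ContDiffOn ℝ 1 (sys P q i k) ((P i).U ×ˢ univ) :=
  ((contDiffOn_sys_aux P i k).clm_apply contDiffOn_const).sub (contDiff_shift k).contDiffOn

lemma exists_good [Finite ι] {O : Set ((V →L[ℝ] R4) × R4)} (hO : IsOpen O) (hne : O.Nonempty) :
    ∃ q ∈ O, Good P q := by
  classical
  let _ : MeasurableSpace ((V →L[ℝ] R4) × R4) := borel _
  have : BorelSpace ((V →L[ℝ] R4) × R4) := ⟨rfl⟩
  let μ : Measure ((V →L[ℝ] R4) × R4) := Measure.addHaar
  have h : ∀ᵐ q ∂μ, Good P q := by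
    refine ae_all_iff.2 fun i => ae_all_iff.2 fun k => ?_
    refine (ae_regular μ rfl ((P i).openU.prod isOpen_univ)
      (fun x => pairEval ((P i).ψ x.1, fderiv ℝ (P i).ψ x.1 (vk k x.2)))
      (fun x => ((x.2 k) • e4, 0)) (contDiffOn_sys_aux P i k) (contDiff_shift k).contDiffOn
      fun x hx y => ?_).mono fun q hq x hx h0 => hq x hx (sub_eq_zero.1 h0)
    set b := fderiv ℝ (P i).ψ x.1 (vk k x.2)
    have hb : b ≠ 0 := fun h => vk_ne_zero k x.2 ((P i).imm _ hx.1 (h.trans (map_zero _).symm))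
    obtain ⟨f, hf⟩ := SeparatingDual.exists_eq_one (R := ℝ) hb
    refine ⟨(f.smulRight y.2, (f.smulRight y.2) ((P i).ψ x.1) - y.1), ?_⟩
    rw [pairEval_apply]
    refine Prod.ext (by simp) ?_
    show (f.smulRight y.2) b = y.2
    simp [hf]
  have hpos : (μ.restrict O) ≠ 0 := by
    rw [Ne, Measure.restrict_eq_zero]
    exact (hO.measure_pos μ hne).ne'
  have : (ae (μ.restrict O)).NeBot := ae_neBot.2 hpos
  exact ((ae_restrict_mem hO.measurableSet).and (ae_restrict_of_ae h)).exists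

variable {P}

omit [FiniteDimensional ℝ V] in
lemma fderiv_fibEqn (q : (V →L[ℝ] R4) × R4) (i : ι) {u : R4} (hu : u ∈ (P i).U) (v : R4) :
    fderiv ℝ (fibEqn P q i) u v = q.1 (fderiv ℝ (P i).ψ u v) := by
  have h : HasFDerivAt (fibEqn P q i) (q.1.comp (fderiv ℝ (P i).ψ u)) u :=
    (q.1.hasFDerivAt.comp u (((P i).smooth.contDiffAt ((P i).openU.mem_nhds hu)).differentiableAt
      (by simp)).hasFDerivAt).sub_const _
  rw [h.fderiv]; rfl

-- A degenerate point gives a zero of the system, with bounded `w`. -/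
omit [FiniteDimensional ℝ V] in
lemma exists_sys_zero {q : (V →L[ℝ] R4) × R4} {t : ℝ} {i : ι} {u : R4} (hu : u ∈ (P i).U)
    (h0 : fibEqn P (line q t) i u = 0) (hb : ¬ Bijective (fderiv ℝ (fibEqn P (line q t) i) u)) :
    ∃ k w, sys P q i k (u, w) = 0 ∧ w k = t ∧ ‖w‖ ≤ 5 + |t| := by
  have hni : ¬ Injective (fderiv ℝ (fibEqn P (line q t) i) u) := fun h =>
    hb ⟨h, (LinearMap.injective_iff_surjective
      (f := (fderiv ℝ (fibEqn P (line q t) i) u).toLinearMap)).1 h⟩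
  rw [injective_iff_map_eq_zero] at hni
  push Not at hni
  obtain ⟨v, hv, hv0⟩ := hni
  obtain ⟨k, -, hk⟩ := Finset.exists_max_image Finset.univ (fun j => |v j|) Finset.univ_nonempty
  have hk0 : v k ≠ 0 := by
    intro h
    refine hv0 (PiLp.ext fun j => ?_)
    have := hk j (Finset.mem_univ _)
    rw [h, abs_zero, abs_nonpos_iff] at this
    simpa using this
  set v' : R4 := (v k)⁻¹ • v
  have hv'k : v' k = 1 := by simp [v', hk0]
  set w : R4 := v' + (t - 1) • EuclideanSpace.single k 1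
  have hwk : w k = t := by simp [w, hv'k]
  have hvw : vk k w = v' := by
    rw [vk, hwk]; simp only [w]; module
  refine ⟨k, w, ?_, hwk, ?_⟩
  · rw [sys, pairEval_apply, hvw, hwk]
    have e1 : q.1 ((P i).ψ u) - q.2 - t • e4 = 0 := by
      simpa [fibEqn, line, sub_sub] using h0
    have e2 : q.1 (fderiv ℝ (P i).ψ u v') = 0 := by
      have h := (fderiv_fibEqn (line q t) i hu v).symm.trans hv
      simp only [line] at h
      simp [v', h]
    exact Prod.ext (by simpa using e1) (by simpa using e2)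
  · have h4 : ‖v'‖ ≤ 4 := by
      have hj : ∀ j, |v' j| ≤ 1 := fun j => by
        simp only [v', PiLp.smul_apply, smul_eq_mul, abs_mul, abs_inv]
        rw [inv_mul_le_one₀ (abs_pos.2 hk0)]
        exact hk j (Finset.mem_univ _)
      have h2 : ‖v'‖ ^ 2 ≤ 4 := by
        rw [EuclideanSpace.real_norm_sq_eq]
        refine (Finset.sum_le_sum fun j _ => (show v' j ^ 2 ≤ 1 from
          (sq_le_one_iff_abs_le_one _).2 (hj j))).trans (by simp)
      nlinarith [norm_nonneg v']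
    calc ‖w‖ ≤ ‖v'‖ + ‖(t - 1) • (EuclideanSpace.single k (1 : ℝ) : R4)‖ := norm_add_le _ _
      _ ≤ 4 + (|t| + 1) := by
        gcongr
        rw [norm_smul, PiLp.norm_single]
        simpa using abs_sub t 1
      _ = 5 + |t| := by ring

lemma isolated_sys {q : (V →L[ℝ] R4) × R4} (hq : Good P q) {i : ι} {k : Fin 4} {x : R4 × R4}
    (hx : x ∈ (P i).U ×ˢ (univ : Set R4)) (h0 : sys P q i k x = 0) :
    ∃ U : Set (R4 × R4), IsOpen U ∧ x ∈ U ∧ ∀ z ∈ U, sys P q i k z = 0 → z = x := by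
  have hd : DifferentiableAt ℝ (sys P q i k) x :=
    ((contDiffOn_sys P q i k).contDiffAt (((P i).openU.prod isOpen_univ).mem_nhds hx)).differentiableAt
      (by simp)
  let L : (R4 × R4) ≃L[ℝ] R4 × R4 :=
    (LinearEquiv.ofBijective (fderiv ℝ (sys P q i k) x).toLinearMap (hq i k x hx h0)).toContinuousLinearEquiv
  have hL : HasFDerivAt (sys P q i k) (L : (R4 × R4) →L[ℝ] R4 × R4) x := hd.hasFDerivAt
  obtain ⟨U, hU, hUo, hxU⟩ := _root_.mem_nhds_iff.1
    (eventually_nhdsWithin_iff.1 (hL.eventually_ne (c := 0) ⟨_, L.antilipschitz⟩))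
  exact ⟨U, hUo, hxU, fun z hz hz0 => by_contra fun h => hU hz h hz0⟩

lemma countable_bad [Finite ι] {q : (V →L[ℝ] R4) × R4} (hq : Good P q) :
    {t : ℝ | ¬ Reg P (line q t)}.Countable := by
  have h : ∀ i k, {x ∈ (P i).U ×ˢ (univ : Set R4) | sys P q i k x = 0}.Countable := fun i k => by
    refine IsLindelof.countable_of_isDiscrete (HereditarilyLindelofSpace.isLindelof _)
      (isDiscrete_iff_forall_mem_exists_isOpen.2 fun x hx => ?_)
    obtain ⟨U, hU, hxU, hz⟩ := isolated_sys hq hx.1 hx.2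
    exact ⟨U, hU, Set.ext fun z => ⟨fun hzU => hz z hzU.1 hzU.2.2,
      fun hzx => by rw [mem_singleton_iff] at hzx; exact hzx ▸ ⟨hxU, hx⟩⟩⟩
  refine (countable_iUnion fun i => countable_iUnion fun k =>
    (h i k).image fun x => x.2 k).mono fun t ht => ?_
  simp only [mem_ofPred_eq, Reg, not_forall] at ht
  obtain ⟨i, u, hu, h0, hb⟩ := ht
  obtain ⟨k, w, hs, hwk, -⟩ := exists_sys_zero hu h0 hb
  exact mem_iUnion.2 ⟨i, mem_iUnion.2 ⟨k, (u, w), ⟨⟨hu, mem_univ _⟩, hs⟩, hwk⟩⟩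

omit [FiniteDimensional ℝ V] in
lemma exists_cover_boxes (hK : IsCompact K) (hcover : ∀ p ∈ K, ∃ i, p ∈ (P i).W) :
    ∃ T : Set (Box P), T.Finite ∧ K ⊆ ⋃ b ∈ T, b.img := by
  have h : ∀ p : K, ∃ b : Box P, (p : V) ∈ b.img := by
    rintro ⟨p, hp⟩
    obtain ⟨i, hi⟩ := hcover p hp
    obtain ⟨δ, hδ, hball⟩ := Metric.isOpen_iff.1 (P i).openU _ ((P i).mapsφ p ⟨hp, hi⟩)
    exact ⟨⟨i, (P i).φ p, δ / 2, (closedBall_subset_ball (by linarith)).trans hball⟩,
      (P i).φ p, mem_ball_self (half_pos hδ), (P i).right p ⟨hp, hi⟩⟩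
  choose b hb using h
  choose Q hQ hQeq using fun p : K =>
    (P (b p).i).exists_open_image (isOpen_ball (x := (b p).c) (ε := (b p).r))
      (ball_subset_closedBall.trans (b p).sub)
  obtain ⟨s, hs⟩ := hK.elim_finite_subcover Q hQ fun p hp => mem_iUnion.2 ⟨⟨p, hp⟩, by
    have := hb ⟨p, hp⟩
    rw [Box.img, ← hQeq] at this
    exact this.1⟩
  refine ⟨b '' s, s.finite_toSet.image b, fun p hp => ?_⟩
  obtain ⟨a, ha, hpa⟩ := mem_iUnion₂.1 (hs hp)
  refine mem_iUnion₂.2 ⟨b a, mem_image_of_mem b ha, ?_⟩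
  rw [Box.img, ← hQeq]
  exact ⟨hpa, hp⟩

lemma parity_line (hK : IsCompact K) (hcover : ∀ p ∈ K, ∃ i, p ∈ (P i).W)
    {q : (V →L[ℝ] R4) × R4} (hq : Good P q) (t : ℝ) :
    ∃ O : Set ((V →L[ℝ] R4) × R4), IsOpen O ∧ line q t ∈ O ∧ ∀ a ∈ O, ∀ b ∈ O, Reg P a →
      Reg P b → ((fib K a).ncard : ZMod 2) = (fib K b).ncard := by
  classical
  obtain ⟨B, hB, hKB⟩ := exists_cover_boxes hK hcover
  set Z := fun (b : Box P) (k : Fin 4) =>
    {x ∈ closedBall b.c b.r ×ˢ closedBall (0 : R4) (5 + |t|) | sys P q b.i k x = 0}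
  have hZ : ∀ b k, (Z b k).Finite := fun b k => by
    have hsub : closedBall b.c b.r ×ˢ closedBall (0 : R4) (5 + |t|) ⊆
        (P b.i).U ×ˢ (univ : Set R4) := prod_mono b.sub (subset_univ _)
    have hc : IsCompact (Z b k) :=
      ((isCompact_closedBall b.c b.r).prod (isCompact_closedBall _ _)).of_isClosed_subset
        (((contDiffOn_sys P q b.i k).continuousOn.mono hsub).preimage_isClosed_of_isClosed
          (isClosed_closedBall.prod isClosed_closedBall) isClosed_singleton) inter_subset_left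
    refine hc.finite (isDiscrete_iff_forall_mem_exists_isOpen.2 fun x hx => ?_)
    obtain ⟨U, hU, hxU, hz⟩ := isolated_sys hq (hsub hx.1) hx.2
    exact ⟨U, hU, Set.ext fun z => ⟨fun hzU => hz z hzU.1 hzU.2.2,
      fun hzx => by rw [mem_singleton_iff] at hzx; exact hzx ▸ ⟨hxU, hx⟩⟩⟩
  set T : Set V := (⋃ b ∈ B, ⋃ k, (fun x : R4 × R4 => (P b.i).ψ x.1) '' Z b k) ∩ fib K (line q t)
  have hT : T.Finite :=
    (hB.biUnion fun b _ => finite_iUnion fun k => (hZ b k).image _).inter_of_left _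
  obtain ⟨κ, hκ, bx, h1, h2, h3⟩ := exists_boxes hK hcover (line q t) hT inter_subset_right
    fun p hp => by
      obtain ⟨b, hb, u, hu, rfl⟩ := mem_iUnion₂.1 (hKB hp.1.1)
      have huU := b.sub (ball_subset_closedBall hu)
      by_cases hbij : Bijective (fderiv ℝ (fibEqn P (line q t) b.i) u)
      · exact isolated_of_bijective P hp.1 ((P b.i).mapsψ u huU).2
          (by rwa [(P b.i).left u huU])
      · obtain ⟨k, w, hs, -, hw⟩ := exists_sys_zero huU
          (show fibEqn P (line q t) b.i u = 0 by simp only [fibEqn, hp.1.2, sub_self]) hbij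
        exact absurd ⟨mem_iUnion₂.2 ⟨b, hb, mem_iUnion.2 ⟨k, (u, w),
          ⟨⟨ball_subset_closedBall hu, mem_closedBall_zero_iff.2 hw⟩, hs⟩, rfl⟩⟩, hp.1⟩ hp.2
  exact parity_local hK bx (line q t) h1 h2 h3

/-- **A regular fibre is even.** -/
theorem even_fib [Finite ι] (hK : IsCompact K) (hcover : ∀ p ∈ K, ∃ i, p ∈ (P i).W)
    (q₀ : (V →L[ℝ] R4) × R4) (h₀ : Reg P q₀) : Even (fib K q₀).ncard := by
  classical
  obtain ⟨κ, hκ, bx, h1, h2, h3⟩ := exists_boxes (P := P) hK hcover q₀ finite_empty (empty_subset _)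
    fun p hp => by
      obtain ⟨i, hi⟩ := hcover p hp.1.1
      have hu := (P i).mapsφ p ⟨hp.1.1, hi⟩
      exact isolated_of_bijective P hp.1 hi (h₀ i _ hu (by
        simp only [fibEqn, (P i).right p ⟨hp.1.1, hi⟩, hp.1.2, sub_self]))
  obtain ⟨O₀, hO₀, hq₀, hp₀⟩ := parity_local hK bx q₀ h1 h2 h3
  obtain ⟨q, hqO, hq⟩ := exists_good P hO₀ ⟨q₀, hq₀⟩
  set N : ℝ → ZMod 2 := fun t => ((fib K (line q t)).ncard : ZMod 2)
  set Tr := {t : ℝ | Reg P (line q t)}
  have hline : Continuous (line q) := continuous_const.prodMk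
    (continuous_const.add (continuous_id.smul continuous_const))
  have hTr : Dense Tr := by
    have := (countable_bad hq).dense_compl ℝ
    simpa [Tr, compl_ofPred] using this
  have hloc : ∀ t, ∃ J : Set ℝ, IsOpen J ∧ t ∈ J ∧ ∀ a ∈ J, ∀ b ∈ J, a ∈ Tr → b ∈ Tr → N a = N b := by
    intro t
    obtain ⟨O, hO, htO, hOp⟩ := parity_line hK hcover hq t
    exact ⟨line q ⁻¹' O, hO.preimage hline, htO, fun a ha b hb hra hrb => hOp _ ha _ hb hra hrb⟩
  set A := {t : ℝ | ∃ J : Set ℝ, IsOpen J ∧ t ∈ J ∧ ∀ a ∈ J, a ∈ Tr → N a = 0}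
  have hA : A = univ := by
    refine IsClopen.eq_univ ⟨⟨?_⟩, ?_⟩ ?_
    · refine isOpen_iff_forall_mem_open.2 fun t ht => ?_
      obtain ⟨J, hJ, htJ, hc⟩ := hloc t
      refine ⟨J, fun s hs hsA => ht ?_, hJ, htJ⟩
      obtain ⟨J', hJ', hsJ', h0⟩ := hsA
      obtain ⟨a, hra, ha⟩ := hTr.exists_mem_open (hJ.inter hJ') ⟨s, hs, hsJ'⟩
      exact ⟨J, hJ, htJ, fun b hb hrb => (hc b hb a ha.1 hrb hra).trans (h0 a ha.2 hra)⟩
    · exact isOpen_iff_forall_mem_open.2 fun t ⟨J, hJ, htJ, h0⟩ =>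
        ⟨J, fun s hs => ⟨J, hJ, hs, h0⟩, hJ, htJ⟩
    · obtain ⟨M, hM⟩ := hK.exists_bound_of_continuousOn
        (f := fun p => q.1 p - q.2) (q.1.continuous.sub continuous_const).continuousOn
      refine ⟨|M| + 1, Ioi |M|, isOpen_Ioi, lt_add_one |M|, fun a ha _ => ?_⟩
      have hempty : fib K (line q a) = ∅ := eq_empty_of_forall_notMem fun p hp => by
        have h := hM p hp.1
        have h' : q.1 p - q.2 = a • e4 := by
          have := hp.2
          simp only [line] at this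
          rw [this, add_sub_cancel_left]
        rw [h', norm_smul, e4, PiLp.norm_single, norm_one, mul_one, Real.norm_eq_abs] at h
        linarith [le_abs_self a, le_abs_self M, mem_Ioi.1 ha]
      simp [N, hempty]
  obtain ⟨s, hrs, hs⟩ := hTr.exists_mem_open (hO₀.preimage hline)
    ⟨0, by simpa [line] using hqO⟩
  obtain ⟨J, -, hsJ, h0⟩ := hA ▸ mem_univ s
  have h2 := (hp₀ q₀ hq₀ _ hs h₀ hrs).trans (h0 s hsJ hrs)
  exact ZMod.natCast_eq_zero_iff_even.1 h2

end Vale.Agent.P205.Full.Topo
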