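import Vale.Agent.P205.Full.Topo.PairPatches
import Vale.Agent.P205.Full.Topo.Parity

/-!
# P205 full, module TOPO: proof of `GenericProp`
-/

open scoped Manifold ContDiff Topology
open Set Function Filter

namespace Vale.Agent.P205.Full.Topo

variable {M : Type} [TopologicalSpace M] [ChartedSpace R2 M] [IsManifold (𝓡 2) ∞ M]
  [CompactSpace M] {n : ℕ} {ι : M → Rn n} {A : Rn n →L[ℝ] R4}

lemma finite_umb (hι : IsEmb ι) (hA : GenA ι A) : (umb ι A).Finite := by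
  have h : ∀ z : M, ∃ N : Set M, IsOpen N ∧ z ∈ N ∧ (N ∩ umb ι A).Subsingleton := fun z => by
    by_cases hz : z ∈ umb ι A
    · obtain ⟨N, hN, hzN, h, -⟩ := near_umb hι hA hz
      exact ⟨N, hN, hzN, fun a ha b hb => (h a ha.1 ha.2).trans (h b hb.1 hb.2).symm⟩
    · obtain ⟨N, hN, hzN, h, -⟩ := near_not_umb hι hA hz
      exact ⟨N, hN, hzN, fun a ha => absurd ha.2 (h a ha.1)⟩
  choose N hN hzN hsub using h
  obtain ⟨t, ht⟩ := isCompact_univ.elim_finite_subcover N hN fun z _ => mem_iUnion.2 ⟨z, hzN z⟩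
  refine (t.finite_toSet.biUnion fun z _ => (hsub z).finite).subset fun x hx => ?_
  obtain ⟨z, hz, hxz⟩ := mem_iUnion₂.1 (ht (mem_univ x))
  exact mem_iUnion₂.2 ⟨z, hz, hxz, hx⟩

/-- The double pairs in `S`. -/
def doubles (ι : M → Rn n) (A : Rn n →L[ℝ] R4) (S : Set M) : Set (M × M) :=
  {p ∈ S ×ˢ S | p.1 ≠ p.2 ∧ A (ι p.1) = A (ι p.2)}

lemma finite_doubles (hι : IsEmb ι) (hA : GenA ι A) {S : Set M} (hS : IsClopen S) :
    (doubles ι A S).Finite := by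
  have h : ∀ p : M × M, ∃ O : Set (M × M), IsOpen O ∧ p ∈ O ∧
      (O ∩ doubles ι A S).Subsingleton := fun p => by
    by_cases he : p.1 = p.2
    · obtain ⟨N, hN, hzN, hinj⟩ : ∃ N : Set M, IsOpen N ∧ p.1 ∈ N ∧
          ∀ x ∈ N, ∀ y ∈ N, A (ι x) = A (ι y) → x = y := by
        by_cases hz : p.1 ∈ umb ι A
        · obtain ⟨N, hN, hzN, -, -, h⟩ := near_umb hι hA hz
          exact ⟨N, hN, hzN, h⟩
        · obtain ⟨N, hN, hzN, -, -, h⟩ := near_not_umb hι hA hz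
          exact ⟨N, hN, hzN, h⟩
      exact ⟨N ×ˢ N, hN.prod hN, ⟨hzN, he ▸ hzN⟩,
        fun a ha => absurd (hinj _ ha.1.1 _ ha.1.2 ha.2.2.2) ha.2.2.1⟩
    · by_cases h0 : A (ι p.1) = A (ι p.2)
      · obtain ⟨O, hO, hpO, -, h⟩ := near_double hι h0 (hA.double _ _ he h0)
        exact ⟨O, hO, hpO, fun a ha b hb => (h a ha.1 ha.2.2.2).trans (h b hb.1 hb.2.2.2).symm⟩
      · refine ⟨{q | A (ι q.1) ≠ A (ι q.2)}, isOpen_ne_fun
          (A.continuous.comp (hι.smooth.continuous.comp continuous_fst))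
          (A.continuous.comp (hι.smooth.continuous.comp continuous_snd)), h0,
          fun a ha => absurd ha.2.2.2 ha.1⟩
  choose O hO hpO hsub using h
  obtain ⟨t, ht⟩ := ((hS.isClosed.isCompact.prod hS.isClosed.isCompact)).elim_finite_subcover O hO
    fun p _ => mem_iUnion.2 ⟨p, hpO p⟩
  refine (t.finite_toSet.biUnion fun z _ => (hsub z).finite).subset fun x hx => ?_
  obtain ⟨z, hz, hxz⟩ := mem_iUnion₂.1 (ht hx.1)
  exact mem_iUnion₂.2 ⟨z, hz, hxz, hx⟩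

omit [IsManifold (𝓡 2) ∞ M] [CompactSpace M] [ChartedSpace R2 M] [TopologicalSpace M] in
lemma even_doubles {S : Set M} (hfin : (doubles ι A S).Finite) :
    ((doubles ι A S).ncard : ZMod 2) = 0 := by
  classical
  rw [ncard_eq_toFinset_card _ hfin, Finset.cast_card]
  refine Finset.sum_involution (fun p _ => (p.2, p.1)) (fun _ _ => by decide) (fun p hp _ h => ?_)
    (fun p hp => ?_) (fun _ _ => rfl)
  · exact (hfin.mem_toFinset.1 hp).2.1 (congrArg Prod.snd h)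
  · obtain ⟨h1, h2, h3⟩ := hfin.mem_toFinset.1 hp
    exact hfin.mem_toFinset.2 ⟨⟨h1.2, h1.1⟩, h2.symm, h3.symm⟩

variable [T2Space M]

lemma even_umb (hι : IsEmb ι) (hA : GenA ι A) {S : Set M} (hS : IsClopen S) :
    Even (umb ι A ∩ S).ncard := by
  classical
  set Z := (fun x : M => (x, x)) '' (umb ι A ∩ S)
  set D := doubles ι A S
  set P := D ∪ Z
  have hDfin := finite_doubles hι hA hS
  have hUfin : (umb ι A ∩ S).Finite := (finite_umb hι hA).inter_of_left S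
  have hPfin : P.Finite := hDfin.union (hUfin.image _)
  have hPS : P ⊆ S ×ˢ S := union_subset (fun p hp => hp.1) (by rintro _ ⟨x, hx, rfl⟩; exact ⟨hx.2, hx.2⟩)
  have h1 : ∀ p ∈ P, ∃ O : Set (M × M), IsOpen O ∧ p ∈ O ∧ OneChord ι A p O := by
    rintro p (⟨-, hne, h0⟩ | ⟨z, hz, rfl⟩)
    · obtain ⟨O, hO, hpO, h, -⟩ := near_double hι h0 (hA.double _ _ hne h0)
      exact ⟨O, hO, hpO, h⟩
    · obtain ⟨N, hN, hzN, -, h, -⟩ := near_umb hι hA hz.1
      exact ⟨N ×ˢ N, hN.prod hN, ⟨hzN, hzN⟩, h⟩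
  choose! O hO hpO hone using h1
  obtain ⟨Us, hUs, hUsd⟩ := hPfin.t2_separation
  set N : M × M → Set (M × M) := fun p => O p ∩ Us p ∩ S ×ˢ S
  have hNo : ∀ p ∈ P, IsOpen (N p) := fun p hp =>
    ((hO p hp).inter (hUs p).2).inter (hS.isOpen.prod hS.isOpen)
  have hmN : ∀ p ∈ P, p ∈ N p := fun p hp => ⟨⟨hpO p hp, (hUs p).1⟩, hPS hp⟩
  set R := S ×ˢ S \ ⋃ p ∈ P, N p
  have hR : IsCompact R :=
    (hS.isClosed.isCompact.prod hS.isClosed.isCompact).diff (isOpen_biUnion hNo)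
  have hrest : ∀ᶠ s in 𝓝[≠] (0 : ℝ), ∀ q ∈ R, ¬ IsChord ι A s q := by
    refine hR.induction_on (p := fun T => ∀ᶠ s in 𝓝[≠] (0 : ℝ), ∀ q ∈ T, ¬ IsChord ι A s q)
      (Eventually.of_forall fun s q hq => hq.elim) (fun s t hst h => h.mono fun x hx q hq =>
        hx q (hst hq)) (fun s t h h' => (h.and h').mono fun x hx q hq =>
        hq.elim (hx.1 q) (hx.2 q)) fun q hq => ?_
    obtain ⟨Oq, hOq, hqO, hno⟩ : ∃ Oq : Set (M × M), IsOpen Oq ∧ q ∈ Oq ∧ NoChord ι A Oq := by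
      by_cases h0 : A (ι q.1) = A (ι q.2)
      · by_cases he : q.1 = q.2
        · have hz : q.1 ∉ umb ι A := fun h => by
            have hqP : q ∈ P := Or.inr ⟨q.1, ⟨h, hq.1.1⟩, Prod.ext rfl he⟩
            exact hq.2 (mem_iUnion₂.2 ⟨q, hqP, hmN q hqP⟩)
          obtain ⟨V, hV, hzV, -, h, -⟩ := near_not_umb hι hA hz
          exact ⟨V ×ˢ V, hV.prod hV, ⟨hzV, he ▸ hzV⟩, h⟩
        · exact absurd (mem_iUnion₂.2 ⟨q, Or.inl ⟨hq.1, he, h0⟩, hmN q (Or.inl ⟨hq.1, he, h0⟩)⟩) hq.2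
      · exact near_ne hι h0
    exact ⟨Oq ∩ R, inter_mem (mem_nhdsWithin_of_mem_nhds (hOq.mem_nhds hqO)) self_mem_nhdsWithin,
      hno.mono fun s hs x hx => hs x hx.1⟩
  have huni : ∀ᶠ s in 𝓝[≠] (0 : ℝ), ∀ p ∈ P,
      (∀ q ∈ O p, IsChord ι A s q → TrInj ι A q.1 q.2 ∧ ∀ q' ∈ O p, IsChord ι A s q' → q' = q) ∧
      ∃ q ∈ N p, IsChord ι A s q :=
    (hPfin.eventually_all).2 fun p hp => ((hone p hp).1).and ((hone p hp).2 _ (hNo p hp) (hmN p hp))
  obtain ⟨s, hs, hu⟩ := (hrest.and huni).exists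
  obtain ⟨κ, _, Pt, hcov, hreg⟩ := exists_patches hι A hS
  have hsol : ∀ x ∈ S, ∀ y ∈ S, IsChord ι A s (x, y) → ∃ p ∈ P, (x, y) ∈ N p := by
    intro x hx y hy h
    by_contra hne
    refine hs (x, y) ⟨⟨hx, hy⟩, fun hm => ?_⟩ h
    obtain ⟨p, hp, hpm⟩ := mem_iUnion₂.1 hm
    exact hne ⟨p, hp, hpm⟩
  have hReg := hreg s fun x hx y hy h => by
    obtain ⟨p, hp, hm⟩ := hsol x hx y hy h
    exact ((hu p hp).1 (x, y) hm.1.1 h).1
  have hK : IsCompact (pairK ι S) := (hS.isClosed.isCompact.prod hS.isClosed.isCompact).image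
    ((hι.smooth.continuous.comp continuous_fst).prodMk (hι.smooth.continuous.comp continuous_snd))
  have heven := even_fib hK hcov (chordEq A s) hReg
  choose! sel hsel hselc using fun p (hp : p ∈ P) => (hu p hp).2
  have himg : fib (pairK ι S) (chordEq A s) =
      (fun q : M × M => (ι q.1, ι q.2)) '' (sel '' P) := by
    ext z
    constructor
    · rintro ⟨⟨⟨x, y⟩, hxy, rfl⟩, he⟩
      have hc : IsChord ι A s (x, y) := he
      obtain ⟨p, hp, hm⟩ := hsol x hxy.1 y hxy.2 hc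
      exact ⟨_, ⟨p, hp, ((hu p hp).1 (x, y) hm.1.1 hc).2 _ (hsel p hp).1.1 (hselc p hp)⟩, rfl⟩
    · rintro ⟨_, ⟨p, hp, rfl⟩, rfl⟩
      exact ⟨⟨_, (hsel p hp).2, rfl⟩, hselc p hp⟩
  have hinj : InjOn sel P := fun p hp p' hp' h => by
    by_contra hne
    exact Set.disjoint_left.1 (hUsd hp hp' hne) (hsel p hp).1.2 (h ▸ (hsel p' hp').1.2)
  rw [himg, ncard_image_of_injective _ (fun a b h =>
    Prod.ext (hι.inj (congrArg Prod.fst h)) (hι.inj (congrArg Prod.snd h))),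
    hinj.ncard_image, ncard_union_eq ?_ hDfin (hUfin.image _),
    ncard_image_of_injective _ (fun a b h => congrArg Prod.fst h)] at heven
  · refine ZMod.natCast_eq_zero_iff_even.1 ?_
    have h2 := ZMod.natCast_eq_zero_iff_even.2 heven
    rwa [Nat.cast_add, even_doubles hDfin, zero_add] at h2
  · rw [Set.disjoint_left]
    rintro _ hd ⟨x, -, rfl⟩
    exact hd.2.1 rfl

/-- **`GenericProp` holds.** -/
theorem generic : GenericProp := fun M _ _ _ _ _ n ι hι => by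
  obtain ⟨A, hA⟩ := exists_genA hι
  exact ⟨A, hA.imm, finite_umb hι hA, hA.nondeg, fun S hS => even_umb hι hA hS⟩

end Vale.Agent.P205.Full.Topo
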