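import Vale.Agent.P205.Full.Statement

/-!
# P205 full, module TOPO: interfaces (frozen; helper17). See PLAN.md in this folder.
-/

open scoped Manifold ContDiff
open Function Set

namespace Vale.Agent.P205.Full.Topo

abbrev Rn (n : ℕ) := EuclideanSpace ℝ (Fin n)

/-- The fourth standard vector of `ℝ⁴`. -/
noncomputable def e4 : R4 := EuclideanSpace.single 3 1

section

variable {M : Type} [TopologicalSpace M] [ChartedSpace R2 M] [IsManifold (𝓡 2) ∞ M] {n : ℕ}

/-- The differential of `ι`, with plain types. -/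
noncomputable def dι (ι : M → Rn n) (x : M) : R2 →L[ℝ] Rn n :=
  mfderiv (𝓡 2) 𝓘(ℝ, Rn n) ι x

/-- A smooth embedding of `M`. -/
structure IsEmb (ι : M → Rn n) : Prop where
  smooth : ContMDiff (𝓡 2) 𝓘(ℝ, Rn n) ∞ ι
  inj : Injective ι
  imm : ∀ x, Injective (dι ι x)

/-- The points where `e4` is tangent to the projected surface `A ∘ ι`. -/
def umb (ι : M → Rn n) (A : Rn n →L[ℝ] R4) : Set M :=
  {x | ∃ v : R2, A (dι ι x v) = e4}

/-- `A ∘ ι` in the chart at `z`. -/
noncomputable def gChart (ι : M → Rn n) (A : Rn n →L[ℝ] R4) (z : M) : R2 → R4 :=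
  fun u => A (ι ((extChartAt (𝓡 2) z).symm u))

/-- Output of Generic + Parity: an immersion `A ∘ ι` in `ℝ⁴` for which the zeros of the normal
part of `e4` are nondegenerate and evenly many on every clopen set. -/
structure Generic (ι : M → Rn n) (A : Rn n →L[ℝ] R4) : Prop where
  imm : ∀ x, Injective fun v : R2 => A (dι ι x v)
  finite : (umb ι A).Finite
  nondeg : ∀ z : M, ∀ w : R2, fderiv ℝ (gChart ι A z) (extChartAt (𝓡 2) z z) w = e4 →
    Bijective (fderiv ℝ (fun p : R2 × R2 => fderiv ℝ (gChart ι A z) p.1 p.2)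
      (extChartAt (𝓡 2) z z, w))
  even : ∀ S : Set M, IsClopen S → Even (umb ι A ∩ S).ncard

/-- A formal immersion in `ℝ³`: linear maps injective on all tangent planes. -/
def IsFormal (ι : M → Rn n) (Φ : M → Rn n →L[ℝ] R3) : Prop :=
  ContMDiff (𝓡 2) 𝓘(ℝ, Rn n →L[ℝ] R3) ∞ Φ ∧ ∀ x, Injective fun v : R2 => Φ x (dι ι x v)

end

/-- T1+T2 (helper17). -/
def GenericProp : Prop :=
  ∀ (M : Type) [TopologicalSpace M] [T2Space M] [CompactSpace M] [ChartedSpace R2 M]
    [IsManifold (𝓡 2) ∞ M] (n : ℕ) (ι : M → Rn n), IsEmb ι → ∃ A, Generic ι A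

/-- Moves and cancellation (helper43). -/
def FormalProp : Prop :=
  ∀ (M : Type) [TopologicalSpace M] [T2Space M] [CompactSpace M] [ChartedSpace R2 M]
    [IsManifold (𝓡 2) ∞ M] (n : ℕ) (ι : M → Rn n) (A : Rn n →L[ℝ] R4),
    IsEmb ι → Generic ι A → ∃ Φ, IsFormal ι Φ

/-- h-principle (helper61). -/
def HPrincipleProp : Prop :=
  ∀ (M : Type) [TopologicalSpace M] [T2Space M] [CompactSpace M] [ChartedSpace R2 M]
    [IsManifold (𝓡 2) ∞ M] (n : ℕ) (ι : M → Rn n) (Φ : M → Rn n →L[ℝ] R3),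
    IsEmb ι → IsFormal ι Φ → ImmersesInR3 M

/-- The assembly of TOPO. -/
theorem surfacesImmerse_of (hG : GenericProp) (hF : FormalProp) (hH : HPrincipleProp) :
    SurfacesImmerse := by
  intro M _ _ _ _ _
  obtain ⟨n, ι, h1, h2, h3⟩ := exists_embedding_euclidean_of_compact (I := 𝓡 2) (M := M)
  have hι : IsEmb ι := ⟨h1, h2.injective, h3⟩
  obtain ⟨A, hA⟩ := hG M n ι hι
  obtain ⟨Φ, hΦ⟩ := hF M n ι A hι hA
  exact hH M n ι Φ hι hΦ

end Vale.Agent.P205.Full.Topo
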