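import Vale.Agent.P205.Full.Topo.MovesData

/-!
# TOPO Moves 2: adapted balls and surgery inside a ball
-/

open scoped Manifold ContDiff Topology
open Function Set Filter Metric

namespace Vale.Agent.P205.Full.Topo

open Open (ich tgt)

variable {M : Type} [TopologicalSpace M] [ChartedSpace R2 M] [IsManifold (𝓡 2) ∞ M] {n : ℕ}
variable {ι : M → Rn n} {Ψ : M → Rn n →L[ℝ] R4} {N : M → R4}

/-- A chart ball with a constant complement `K` of the tangent planes and a constant left inverse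
`P` of `dι` up to an invertible map. It does not depend on `N`. -/
structure Ball (ι : M → Rn n) (Ψ : M → Rn n →L[ℝ] R4) where
  c : M
  u0 : R2
  R : ℝ
  hR : 0 < R
  sub : closedBall u0 R ⊆ tgt c
  K : ℂ →L[ℝ] R4
  bij : ∀ u ∈ closedBall u0 R, Bijective ((fld ι Ψ c u).coprod K)
  P : Rn n →L[ℝ] R2
  bijP : ∀ u ∈ closedBall u0 R, Bijective (P.comp (Jc ι c u))

/-- Composition with a bijective map. -/
lemma equiv_of_bij {E F : Type*} [NormedAddCommGroup E] [NormedSpace ℝ E] [FiniteDimensional ℝ E]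
    [NormedAddCommGroup F] [NormedSpace ℝ F] [FiniteDimensional ℝ F] {f : E →L[ℝ] F}
    (hf : Bijective f) : ∃ e : E ≃L[ℝ] F, (e : E →L[ℝ] F) = f :=
  ⟨(LinearEquiv.ofBijective f.toLinearMap hf).toContinuousLinearEquiv, by ext; rfl⟩

lemma exists_ball (hι : IsEmb ι) (hΨ : ContMDiff (𝓡 2) 𝓘(ℝ, Rn n →L[ℝ] R4) ∞ Ψ)
    (hinj : ∀ x, Injective fun v : R2 => Ψ x (dι ι x v)) (p : M) :
    ∃ B : Ball ι Ψ, B.c = p ∧ B.u0 = co p p := by
  set u₀ := co p p with hu₀
  have hp := mem_chart_source R2 p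
  have hu : u₀ ∈ tgt p := co_mem hp
  have hF := (inj_iff hι hp).1 (hinj p)
  set V := LinearMap.range (fld ι Ψ p u₀).toLinearMap with hV
  have h2 : Module.finrank ℝ V = 2 := by
    rw [hV, LinearMap.finrank_range_of_inj hF]; simp
  have h2' : Module.finrank ℝ Vᗮ = 2 := by
    have := V.finrank_add_finrank_orthogonal
    have h4 : Module.finrank ℝ R4 = 4 := by simp
    omega
  let e : ℂ ≃ₗ[ℝ] Vᗮ := LinearEquiv.ofFinrankEq ℂ Vᗮ (by rw [h2']; simp)
  set K : ℂ →L[ℝ] R4 := (Vᗮ.subtype.comp e.toLinearMap).toContinuousLinearMap with hK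
  have hbij : Bijective ((fld ι Ψ p u₀).coprod K) := by
    have hi : Injective ((fld ι Ψ p u₀).coprod K) := by
      rw [injective_iff_map_eq_zero]
      rintro ⟨a, b⟩ h
      simp only [ContinuousLinearMap.coprod_apply] at h
      have h1 : (e b : R4) ∈ V := by
        refine ⟨-a, ?_⟩
        have : K b = (e b : R4) := rfl
        rw [← this, eq_neg_of_add_eq_zero_right h]
        simp
      have h0 : (e b : R4) = 0 := Submodule.disjoint_def.1 V.orthogonal_disjoint _ h1 (e b).2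
      have hb : b = 0 := e.injective (by rw [map_zero]; exact Subtype.ext h0)
      subst hb
      rw [map_zero, add_zero] at h
      exact Prod.ext (hF (h.trans (map_zero _).symm)) rfl
    exact ⟨hi, (LinearMap.injective_iff_surjective_of_finrank_eq_finrank
      (f := ((fld ι Ψ p u₀).coprod K).toLinearMap) (by simp)).1 hi⟩
  obtain ⟨Q, hQ⟩ := (Jc ι p u₀).toLinearMap.exists_leftInverse_of_injective
    (LinearMap.ker_eq_bot.2 (Jc_injective hι hu))
  set P : Rn n →L[ℝ] R2 := Q.toContinuousLinearMap with hP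
  have hPb : Bijective (P.comp (Jc ι p u₀)) := by
    have : ∀ v, (P.comp (Jc ι p u₀)) v = v := fun v => LinearMap.congr_fun hQ v
    exact ⟨fun a b h => by rwa [this, this] at h, fun v => ⟨v, this v⟩⟩
  obtain ⟨e1, he1⟩ := equiv_of_bij hbij
  obtain ⟨e2, he2⟩ := equiv_of_bij hPb
  have hc1 : ContinuousAt (fun u => (fld ι Ψ p u).coprod K) u₀ := by
    have h1 := ((contDiffOn_fld hι hΨ p).continuousOn.continuousAt
      ((Open.isOpen_tgt p).mem_nhds hu))
    have : (fun u => (fld ι Ψ p u).coprod K) = fun u =>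
        (fld ι Ψ p u).comp (ContinuousLinearMap.fst ℝ R2 ℂ) +
          K.comp (ContinuousLinearMap.snd ℝ R2 ℂ) := by
      funext u; ext <;> simp
    rw [this]
    exact (h1.clm_comp continuousAt_const).add continuousAt_const
  have hc2 : ContinuousAt (fun u => P.comp (Jc ι p u)) u₀ :=
    continuousAt_const.clm_comp ((contDiffOn_Jc hι p).continuousOn.continuousAt
      ((Open.isOpen_tgt p).mem_nhds hu))
  have he : ∀ᶠ u in 𝓝 u₀, u ∈ tgt p ∧ Bijective ((fld ι Ψ p u).coprod K) ∧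
      Bijective (P.comp (Jc ι p u)) := by
    filter_upwards [(Open.isOpen_tgt p).mem_nhds hu,
      hc1.preimage_mem_nhds (ContinuousLinearEquiv.isOpen.mem_nhds ⟨e1, he1⟩),
      hc2.preimage_mem_nhds (ContinuousLinearEquiv.isOpen.mem_nhds ⟨e2, he2⟩)]
      with u h1 ⟨f1, hf1⟩ ⟨f2, hf2⟩
    simp only at hf1 hf2
    refine ⟨h1, ?_, ?_⟩
    · rw [← hf1]; exact f1.bijective
    · rw [← hf2]; exact f2.bijective
  obtain ⟨R, hR, hR'⟩ := Metric.nhds_basis_closedBall.eventually_iff.1 he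
  exact ⟨⟨p, u₀, R, hR, fun u h => (hR' h).1, K, fun u h => (hR' h).2.1, P,
    fun u h => (hR' h).2.2⟩, rfl, rfl⟩

namespace Ball

variable (B : Ball ι Ψ)

/-- The open coordinate ball. -/
abbrev dom : Set R2 := ball B.u0 B.R

lemma dom_tgt {u : R2} (hu : u ∈ B.dom) : u ∈ tgt B.c := B.sub (ball_subset_closedBall hu)

/-- Coordinates of `N` in the splitting. -/
noncomputable def split (N : M → R4) (u : R2) : R2 × ℂ :=
  ((fld ι Ψ B.c u).coprod B.K).inverse (N (ich B.c u))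

/-- The normal component of `N`. -/
noncomputable def nu (N : M → R4) (u : R2) : ℂ := (B.split N u).2

/-- The tangential component of `N`. -/
noncomputable def tp (N : M → R4) (u : R2) : R2 := (B.split N u).1

lemma split_spec (N : M → R4) {u : R2} (hu : u ∈ B.dom) :
    fld ι Ψ B.c u (B.tp N u) + B.K (B.nu N u) = N (ich B.c u) := by
  obtain ⟨e, he⟩ := equiv_of_bij (B.bij u (ball_subset_closedBall hu))
  have h : ((fld ι Ψ B.c u).coprod B.K) (B.split N u) = N (ich B.c u) := by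
    rw [split, ← he, ContinuousLinearMap.inverse_equiv]; exact e.apply_symm_apply _
  simpa [tp, nu] using h

lemma decomp_unique {u : R2} (hu : u ∈ B.dom) {a a' : R2} {z z' : ℂ}
    (h : fld ι Ψ B.c u a + B.K z = fld ι Ψ B.c u a' + B.K z') : a = a' ∧ z = z' := by
  have := (B.bij u (ball_subset_closedBall hu)).1 (a₁ := (a, z)) (a₂ := (a', z')) (by simpa using h)
  exact Prod.ext_iff.1 this

lemma contDiffOn_split (hι : IsEmb ι) (hΨ : ContMDiff (𝓡 2) 𝓘(ℝ, Rn n →L[ℝ] R4) ∞ Ψ)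
    (hN : ContMDiff (𝓡 2) 𝓘(ℝ, R4) ∞ N) : ContDiffOn ℝ ∞ (B.split N) B.dom := by
  have hs : B.dom ⊆ tgt B.c := fun u hu => B.dom_tgt hu
  have h1 : ContDiffOn ℝ ∞ (fun u => (fld ι Ψ B.c u).coprod B.K) B.dom := by
    have : (fun u => (fld ι Ψ B.c u).coprod B.K) = fun u =>
        (fld ι Ψ B.c u).comp (ContinuousLinearMap.fst ℝ R2 ℂ) +
          B.K.comp (ContinuousLinearMap.snd ℝ R2 ℂ) := by
      funext u; ext <;> simp
    rw [this]
    exact (((contDiffOn_fld hι hΨ B.c).mono hs).clm_comp contDiffOn_const).add contDiffOn_const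
  refine ContDiffOn.clm_apply (fun u hu => ?_) ((Open.contDiffOn_ich B.c hN).mono hs)
  obtain ⟨e, he⟩ := equiv_of_bij (B.bij u (ball_subset_closedBall hu))
  have := contDiffAt_map_inverse (n := ∞) e
  rw [he] at this
  exact this.comp_contDiffWithinAt u (h1 u hu)

lemma contDiffOn_nu (hι : IsEmb ι) (hΨ : ContMDiff (𝓡 2) 𝓘(ℝ, Rn n →L[ℝ] R4) ∞ Ψ)
    (hN : ContMDiff (𝓡 2) 𝓘(ℝ, R4) ∞ N) : ContDiffOn ℝ ∞ (B.nu N) B.dom :=
  (B.contDiffOn_split hι hΨ hN).snd

lemma contDiffOn_tp (hι : IsEmb ι) (hΨ : ContMDiff (𝓡 2) 𝓘(ℝ, Rn n →L[ℝ] R4) ∞ Ψ)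
    (hN : ContMDiff (𝓡 2) 𝓘(ℝ, R4) ∞ N) : ContDiffOn ℝ ∞ (B.tp N) B.dom :=
  (B.contDiffOn_split hι hΨ hN).fst

/-- The region of `M` covered by the ball. -/
def region : Set M := (chartAt R2 B.c).source ∩ co B.c ⁻¹' B.dom

lemma isOpen_region : IsOpen B.region := by
  have h := (continuousOn_extChartAt (I := 𝓡 2) B.c).isOpen_inter_preimage
    (isOpen_extChartAt_source B.c) (isOpen_ball (x := B.u0) (ε := B.R))
  rwa [extChartAt_source] at h

lemma ich_mem_region {u : R2} (hu : u ∈ B.dom) : ich B.c u ∈ B.region :=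
  ⟨Open.ich_mem (B.dom_tgt hu), show co B.c (ich B.c u) ∈ B.dom by rwa [co_ich (B.dom_tgt hu)]⟩

/-- All points of the region lie in one connected component. -/
lemma connectedComponent_eq {x y : M} (hx : x ∈ B.region) (hy : y ∈ B.region) :
    connectedComponent x = connectedComponent y := by
  have hc : IsPreconnected (ich B.c '' B.dom) := (convex_ball B.u0 B.R).isPreconnected.image _
    ((continuousOn_extChartAt_symm B.c).mono fun u hu => B.dom_tgt hu)
  exact (_root_.connectedComponent_eq (hc.subset_connectedComponent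
    ⟨co B.c y, hy.2, ich_co hy.1⟩ ⟨co B.c x, hx.2, ich_co hx.1⟩)).symm

lemma mem_bad_iff_nu (hι : IsEmb ι) {x : M} (hx : x ∈ B.region) :
    x ∈ bad ι Ψ N ↔ B.nu N (co B.c x) = 0 := by
  rw [mem_bad_iff hι hx.1]
  have hs := B.split_spec N hx.2
  rw [ich_co hx.1] at hs
  constructor
  · rintro ⟨w, hw⟩
    exact (B.decomp_unique hx.2 (a := B.tp N (co B.c x)) (a' := w) (z' := 0)
      (by rw [hs, hw]; simp)).2
  · intro h
    exact ⟨B.tp N (co B.c x), by rw [← hs, h]; simp⟩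

/-- Nondegeneracy read off the normal component. -/
lemma ND_iff_nu (hι : IsEmb ι) (hΨ : ContMDiff (𝓡 2) 𝓘(ℝ, Rn n →L[ℝ] R4) ∞ Ψ)
    (hN : ContMDiff (𝓡 2) 𝓘(ℝ, R4) ∞ N) {u : R2} (hu : u ∈ B.dom) (h0 : B.nu N u = 0) :
    ND ι Ψ N (ich B.c u) ↔ Injective (fderiv ℝ (B.nu N) u) := by
  rw [ND_iff hι hΨ hN (Open.ich_mem (B.dom_tgt hu)), NDin, co_ich (B.dom_tgt hu)]
  set a := B.tp N u with ha
  have hF := ((contDiffOn_fld hι hΨ B.c).contDiffAt ((Open.isOpen_tgt B.c).mem_nhds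
    (B.dom_tgt hu))).differentiableAt (by simp)
  have hA := ((B.contDiffOn_tp hι hΨ hN).contDiffAt (isOpen_ball.mem_nhds hu)).differentiableAt
    (by simp)
  have hV := ((B.contDiffOn_nu hι hΨ hN).contDiffAt (isOpen_ball.mem_nhds hu)).differentiableAt
    (by simp)
  set DA := fderiv ℝ (B.tp N) u with hDA
  set DV := fderiv ℝ (B.nu N) u with hDV
  have he : neqn ι Ψ N B.c =ᶠ[𝓝 (u, a)]
      fun p => fld ι Ψ B.c p.1 (p.2 - B.tp N p.1) - B.K (B.nu N p.1) := by
    refine eventuallyEq_of_mem ((isOpen_ball.prod isOpen_univ).mem_nhds ⟨hu, mem_univ a⟩)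
      fun p hp => ?_
    simp only [neqn, map_sub]
    rw [← B.split_spec N hp.1]
    abel
  have h1 : HasFDerivAt (fun p : R2 × R2 => fld ι Ψ B.c p.1)
      ((fderiv ℝ (fld ι Ψ B.c) u).comp (ContinuousLinearMap.fst ℝ R2 R2)) (u, a) :=
    HasFDerivAt.comp (f := Prod.fst) (u, a) hF.hasFDerivAt hasFDerivAt_fst
  have h2 : HasFDerivAt (fun p : R2 × R2 => B.tp N p.1)
      (DA.comp (ContinuousLinearMap.fst ℝ R2 R2)) (u, a) :=
    HasFDerivAt.comp (f := Prod.fst) (u, a) hA.hasFDerivAt hasFDerivAt_fst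
  have h3 : HasFDerivAt (fun p : R2 × R2 => B.nu N p.1)
      (DV.comp (ContinuousLinearMap.fst ℝ R2 R2)) (u, a) :=
    HasFDerivAt.comp (f := Prod.fst) (u, a) hV.hasFDerivAt hasFDerivAt_fst
  have hd : fderiv ℝ (neqn ι Ψ N B.c) (u, a) = _ :=
    he.fderiv_eq.trans ((h1.clm_apply (hasFDerivAt_snd.sub h2)).sub
      (B.K.hasFDerivAt.comp (u, a) h3)).fderiv
  have happ : ∀ p : R2 × R2, fderiv ℝ (neqn ι Ψ N B.c) (u, a) p =
      fld ι Ψ B.c u (p.2 - DA p.1) + B.K (-(DV p.1)) := by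
    intro p
    rw [hd]
    simp [ha, sub_eq_add_neg]
  constructor
  · intro h
    have hb := (h a (by rw [← B.split_spec N hu, h0]; simp [ha])).1
    intro v w hvw
    have : fderiv ℝ (neqn ι Ψ N B.c) (u, a) (v, DA v) =
        fderiv ℝ (neqn ι Ψ N B.c) (u, a) (w, DA w) := by
      rw [happ, happ]; simp [hvw]
    exact (Prod.ext_iff.1 (hb this)).1
  · intro h w hw
    obtain rfl : w = a := (B.decomp_unique hu (z := 0) (z' := B.nu N u)
      (by rw [B.split_spec N hu, hw]; simp)).1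
    have hi : Injective (fderiv ℝ (neqn ι Ψ N B.c) (u, a)) := by
      intro p q hpq
      rw [happ, happ] at hpq
      obtain ⟨e1, e2⟩ := B.decomp_unique hu hpq
      have hp := h (neg_injective e2)
      rw [hp] at e1
      exact Prod.ext hp (sub_left_injective e1)
    exact ⟨hi, (LinearMap.injective_iff_surjective_of_finrank_eq_finrank
      (f := (fderiv ℝ (neqn ι Ψ N B.c) (u, a)).toLinearMap) (by simp)).1 hi⟩

/-- The coordinate ball of radius `r`, in `M`. -/
def core (r : ℝ) : Set M := ich B.c '' closedBall B.u0 r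

lemma isClosed_core [T2Space M] {r : ℝ} (hr : r < B.R) : IsClosed (B.core r) :=
  ((isCompact_closedBall B.u0 r).image_of_continuousOn
    ((continuousOn_extChartAt_symm B.c).mono fun _ hu =>
      B.dom_tgt (closedBall_subset_ball hr hu))).isClosed

open Classical in
/-- Replace `f` on the region by `g ∘ chart`. -/
noncomputable def patch {E : Type} (f : M → E) (g : R2 → E) (x : M) : E :=
  if x ∈ B.region then g (co B.c x) else f x

lemma patch_of_mem {E : Type} (f : M → E) (g : R2 → E) {x : M} (hx : x ∈ B.region) :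
    B.patch f g x = g (co B.c x) := if_pos hx

lemma patch_ich {E : Type} (f : M → E) (g : R2 → E) {u : R2} (hu : u ∈ B.dom) :
    B.patch f g (ich B.c u) = g u := by
  rw [B.patch_of_mem f g (B.ich_mem_region hu), co_ich (B.dom_tgt hu)]

lemma patch_eq_out {E : Type} (f : M → E) {g : R2 → E} {r : ℝ}
    (h : ∀ u ∈ B.dom, r < dist u B.u0 → g u = f (ich B.c u)) {x : M} (hx : x ∉ B.core r) :
    B.patch f g x = f x := by
  by_cases hr : x ∈ B.region
  · rw [B.patch_of_mem f g hr, h _ hr.2, ich_co hr.1]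
    by_contra hd
    exact hx ⟨co B.c x, mem_closedBall.2 (not_lt.1 hd), ich_co hr.1⟩
  · exact if_neg hr

lemma contMDiff_patch [T2Space M] {E : Type} [NormedAddCommGroup E] [NormedSpace ℝ E]
    {f : M → E} (hf : ContMDiff (𝓡 2) 𝓘(ℝ, E) ∞ f) {g : R2 → E}
    (hg : ContDiffOn ℝ ∞ g B.dom) {r : ℝ} (hr : r < B.R)
    (h : ∀ u ∈ B.dom, r < dist u B.u0 → g u = f (ich B.c u)) :
    ContMDiff (𝓡 2) 𝓘(ℝ, E) ∞ (B.patch f g) := by
  intro x
  by_cases hx : x ∈ B.region
  · have h1 : ContMDiffOn (𝓡 2) 𝓘(ℝ, E) ∞ (g ∘ co B.c) B.region :=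
      (contMDiffOn_iff_contDiffOn.2 hg).comp (contMDiffOn_extChartAt.mono inter_subset_left)
        fun z hz => hz.2
    exact (h1.congr fun z hz => B.patch_of_mem f g hz).contMDiffAt (B.isOpen_region.mem_nhds hx)
  · have hx' : x ∉ B.core r := by
      rintro ⟨u, hu, rfl⟩
      exact hx (B.ich_mem_region (closedBall_subset_ball hr hu))
    exact (hf x).congr_of_eventuallyEq (eventuallyEq_of_mem
      ((B.isClosed_core hr).isOpen_compl.mem_nhds hx') fun z hz => B.patch_eq_out f h hz)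

/-- Outside the core, a surgery keeps the zeros and their nondegeneracy. -/
lemma ND_congr {Ψ' : M → Rn n →L[ℝ] R4} {N' : M → R4} {x : M} (hΨ : Ψ' =ᶠ[𝓝 x] Ψ)
    (hN : N' =ᶠ[𝓝 x] N) (h : ND ι Ψ N x) : ND ι Ψ' N' x := by
  intro w hw
  have hx := mem_chart_source R2 x
  have hc : Tendsto (fun p : R2 × R2 => ich x p.1) (𝓝 (co x x, w)) (𝓝 x) := by
    have h1 : ContinuousAt (ich x) (co x x) := (continuousOn_extChartAt_symm x).continuousAt
      ((Open.isOpen_tgt x).mem_nhds (co_mem hx))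
    have h2 := (h1.comp_of_eq (continuousAt_fst (p := (co x x, w))) rfl).tendsto
    simpa [ich_co hx, Function.comp_def] using h2
  have he : neqn ι Ψ' N' x =ᶠ[𝓝 (co x x, w)] neqn ι Ψ N x := by
    filter_upwards [hc.eventually hΨ, hc.eventually hN] with p h1 h2
    simp only [neqn, fld, h1, h2]
  rw [he.fderiv_eq]
  refine h w ?_
  simp only [fld, ich_co hx, hΨ.eq_of_nhds, hN.eq_of_nhds] at hw ⊢
  exact hw

end Ball

end Vale.Agent.P205.Full.Topo
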