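import Vale.Agent.P205.Full.Topo.WindIndex

/-!
# TOPO Moves 4: a smooth square root on an annulus, for even index
-/

open Complex Set Filter Topology Metric
open scoped Real ContDiff

namespace Vale.Agent.P205.Full.Topo

/-- Two continuous square roots with the same nonzero value at a point agree near it. -/
lemma sqrt_unique_near {X : Type*} [TopologicalSpace X] {f g : X → ℂ} {x : X}
    (hf : ContinuousAt f x) (hg : ContinuousAt g x) (h : ∀ᶠ y in 𝓝 x, f y ^ 2 = g y ^ 2)
    (he : f x = g x) (h0 : f x ≠ 0) : f =ᶠ[𝓝 x] g := by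
  have hne : f x + g x ≠ 0 := by
    rw [← he]; intro hh; exact h0 (by linear_combination hh / 2)
  filter_upwards [h, (hf.add hg).eventually_ne hne] with y hy hy'
  have : (f y - g y) * (f y + g y) = 0 := by linear_combination hy
  exact sub_eq_zero.1 ((mul_eq_zero.1 this).resolve_right hy')

/-- A smooth square root on an annulus. -/
theorem exists_sqrt_annulus {f : ℂ → ℂ} {ρ₀ ρ₁ r ρ₂ R : ℝ} (h0 : 0 ≤ ρ₀) (h01 : ρ₀ < ρ₁)
    (h1 : ρ₁ ≤ r) (h2 : r ≤ ρ₂) (h2R : ρ₂ < R)
    (hf : ContDiffOn ℝ ∞ f (ball 0 R \ closedBall 0 ρ₀))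
    (hne : ∀ z ∈ ball (0 : ℂ) R \ closedBall 0 ρ₀, f z ≠ 0) (hev : Even (ind f 0 r)) :
    ∃ s : ℂ → ℂ, ContDiffOn ℝ ∞ s (ball 0 ρ₂ \ closedBall 0 ρ₁) ∧
      ∀ z ∈ ball (0 : ℂ) ρ₂ \ closedBall 0 ρ₁, s z ^ 2 = f z := by
  have hρ₁ : 0 < ρ₁ := h0.trans_lt h01
  have hr : 0 < r := hρ₁.trans_le h1
  have hρ₂ : 0 < ρ₂ := hr.trans_le h2
  have hl1 : Real.log ρ₁ ≤ Real.log r := Real.log_le_log hρ₁ h1
  have hl2 : Real.log r ≤ Real.log ρ₂ := Real.log_le_log hr h2
  set cl : ℂ → ℂ := fun w => ((max (Real.log ρ₁) (min (Real.log ρ₂) w.re) : ℝ) : ℂ) + (w.im : ℂ) * I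
    with hcl
  have hclc : Continuous cl := by fun_prop
  have hcre : ∀ w, (cl w).re = max (Real.log ρ₁) (min (Real.log ρ₂) w.re) := fun w => by simp [hcl]
  have hmem : ∀ w, exp (cl w) ∈ ball (0 : ℂ) R \ closedBall 0 ρ₀ := fun w => by
    have e1 : ρ₁ ≤ Real.exp (cl w).re := by
      rw [hcre, ← Real.exp_log hρ₁]; exact Real.exp_le_exp.2 (by simp)
    have e2 : Real.exp (cl w).re ≤ ρ₂ := by
      rw [hcre, ← Real.exp_log hρ₂]
      refine Real.exp_le_exp.2 ?_
      rw [Real.log_exp]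
      exact max_le (hl1.trans hl2) (min_le_left _ _)
    rw [Set.mem_sdiff, mem_ball_zero_iff, mem_closedBall_zero_iff, Complex.norm_exp, not_le]
    exact ⟨by linarith, by linarith⟩
  obtain ⟨L, hL, hexp⟩ := exists_log (hf.continuousOn.comp_continuous
    (continuous_exp.comp hclc) hmem) (fun w => hne _ (hmem w))
  have hper : ∀ w, exp (cl (w + 2 * π * I)) = exp (cl w) := fun w => by
    have : cl (w + 2 * π * I) = cl w + 2 * π * I := by
      simp [hcl]; ring
    rw [this, exp_add, exp_two_pi_mul_I, mul_one]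
  have hd := log_unique (f := fun w => L (w + 2 * π * I)) (g := L) (by fun_prop) hL
    (fun w => by rw [hexp, hexp]; simp [hper w])
  obtain ⟨k, hk⟩ := hev
  have hstep : ∀ w, L (w + 2 * π * I) = L w + (k : ℂ) * (2 * (2 * π * I)) := by
    intro w
    have hlift : ∀ t : ℝ, exp (L ((Real.log r : ℂ) + (2 * π * t : ℝ) * I)) = f (circ 0 r t) := by
      intro t
      have e : cl ((Real.log r : ℂ) + (2 * π * t : ℝ) * I) =
          (Real.log r : ℂ) + (2 * π * t : ℝ) * I := by
        simp [hcl, hl1, hl2]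
      rw [hexp]
      simp only [Function.comp_apply, e, circ, zero_add]
      rw [exp_add, ← ofReal_exp, Real.exp_log hr]
    obtain ⟨m, hm⟩ : ∃ m : ℤ, L ((Real.log r : ℂ) + 2 * π * I) - L (Real.log r : ℂ) =
        m * (2 * π * I) := by
      obtain ⟨m, hm⟩ := Complex.exp_eq_exp_iff_exists_int.1
        (show exp (L ((Real.log r : ℂ) + 2 * π * I)) = exp (L (Real.log r : ℂ)) by
          rw [hexp, hexp]; simp [hper])
      exact ⟨m, by rw [hm]; ring⟩
    have hw : ind f 0 r = m := wind_eq (L := fun t : ℝ => L ((Real.log r : ℂ) + (2 * π * t : ℝ) * I))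
      (by fun_prop) hlift (by simpa using hm)
    have := hd w (Real.log r : ℂ)
    rw [hm] at this
    rw [hw] at hk
    rw [hk] at this
    push_cast at this
    linear_combination this
  set S : ℂ → ℂ := fun w => exp (L w / 2) with hS
  have hSc : Continuous S := by fun_prop
  have hSp : Function.Periodic S (2 * π * I) := fun w => by
    simp only [hS, hstep]
    rw [Complex.exp_eq_exp_iff_exists_int]
    exact ⟨k, by ring⟩
  set W := ball (0 : ℂ) ρ₂ \ closedBall 0 ρ₁ with hW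
  have hWo : IsOpen W := isOpen_ball.sdiff isClosed_closedBall
  have hWW : W ⊆ ball (0 : ℂ) R \ closedBall 0 ρ₀ :=
    sdiff_subset_sdiff (ball_subset_ball h2R.le) (closedBall_subset_closedBall h01.le)
  have hW0 : ∀ z ∈ W, z ≠ 0 := fun z hz h => hz.2 (by rw [h]; exact mem_closedBall_self hρ₁.le)
  have hsq : ∀ z ∈ W, S (log z) ^ 2 = f z := by
    intro z hz
    have e : cl (log z) = log z := by
      rw [hW, Set.mem_sdiff, mem_ball_zero_iff, mem_closedBall_zero_iff, not_le] at hz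
      have a1 : Real.log ρ₁ ≤ Real.log ‖z‖ := Real.log_le_log hρ₁ hz.2.le
      have a2 : Real.log ‖z‖ ≤ Real.log ρ₂ := Real.log_le_log (hρ₁.trans hz.2) hz.1.le
      apply Complex.ext <;> simp [hcl, log_re, a1, a2]
    rw [hS]
    simp only [← exp_nat_mul]
    have := hexp (log z)
    rw [Function.comp_apply, Function.comp_apply, e, exp_log (hW0 z hz)] at this
    rw [← this]; congr 1; push_cast; ring
  have hsc : ∀ z ∈ W, ContinuousAt (fun z => S (log z)) z := by
    intro z₀ hz₀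
    have h0' := hW0 z₀ hz₀
    have hc : ContinuousAt (fun z => S (log (z / z₀) + log z₀)) z₀ := by
      refine hSc.continuousAt.comp ?_
      refine ContinuousAt.add ?_ continuousAt_const
      exact ContinuousAt.clog (by fun_prop) (by rw [div_self h0']; simp)
    refine hc.congr ?_
    filter_upwards [hWo.mem_nhds hz₀] with z hz
    obtain ⟨m, hm⟩ := Complex.exp_eq_exp_iff_exists_int.1
      (show exp (log (z / z₀) + log z₀) = exp (log z) by
        rw [exp_add, exp_log (div_ne_zero (hW0 z hz) h0'), exp_log h0', exp_log (hW0 z hz),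
          div_mul_cancel₀ _ h0'])
    rw [hm]
    exact hSp.int_mul m _
  refine ⟨fun z => S (log z), fun z₀ hz₀ => ?_, hsq⟩
  set c := S (log z₀) with hc
  have hf0 : f z₀ ≠ 0 := hne _ (hWW hz₀)
  have hfd : ContDiffAt ℝ ∞ f z₀ :=
    hf.contDiffAt ((isOpen_ball.sdiff isClosed_closedBall).mem_nhds (hWW hz₀))
  set G : ℂ → ℂ := fun z => c * exp (log (f z / f z₀) / 2) with hG
  have hGd : ContDiffAt ℝ ∞ G z₀ := by
    have hlog : ContDiffAt ℝ ∞ log (f z₀ / f z₀) := by
      rw [div_self hf0]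
      exact (contDiffAt_log (by simp : (1 : ℂ) ∈ slitPlane)).restrict_scalars ℝ
    have h3 : ContDiffAt ℝ ∞ (fun z => f z / f z₀) z₀ := hfd.div_const _
    exact contDiffAt_const.mul
      (((Complex.contDiff_exp : ContDiff ℝ ∞ exp)).contDiffAt.comp z₀ ((hlog.comp z₀ h3).div_const 2))
  have heq : (fun z => S (log z)) =ᶠ[𝓝 z₀] G := by
    refine sqrt_unique_near (hsc z₀ hz₀) hGd.continuousAt ?_ ?_ (exp_ne_zero _)
    · filter_upwards [hWo.mem_nhds hz₀] with z hz
      have hfz : f z / f z₀ ≠ 0 := div_ne_zero (hne _ (hWW hz)) hf0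
      rw [hsq z hz, hG]
      simp only [mul_pow, hc, hsq z₀ hz₀, ← exp_nat_mul]
      rw [show ((2 : ℕ) : ℂ) * (log (f z / f z₀) / 2) = log (f z / f z₀) by push_cast; ring,
        exp_log hfz, mul_div_cancel₀ _ hf0]
    · simp [hG, hc, div_self hf0]
  exact (hGd.congr_of_eventuallyEq heq).contDiffWithinAt

end Vale.Agent.P205.Full.Topo
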