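import Vale.Agent.P205.Full.Topo.MovesBall
import Vale.Agent.P205.Full.Topo.MovesSqrt

/-!
# TOPO Moves 5: the cancellation formula

With `q = P + y j` the conjugation by `q` sends `j` to `P^2 + y^2` in the normal plane plus
`2 y Im P` in the second tangent direction, and `i` to the orthogonal vector. Near the boundary
`y = 0` and `P^2 = nu`, so nothing changes there; inside, `q` has no zero.
-/

open Complex Set Filter Topology Metric
open scoped Real ContDiff

namespace Vale.Agent.P205.Full.Topo

/-- The second coordinate vector of the plane. -/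
noncomputable def ey : R2 := EuclideanSpace.single 1 1

/-- The second coordinate of the plane. -/
noncomputable def prY : R2 →L[ℝ] ℝ := EuclideanSpace.proj 1

lemma prY_ey : prY ey = 1 := by simp [prY, ey]

/-- Tangential part of the new second column, minus one. -/
noncomputable def colT (P : ℂ) (y : ℝ) : ℝ := -2 * y ^ 2 / (normSq P + y ^ 2)

/-- Normal part of the new second column. -/
noncomputable def colN (P : ℂ) (y : ℝ) : ℂ :=
  (-2 * y / (normSq P + y ^ 2) : ℝ) * (I * P)

/-- The new columns, as maps into tangential and normal coordinates. -/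
noncomputable def newCol (P : ℂ) (y : ℝ) : R2 →L[ℝ] R2 × ℂ :=
  (ContinuousLinearMap.id ℝ R2 + prY.smulRight (colT P y • ey)).prod (prY.smulRight (colN P y))

/-- The new coordinates of the normal vector. -/
noncomputable def newVec (P : ℂ) (y θ : ℝ) (a : R2) : R2 × ℂ :=
  (θ • a + (2 * P.im * y) • ey, P ^ 2 + ((y ^ 2 : ℝ) : ℂ))

lemma newCol_apply (P : ℂ) (y : ℝ) (v : R2) :
    newCol P y v = (v + (v 1 * colT P y) • ey, (v 1 : ℂ) * colN P y) := by
  simp [newCol, prY, smul_smul, real_smul]

lemma newCol_zero (P : ℂ) (v : R2) : newCol P 0 v = (v, 0) := by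
  simp [newCol_apply, colT, colN]

lemma normSq_add_sq_pos {P : ℂ} {y : ℝ} (h : P ≠ 0 ∨ y ≠ 0) : 0 < normSq P + y ^ 2 := by
  rcases h with h | h
  · have := normSq_pos.2 h; positivity
  · have : 0 < y ^ 2 := by positivity
    have := normSq_nonneg P; positivity

lemma newCol_injective {P : ℂ} {y : ℝ} (h : P ≠ 0 ∨ y ≠ 0) : Function.Injective (newCol P y) := by
  rw [injective_iff_map_eq_zero]
  intro v hv
  rw [newCol_apply, Prod.mk_eq_zero] at hv
  obtain ⟨h1, h2⟩ := hv
  have hD := normSq_add_sq_pos h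
  have hv1 : v 1 = 0 := by
    by_contra hv1
    have e1 : v 1 + v 1 * colT P y = 0 := by
      have := congrArg (fun w : R2 => w 1) h1
      simpa [ey] using this
    have hN : colN P y = 0 := (mul_eq_zero.1 h2).resolve_left (by exact_mod_cast hv1)
    have e2 : colT P y = -1 := by
      apply mul_left_cancel₀ hv1; linarith
    rw [colT, div_eq_iff hD.ne'] at e2
    rcases mul_eq_zero.1 hN with hN | hN
    · have : -2 * y / (normSq P + y ^ 2) = 0 := by exact_mod_cast hN
      rw [div_eq_zero_iff] at this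
      have hy : y = 0 := by rcases this with e | e <;> linarith
      subst hy
      rcases h with h | h
      · exact (normSq_pos.2 h).ne' (by linarith)
      · exact h rfl
    · have hP : P = 0 := (mul_eq_zero.1 hN).resolve_left I_ne_zero
      subst hP
      have hy : y ≠ 0 := h.resolve_left (by simp)
      simp only [map_zero, zero_add] at e2
      exact hy (pow_eq_zero_iff two_ne_zero |>.1 (by linarith))
  rw [hv1, zero_mul, zero_smul, add_zero] at h1
  exact h1

lemma newVec_not_range {P : ℂ} {y θ : ℝ} {a : R2} (h : P ≠ 0 ∨ y ≠ 0) (hθ : y = 0 ∨ θ = 0)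
    (v : R2) : newCol P y v ≠ newVec P y θ a := by
  intro hv
  rw [newCol_apply, newVec, Prod.mk.injEq] at hv
  obtain ⟨h1, h2⟩ := hv
  have hD := normSq_add_sq_pos h
  by_cases hy : y = 0
  · subst hy
    simp [colN] at h2
    rcases h with h | h
    · exact h (pow_eq_zero_iff two_ne_zero |>.1 h2.symm)
    · exact h rfl
  · obtain rfl := hθ.resolve_left hy
    have e1 : v 1 + v 1 * colT P y = 2 * P.im * y := by
      have := congrArg (fun w : R2 => w 1) h1
      simpa [ey] using this
    set lam := v 1 / (normSq P + y ^ 2) with hl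
    have hvl : v 1 = lam * (normSq P + y ^ 2) := by rw [hl]; field_simp
    have a1 : lam * (normSq P - y ^ 2) = 2 * P.im * y := by
      rw [← e1, hvl, colT]; field_simp; ring
    have e2 := congrArg Complex.re h2
    have e3 := congrArg Complex.im h2
    simp only [colN, sq, mul_re, mul_im, ofReal_re, ofReal_im, I_re, I_im, add_re, add_im, zero_mul,
      mul_zero, sub_zero, zero_sub, add_zero, zero_add, one_mul] at e2 e3
    have a2 : 2 * lam * y * P.im = P.re ^ 2 - P.im ^ 2 + y ^ 2 := by
      have : v 1 * (-2 * y / (normSq P + y * y) * -P.im) = 2 * lam * y * P.im := by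
        rw [hvl, sq]; have : normSq P + y * y ≠ 0 := by rw [← sq]; exact hD.ne'
        field_simp
      linarith [sq P.re, sq P.im, sq y]
    have a3 : -(2 * lam * y * P.re) = 2 * P.re * P.im := by
      have : v 1 * (-2 * y / (normSq P + y * y) * P.re) = -(2 * lam * y * P.re) := by
        rw [hvl, sq]; have : normSq P + y * y ≠ 0 := by rw [← sq]; exact hD.ne'
        field_simp
      linarith
    by_cases hw : P.re = 0
    · rw [hw] at a2
      rw [normSq_apply, hw] at a1
      have hA : (1 + lam ^ 2) * (P.im ^ 2 - y ^ 2) = 0 := by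
        linear_combination lam * a1 + a2
      have hA' : P.im ^ 2 - y ^ 2 = 0 :=
        (mul_eq_zero.1 hA).resolve_left (by positivity)
      have hB : P.im * y = 0 := by
        linear_combination (-1 / 2 : ℝ) * a1 + (lam / 2) * hA'
      rcases mul_eq_zero.1 hB with hx | hx
      · rw [hx] at hA'; exact hy (pow_eq_zero_iff two_ne_zero |>.1 (by linarith))
      · exact hy hx
    · have hx : lam * y = -P.im := by
        apply mul_left_cancel₀ (mul_ne_zero two_ne_zero hw); linarith
      have : P.re ^ 2 + P.im ^ 2 + y ^ 2 = 0 := by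
        linear_combination (-1 : ℝ) * a2 + (2 * P.im) * hx
      have : 0 < P.re ^ 2 := by positivity
      nlinarith [sq_nonneg P.im, sq_nonneg y]

lemma contDiffAt_formula {u : R2} {P : R2 → ℂ} {y : R2 → ℝ} (hP : ContDiffAt ℝ ∞ P u)
    (hy : ContDiffAt ℝ ∞ y u) (h : P u ≠ 0 ∨ y u ≠ 0) :
    ContDiffAt ℝ ∞ (fun z => newCol (P z) (y z)) u := by
  have hre : ContDiffAt ℝ ∞ (fun z => (P z).re) u := Complex.reCLM.contDiff.contDiffAt.comp u hP
  have him : ContDiffAt ℝ ∞ (fun z => (P z).im) u := Complex.imCLM.contDiff.contDiffAt.comp u hP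
  have hn : ContDiffAt ℝ ∞ (fun z => normSq (P z) + y z ^ 2) u := by
    simp only [normSq_apply]; exact ((hre.mul hre).add (him.mul him)).add (hy.pow 2)
  have h0 := (normSq_add_sq_pos h).ne'
  have hT : ContDiffAt ℝ ∞ (fun z => colT (P z) (y z)) u :=
    (contDiffAt_const.mul (hy.pow 2)).div hn h0
  have hN : ContDiffAt ℝ ∞ (fun z => colN (P z) (y z)) u :=
    (Complex.ofRealCLM.contDiff.contDiffAt.comp u ((contDiffAt_const.mul hy).div hn h0)).mul
      (contDiffAt_const.mul hP)
  have e : (fun z => newCol (P z) (y z)) = fun z =>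
      (ContinuousLinearMap.inl ℝ R2 ℂ).comp
        (ContinuousLinearMap.id ℝ R2 + prY.smulRight (colT (P z) (y z) • ey)) +
      (ContinuousLinearMap.inr ℝ R2 ℂ).comp (prY.smulRight (colN (P z) (y z))) := by
    funext z; apply ContinuousLinearMap.ext; intro v; simp [newCol]
  rw [e]
  refine (contDiffAt_const.clm_comp (contDiffAt_const.add ?_)).add (contDiffAt_const.clm_comp ?_)
  · exact ((ContinuousLinearMap.smulRightL ℝ R2 R2 prY).contDiff.contDiffAt).comp u
      (hT.smul contDiffAt_const)
  · exact ((ContinuousLinearMap.smulRightL ℝ R2 ℂ prY).contDiff.contDiffAt).comp u hN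

lemma contDiffAt_newVec {u : R2} {P : R2 → ℂ} {y θ : R2 → ℝ} {a : R2 → R2}
    (hP : ContDiffAt ℝ ∞ P u) (hy : ContDiffAt ℝ ∞ y u) (hθ : ContDiffAt ℝ ∞ θ u)
    (ha : ContDiffAt ℝ ∞ a u) :
    ContDiffAt ℝ ∞ (fun z => newVec (P z) (y z) (θ z) (a z)) u :=
  ((hθ.smul ha).add (((contDiffAt_const.mul (Complex.imCLM.contDiff.contDiffAt.comp u hP)).mul
    hy).smul contDiffAt_const)).prodMk
    ((hP.pow 2).add (Complex.ofRealCLM.contDiff.contDiffAt.comp u (hy.pow 2)))

/-- The data of the formula on a ball. -/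
theorem exists_cancel_data {f : R2 → ℂ} {u0 : R2} {R : ℝ} (hR : 0 < R)
    (hf : ContDiffOn ℝ ∞ f (ball u0 R))
    (hne : ∀ u ∈ ball u0 R, R / 4 < dist u u0 → f u ≠ 0)
    (hev : Even (ind (fun z => f (u0 + Complex.orthonormalBasisOneI.repr z)) 0 (R / 2))) :
    ∃ (P : R2 → ℂ) (y θ : R2 → ℝ),
      ContDiffOn ℝ ∞ P (ball u0 (7 * R / 8)) ∧ ContDiff ℝ ∞ y ∧ ContDiff ℝ ∞ θ ∧
      (∀ u ∈ ball u0 (7 * R / 8), P u ≠ 0 ∨ y u ≠ 0) ∧
      (∀ u, y u = 0 ∨ θ u = 0) ∧
      ∀ u ∈ ball u0 (7 * R / 8), 3 * R / 4 < dist u u0 → y u = 0 ∧ θ u = 1 ∧ P u ^ 2 = f u := by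
  set κ := Complex.orthonormalBasisOneI.repr with hκ
  have hκn : ∀ z, dist (u0 + κ z) u0 = ‖z‖ := fun z => by
    rw [dist_eq_norm, add_sub_cancel_left, LinearIsometryEquiv.norm_map]
  obtain ⟨s, hs, hsq⟩ := exists_sqrt_annulus (f := fun z => f (u0 + κ z)) (ρ₀ := R / 4)
    (ρ₁ := 3 * R / 8) (r := R / 2) (ρ₂ := 7 * R / 8) (R := R) (by linarith) (by linarith)
    (by linarith) (by linarith) (by linarith)
    (hf.comp (contDiff_const.add κ.toContinuousLinearEquiv.contDiff).contDiffOn fun z hz => by
      rw [mem_ball]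
      show dist (u0 + κ z) u0 < R
      erw [hκn]
      exact mem_ball_zero_iff.1 hz.1)
    (fun z hz => hne _ (by rw [mem_ball]; erw [hκn]; exact mem_ball_zero_iff.1 hz.1) (by
      erw [hκn]; exact not_le.1 fun h => hz.2 (mem_closedBall_zero_iff.2 h))) hev
  let b0 : ContDiffBump u0 := ⟨7 * R / 16, R / 2, by linarith, by linarith⟩
  let b1 : ContDiffBump u0 := ⟨9 * R / 16, 10 * R / 16, by linarith, by linarith⟩
  let b2 : ContDiffBump u0 := ⟨11 * R / 16, 12 * R / 16, by linarith, by linarith⟩
  refine ⟨fun u => (1 - b0 u) • s (κ.symm (u - u0)), fun u => b1 u, fun u => 1 - b2 u, ?_,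
    b1.contDiff, contDiff_const.sub b2.contDiff, fun u hu => ?_, fun u => ?_, fun u hu hd => ?_⟩
  · intro u hu
    refine ContDiffAt.contDiffWithinAt ?_
    by_cases h : dist u u0 < 7 * R / 16
    · refine (contDiffAt_const (c := (0 : ℂ))).congr_of_eventuallyEq ?_
      filter_upwards [isOpen_ball.mem_nhds (mem_ball.2 h)] with z hz
      rw [b0.one_of_mem_closedBall (ball_subset_closedBall hz), sub_self, zero_smul]
    · have hmem : κ.symm (u - u0) ∈ ball (0 : ℂ) (7 * R / 8) \ closedBall 0 (3 * R / 8) := by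
        rw [Set.mem_sdiff, mem_ball_zero_iff, mem_closedBall_zero_iff,
          LinearIsometryEquiv.norm_map, ← dist_eq_norm]
        exact ⟨mem_ball.1 hu, by linarith⟩
      exact (contDiffAt_const.sub b0.contDiffAt).smul
        ((hs.contDiffAt ((isOpen_ball.sdiff isClosed_closedBall).mem_nhds hmem)).comp u
          (κ.symm.toContinuousLinearEquiv.contDiff.contDiffAt.comp u
            (contDiffAt_id.sub contDiffAt_const)))
  · by_cases h : dist u u0 ≤ 9 * R / 16
    · exact Or.inr (by simp [b1.one_of_mem_closedBall (mem_closedBall.2 h)])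
    · left
      simp only []
      rw [b0.zero_of_le_dist (show R / 2 ≤ dist u u0 by linarith), sub_zero, one_smul]
      intro h0
      have hmem : κ.symm (u - u0) ∈ ball (0 : ℂ) (7 * R / 8) \ closedBall 0 (3 * R / 8) := by
        rw [Set.mem_sdiff, mem_ball_zero_iff, mem_closedBall_zero_iff,
          LinearIsometryEquiv.norm_map, ← dist_eq_norm]
        exact ⟨mem_ball.1 hu, by linarith⟩
      have h1 := hsq _ hmem
      simp only [h0, LinearIsometryEquiv.apply_symm_apply, add_sub_cancel, zero_pow two_ne_zero]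
        at h1
      exact hne u (ball_subset_ball (by linarith) hu) (by linarith) h1.symm
  · by_cases h : dist u u0 ≤ 11 * R / 16
    · exact Or.inr (by simp [b2.one_of_mem_closedBall (mem_closedBall.2 h)])
    · exact Or.inl (b1.zero_of_le_dist (show 10 * R / 16 ≤ dist u u0 by linarith))
  · refine ⟨b1.zero_of_le_dist (show 10 * R / 16 ≤ dist u u0 by linarith), ?_, ?_⟩
    · simp [b2.zero_of_le_dist (show 12 * R / 16 ≤ dist u u0 by linarith)]
    · simp only []
      rw [b0.zero_of_le_dist (show R / 2 ≤ dist u u0 by linarith), sub_zero, one_smul]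
      have h1 := hsq (κ.symm (u - u0)) (by
        rw [Set.mem_sdiff, mem_ball_zero_iff, mem_closedBall_zero_iff,
          LinearIsometryEquiv.norm_map, ← dist_eq_norm]
        exact ⟨mem_ball.1 hu, by linarith⟩)
      simpa using h1

end Vale.Agent.P205.Full.Topo
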