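import Vale.Agent.P205.Full.Topo.MovesMove
import Vale.Agent.P205.Full.Topo.MovesFormula

/-!
# TOPO Moves 6: two zeros in one ball cancel
-/

open scoped Manifold ContDiff Topology
open Function Set Filter Metric

namespace Vale.Agent.P205.Full.Topo

open Open (ich tgt)

variable {M : Type} [TopologicalSpace M] [ChartedSpace R2 M] [IsManifold (𝓡 2) ∞ M] {n : ℕ}
variable {ι : M → Rn n} {Ψ : M → Rn n →L[ℝ] R4} {N : M → R4}

/-- Parity is kept when two points of one component are deleted. -/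
lemma even_delete {Z : Set M} (hZ : Z.Finite) (hev : ∀ S : Set M, IsClopen S → Even (Z ∩ S).ncard)
    {a b : M} (ha : a ∈ Z) (hb : b ∈ Z) (hab : a ≠ b)
    (hc : connectedComponent a = connectedComponent b)
    (S : Set M) (hS : IsClopen S) : Even ((Z \ {a, b}) ∩ S).ncard := by
  have hiff : a ∈ S ↔ b ∈ S := ⟨fun h => hS.connectedComponent_subset h (hc ▸ mem_connectedComponent),
    fun h => hS.connectedComponent_subset h (hc ▸ mem_connectedComponent)⟩
  by_cases h : a ∈ S
  · have e : ((Z \ {a, b}) ∩ S) = (((Z ∩ S) \ {a}) \ {b}) := by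
      ext x; simp only [mem_inter_iff, Set.mem_sdiff, mem_insert_iff, mem_singleton_iff]; tauto
    have h1 := ncard_sdiff_singleton_add_one (s := Z ∩ S) (a := a) ⟨ha, h⟩ (hZ.inter_of_left S)
    have h2 := ncard_sdiff_singleton_add_one (s := (Z ∩ S) \ {a}) (a := b)
      ⟨⟨hb, hiff.1 h⟩, fun e => hab (mem_singleton_iff.1 e).symm⟩ ((hZ.inter_of_left S).sdiff)
    obtain ⟨k, hk⟩ := hev S hS
    rw [e]
    exact ⟨k - 1, by omega⟩
  · have e : (Z \ {a, b}) ∩ S = Z ∩ S := by
      ext x; simp only [mem_inter_iff, Set.mem_sdiff, mem_insert_iff, mem_singleton_iff]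
      constructor
      · rintro ⟨⟨h1, -⟩, h2⟩; exact ⟨h1, h2⟩
      · rintro ⟨h1, h2⟩
        refine ⟨⟨h1, ?_⟩, h2⟩
        rintro (rfl | rfl)
        · exact h h2
        · exact h (hiff.2 h2)
    rw [e]; exact hev S hS

/-- The total index of two nondegenerate zeros is even. -/
lemma even_ind_two {f : ℂ → ℂ} {R : ℝ} {a b : ℂ} (hab : a ≠ b) (ha : ‖a‖ < R / 4)
    (hb : ‖b‖ < R / 4) (hf : ContinuousOn f (ball 0 R))
    (hne : ∀ z ∈ ball (0 : ℂ) R, z ≠ a → z ≠ b → f z ≠ 0) (fa : f a = 0) (fb : f b = 0)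
    {A B : ℂ →L[ℝ] ℂ} (hA : Injective A) (hB : Injective B) (dA : HasFDerivAt f A a)
    (dB : HasFDerivAt f B b) : Even (ind f 0 (R / 2)) := by
  have hR : 0 < R := by linarith [norm_nonneg a]
  have hU : ∀ z : ℂ, ‖z‖ < R / 4 → ball (0 : ℂ) R ∈ 𝓝 z := fun z hz =>
    isOpen_ball.mem_nhds (mem_ball_zero_iff.2 (by linarith))
  have hd : 0 < ‖a - b‖ := norm_pos_iff.2 (sub_ne_zero.2 hab)
  obtain ⟨ε, ⟨⟨-, ea⟩, -, eb⟩, h1, h2⟩ := (((ind_nondeg (hU a ha) hf fa hA dA).and
    (ind_nondeg (hU b hb) hf fb hB dB)).and (Ioo_mem_nhdsGT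
      (show (0 : ℝ) < min (‖a - b‖ / 2) (R / 4) by positivity))).exists
  rw [lt_min_iff] at h2
  rw [ind_pair (c := 0) h1 (by linarith [h2.1]) (by rw [sub_zero]; linarith [h2.2])
    (by rw [sub_zero]; linarith [h2.2]) (hf.mono (closedBall_subset_ball (by linarith)))
    fun z hz => hne z (closedBall_subset_ball (by linarith) hz)]
  rcases ea with ea | ea <;> rcases eb with eb | eb <;> rw [ea, eb] <;> decide

/-- **Cancellation.** Two zeros which are the only ones of a ball, both near its centre,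
disappear after a change of both fields inside the ball. -/
theorem exists_cancel [T2Space M] (hι : IsEmb ι) (hst : State ι Ψ N) (B : Ball ι Ψ) {x y : M}
    (hxy : x ≠ y) (hx : x ∈ B.region) (hy : y ∈ B.region) (hxb : x ∈ bad ι Ψ N)
    (hyb : y ∈ bad ι Ψ N) (hxd : dist (co B.c x) B.u0 < B.R / 4)
    (hyd : dist (co B.c y) B.u0 < B.R / 4)
    (honly : ∀ z ∈ B.region, z ∈ bad ι Ψ N → z = x ∨ z = y) :
    ∃ Ψ' N', State ι Ψ' N' ∧ bad ι Ψ' N' = bad ι Ψ N \ {x, y} := by
  classical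
  obtain ⟨hΨ, hN, hinj, hfin, hnd, hev⟩ := hst
  set R := B.R with hR
  have hR0 : 0 < R := B.hR
  have hne : ∀ u ∈ B.dom, u ≠ co B.c x → u ≠ co B.c y → B.nu N u ≠ 0 := by
    intro u hu h1 h2 h0
    have hr := B.ich_mem_region hu
    rcases honly _ hr ((B.mem_bad_iff_nu hι hr).2 (by rw [co_ich (B.dom_tgt hu)]; exact h0))
      with h | h
    · exact h1 (by rw [← h, co_ich (B.dom_tgt hu)])
    · exact h2 (by rw [← h, co_ich (B.dom_tgt hu)])
  set κ := Complex.orthonormalBasisOneI.repr with hκ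
  have hν := B.contDiffOn_nu hι hΨ hN
  have hev2 : Even (ind (fun z => B.nu N (B.u0 + κ z)) 0 (R / 2)) := by
    have hz : ∀ z ∈ B.region, z ∈ bad ι Ψ N → B.nu N (B.u0 + κ (κ.symm (co B.c z - B.u0))) = 0 :=
      fun z h1 h2 => by
        rw [LinearIsometryEquiv.apply_symm_apply, add_sub_cancel]
        exact (B.mem_bad_iff_nu hι h1).1 h2
    have hD : ∀ z : M, z ∈ B.region → z ∈ bad ι Ψ N →
        ∃ A : ℂ →L[ℝ] ℂ, Injective A ∧
          HasFDerivAt (fun w => B.nu N (B.u0 + κ w)) A (κ.symm (co B.c z - B.u0)) := by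
      intro z h1 h2
      refine ⟨(fderiv ℝ (B.nu N) (co B.c z)).comp (κ.toContinuousLinearEquiv : ℂ →L[ℝ] R2),
        ?_, ?_⟩
      · have h3 := hnd z h2
        rw [← ich_co h1.1, B.ND_iff_nu hι hΨ hN h1.2 ((B.mem_bad_iff_nu hι h1).1 h2)] at h3
        exact h3.comp κ.injective
      · have h4 : HasFDerivAt (B.nu N) (fderiv ℝ (B.nu N) (co B.c z))
            (B.u0 + κ (κ.symm (co B.c z - B.u0))) := by
          rw [LinearIsometryEquiv.apply_symm_apply, add_sub_cancel]
          exact ((hν.contDiffAt (isOpen_ball.mem_nhds h1.2)).differentiableAt (by simp)).hasFDerivAt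
        exact h4.comp (κ.symm (co B.c z - B.u0))
          (κ.toContinuousLinearEquiv.hasFDerivAt.const_add B.u0)
    obtain ⟨A₁, hA₁, d₁⟩ := hD x hx hxb
    obtain ⟨A₂, hA₂, d₂⟩ := hD y hy hyb
    refine even_ind_two ?_ ?_ ?_ ?_ ?_ (hz x hx hxb) (hz y hy hyb) hA₁ hA₂ d₁ d₂
    · intro h
      have := sub_left_injective (κ.symm.injective h)
      exact hxy (by rw [← ich_co hx.1, ← ich_co hy.1, this])
    · rwa [LinearIsometryEquiv.norm_map, ← dist_eq_norm]
    · rwa [LinearIsometryEquiv.norm_map, ← dist_eq_norm]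
    · refine hν.continuousOn.comp (by fun_prop) fun z hz' => ?_
      rw [mem_ball, dist_eq_norm, add_sub_cancel_left]
      erw [LinearIsometryEquiv.norm_map]
      exact mem_ball_zero_iff.1 hz'
    · intro z hz' h1 h2
      refine hne _ ?_ ?_ ?_
      · rw [mem_ball, dist_eq_norm, add_sub_cancel_left]
        erw [LinearIsometryEquiv.norm_map]
        exact mem_ball_zero_iff.1 hz'
      · intro h; apply h1; rw [← h, add_sub_cancel_left, LinearIsometryEquiv.symm_apply_apply]
      · intro h; apply h2; rw [← h, add_sub_cancel_left, LinearIsometryEquiv.symm_apply_apply]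
  have hfar : ∀ u ∈ B.dom, R / 4 < dist u B.u0 → B.nu N u ≠ 0 := fun u hu h =>
    hne u hu (fun e => by rw [e] at h; linarith) (fun e => by rw [e] at h; linarith)
  obtain ⟨P, yc, θ, hP, hyc, hθ, hq, hyθ, hout⟩ := exists_cancel_data hR0 hν hfar hev2
  set In := ball B.u0 (7 * R / 8) with hIn
  have hInsub : In ⊆ B.dom := ball_subset_ball (by linarith)
  set T : R2 → R2 × ℂ →L[ℝ] R4 := fun u => (fld ι Ψ B.c u).coprod B.K with hT
  set F' : R2 → R2 →L[ℝ] R4 := fun u =>
    if u ∈ In then (T u).comp (newCol (P u) (yc u)) else fld ι Ψ B.c u with hF'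
  set gN : R2 → R4 := fun u =>
    if u ∈ In then T u (newVec (P u) (yc u) (θ u) (B.tp N u)) else N (ich B.c u) with hgN
  have hFout : ∀ u ∈ B.dom, 3 * R / 4 < dist u B.u0 →
      F' u = fld ι Ψ B.c u ∧ gN u = N (ich B.c u) := by
    intro u hu hd
    by_cases h : u ∈ In
    · obtain ⟨h1, h2, h3⟩ := hout u h hd
      simp only [hF', hgN, if_pos h, h1]
      refine ⟨?_, ?_⟩
      · apply ContinuousLinearMap.ext; intro v; simp [hT, newCol_zero]
      · rw [← B.split_spec N hu, ← h3, h2]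
        simp [hT, newVec]
    · simp [hF', hgN, if_neg h]
  have hTs : ContDiffOn ℝ ∞ T B.dom := by
    have : T = fun u => (fld ι Ψ B.c u).comp (ContinuousLinearMap.fst ℝ R2 ℂ) +
        B.K.comp (ContinuousLinearMap.snd ℝ R2 ℂ) := by
      funext u; simp only [hT]; ext <;> simp
    rw [this]
    exact ((((contDiffOn_fld hι hΨ B.c).mono fun u hu => B.dom_tgt hu).clm_comp
      contDiffOn_const).add contDiffOn_const)
  have hsm : ∀ u ∈ B.dom, ContDiffAt ℝ ∞ F' u ∧ ContDiffAt ℝ ∞ gN u := by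
    intro u hu
    by_cases h : u ∈ In
    · have hPu := hP.contDiffAt (isOpen_ball.mem_nhds h)
      have hTu := hTs.contDiffAt (isOpen_ball.mem_nhds hu)
      refine ⟨?_, ?_⟩
      · refine (hTu.clm_comp (contDiffAt_formula hPu hyc.contDiffAt (hq u h))).congr_of_eventuallyEq ?_
        filter_upwards [isOpen_ball.mem_nhds h] with z hz
        simp only [hF']
        rw [if_pos (show z ∈ In from hz)]
      · refine (hTu.clm_apply (contDiffAt_newVec hPu hyc.contDiffAt hθ.contDiffAt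
          ((B.contDiffOn_tp hι hΨ hN).contDiffAt (isOpen_ball.mem_nhds hu)))).congr_of_eventuallyEq ?_
        filter_upwards [isOpen_ball.mem_nhds h] with z hz
        simp only [hgN]
        rw [if_pos (show z ∈ In from hz)]
    · rw [hIn, mem_ball, not_lt] at h
      have ho : ∀ᶠ z in 𝓝 u, z ∈ B.dom ∧ 3 * R / 4 < dist z B.u0 :=
        Filter.Eventually.and (isOpen_ball.mem_nhds hu)
          ((continuous_id.dist continuous_const).continuousAt.eventually_const_lt
            (by show 3 * R / 4 < dist u B.u0; linarith))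
      exact ⟨((contDiffOn_fld hι hΨ B.c).contDiffAt ((Open.isOpen_tgt B.c).mem_nhds
          (B.dom_tgt hu))).congr_of_eventuallyEq (ho.mono fun z hz => (hFout z hz.1 hz.2).1),
        ((Open.contDiffOn_ich B.c hN).contDiffAt ((Open.isOpen_tgt B.c).mem_nhds
          (B.dom_tgt hu))).congr_of_eventuallyEq (ho.mono fun z hz => (hFout z hz.1 hz.2).2)⟩
  set lp : R2 → Rn n →L[ℝ] R2 := fun u => ((B.P.comp (Jc ι B.c u)).inverse).comp B.P with hlp
  have hlpJ : ∀ u ∈ B.dom, ∀ v, lp u (Jc ι B.c u v) = v := by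
    intro u hu v
    obtain ⟨e, he⟩ := equiv_of_bij (B.bijP u (ball_subset_closedBall hu))
    show (B.P.comp (Jc ι B.c u)).inverse (B.P (Jc ι B.c u v)) = v
    rw [← ContinuousLinearMap.comp_apply B.P, ← he, ContinuousLinearMap.inverse_equiv]
    exact e.symm_apply_apply v
  have hlps : ContDiffOn ℝ ∞ lp B.dom := by
    intro u hu
    obtain ⟨e, he⟩ := equiv_of_bij (B.bijP u (ball_subset_closedBall hu))
    have hi := contDiffAt_map_inverse (n := ∞) e
    rw [he] at hi
    have hJ : ContDiffAt ℝ ∞ (fun z => B.P.comp (Jc ι B.c z)) u := (contDiffAt_const (c := B.P)).clm_comp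
      ((contDiffOn_Jc hι B.c).contDiffAt ((Open.isOpen_tgt B.c).mem_nhds (B.dom_tgt hu)))
    exact ((hi.comp u hJ).clm_comp (contDiffAt_const (c := B.P))).contDiffWithinAt
  set gΨ : R2 → Rn n →L[ℝ] R4 := fun u =>
    Ψ (ich B.c u) + (F' u - fld ι Ψ B.c u).comp (lp u) with hgΨ
  have hgΨs : ContDiffOn ℝ ∞ gΨ B.dom :=
    ((Open.contDiffOn_ich B.c hΨ).mono fun u hu => B.dom_tgt hu).add
      (ContDiffOn.clm_comp (ContDiffOn.sub (fun u hu => (hsm u hu).1.contDiffWithinAt)
        ((contDiffOn_fld hι hΨ B.c).mono fun u hu => B.dom_tgt hu)) hlps)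
  set r := 3 * R / 4 with hr
  have hrR : r < B.R := by linarith
  have hΨout : ∀ u ∈ B.dom, u ∉ closedBall B.u0 r → gΨ u = Ψ (ich B.c u) := fun u hu h => by
    simp [hgΨ, (hFout u hu (not_le.1 fun h' => h (mem_closedBall.2 h'))).1]
  have hNout : ∀ u ∈ B.dom, u ∉ closedBall B.u0 r → gN u = N (ich B.c u) := fun u hu h =>
    (hFout u hu (not_le.1 fun h' => h (mem_closedBall.2 h'))).2
  set Ψ' := B.patch Ψ gΨ with hΨ'
  set N' := B.patch N gN with hN'
  have hΨ's : ContMDiff (𝓡 2) 𝓘(ℝ, Rn n →L[ℝ] R4) ∞ Ψ' := B.contMDiff_patch hΨ hgΨs hrR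
    fun u hu hd => hΨout u hu fun h => absurd (mem_closedBall.1 h) (not_le.2 hd)
  have hN's : ContMDiff (𝓡 2) 𝓘(ℝ, R4) ∞ N' := B.contMDiff_patch hN
    (fun u hu => (hsm u hu).2.contDiffWithinAt) hrR
    fun u hu hd => hNout u hu fun h => absurd (mem_closedBall.1 h) (not_le.2 hd)
  have hfld : ∀ u ∈ B.dom, fld ι Ψ' B.c u = F' u := fun u hu => by
    apply ContinuousLinearMap.ext; intro v
    show Ψ' (ich B.c u) (Jc ι B.c u v) = F' u v
    rw [hΨ', B.patch_ich Ψ gΨ hu]
    simp [hgΨ, hlpJ u hu v, fld]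
  have hnorange : ∀ u ∈ B.dom, Injective (F' u) ∧
      ((u ≠ co B.c x ∧ u ≠ co B.c y) ∨ u ∈ In) ∧ ∀ w, F' u w ≠ gN u := by
    intro u hu
    by_cases h : u ∈ In
    · have hb := (B.bij u (ball_subset_closedBall hu)).1
      refine ⟨?_, Or.inr h, fun w hw => ?_⟩
      · simp only [hF', if_pos h, ContinuousLinearMap.coe_comp]
        exact hb.comp (newCol_injective (hq u h))
      · simp only [hF', hgN, if_pos h, ContinuousLinearMap.comp_apply] at hw
        exact newVec_not_range (hq u h) (hyθ u) w (hb hw)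
    · rw [hIn, mem_ball, not_lt] at h
      obtain ⟨h1, h2⟩ := hFout u hu (by linarith)
      refine ⟨?_, Or.inl ⟨fun e => by rw [e] at h; linarith, fun e => by rw [e] at h; linarith⟩,
        fun w hw => ?_⟩
      · rw [h1]
        have hxr := B.ich_mem_region hu
        have := (inj_iff hι hxr.1).1 (hinj (ich B.c u))
        rwa [co_ich (B.dom_tgt hu)] at this
      · rw [h1, h2, ← B.split_spec N hu] at hw
        exact hfar u hu (by linarith) (B.decomp_unique hu (z := 0) (a := w) (by simpa using hw)).2.symm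
  have hclose : ∀ z, (z ∈ B.region → co B.c z ∉ closedBall B.u0 r) →
      Ψ' =ᶠ[𝓝 z] Ψ ∧ N' =ᶠ[𝓝 z] N := fun z hz =>
    ⟨B.patch_eventuallyEq Ψ hrR isClosed_closedBall subset_rfl hΨout hz,
     B.patch_eventuallyEq N hrR isClosed_closedBall subset_rfl hNout hz⟩
  have hbad : bad ι Ψ' N' = bad ι Ψ N \ {x, y} := by
    ext z
    by_cases hz : z ∈ B.region
    · have h1 : z ∉ bad ι Ψ' N' := by
        rw [mem_bad_iff hι hz.1]
        rintro ⟨w, hw⟩
        rw [hfld _ hz.2, hN', B.patch_of_mem N gN hz] at hw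
        exact (hnorange _ hz.2).2.2 w hw
      simp only [h1, false_iff, Set.mem_sdiff, mem_insert_iff, mem_singleton_iff, not_and, not_not]
      exact honly z hz
    · obtain ⟨h1, h2⟩ := hclose z fun h => absurd h hz
      have hne' : z ∉ ({x, y} : Set M) := by
        rintro (rfl | rfl)
        · exact hz hx
        · exact hz hy
      simp only [bad, Set.mem_sdiff, hne', mem_ofPred_eq, h1.eq_of_nhds, h2.eq_of_nhds,
        not_false_eq_true, and_true]
  refine ⟨Ψ', N', ⟨hΨ's, hN's, fun z => ?_, ?_, ?_, ?_⟩, hbad⟩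
  · by_cases hz : z ∈ B.region
    · rw [inj_iff hι hz.1, hfld _ hz.2]
      exact (hnorange _ hz.2).1
    · rw [(hclose z fun h => absurd h hz).1.eq_of_nhds]
      exact hinj z
  · rw [hbad]; exact hfin.sdiff
  · intro z hz
    rw [hbad] at hz
    have hzr : z ∈ B.region → False := fun h => by
      rcases honly z h hz.1 with e | e <;> exact hz.2 (by simp [e])
    obtain ⟨h1, h2⟩ := hclose z fun h => (hzr h).elim
    exact Ball.ND_congr h1 h2 (hnd z hz.1)
  · rw [hbad]
    exact even_delete hfin hev hxb hyb hxy (B.connectedComponent_eq hx hy)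

end Vale.Agent.P205.Full.Topo
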