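import Vale.Agent.P205.Full.Open.Chart
import Vale.Agent.P205.Full.Topo.Interface

/-!
# TOPO Moves 1: pairs `(Ψ, N)` read in charts, and the independence of nondegeneracy of the chart
-/

open scoped Manifold ContDiff Topology
open Function Set Filter

namespace Vale.Agent.P205.Full.Topo

open Open (ich tgt)

variable {M : Type} [TopologicalSpace M] [ChartedSpace R2 M] [IsManifold (𝓡 2) ∞ M] {n : ℕ}

/-- The chart map at `c`. -/
noncomputable abbrev co (c : M) : M → R2 := extChartAt (𝓡 2) c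

/-- The differential of `ι` in the chart at `c`. -/
noncomputable def Jc (ι : M → Rn n) (c : M) (u : R2) : R2 →L[ℝ] Rn n := fderiv ℝ (ι ∘ ich c) u

/-- `Ψ ∘ dι` in the chart at `c`. -/
noncomputable def fld (ι : M → Rn n) (Ψ : M → Rn n →L[ℝ] R4) (c : M) (u : R2) : R2 →L[ℝ] R4 :=
  (Ψ (ich c u)).comp (Jc ι c u)

/-- The equation `Ψ dι w = N` in the chart at `c`. -/
noncomputable def neqn (ι : M → Rn n) (Ψ : M → Rn n →L[ℝ] R4) (N : M → R4) (c : M)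
    (p : R2 × R2) : R4 :=
  fld ι Ψ c p.1 p.2 - N (ich c p.1)

/-- The points where `N` is tangent. -/
def bad (ι : M → Rn n) (Ψ : M → Rn n →L[ℝ] R4) (N : M → R4) : Set M :=
  {x | ∃ v : R2, Ψ x (dι ι x v) = N x}

/-- Nondegeneracy at `x`, in the chart at `c`. -/
def NDin (ι : M → Rn n) (Ψ : M → Rn n →L[ℝ] R4) (N : M → R4) (c x : M) : Prop :=
  ∀ w : R2, fld ι Ψ c (co c x) w = N x → Bijective (fderiv ℝ (neqn ι Ψ N c) (co c x, w))

/-- Nondegeneracy at `x`. -/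
def ND (ι : M → Rn n) (Ψ : M → Rn n →L[ℝ] R4) (N : M → R4) (x : M) : Prop := NDin ι Ψ N x x

/-- The state of the induction. -/
structure State (ι : M → Rn n) (Ψ : M → Rn n →L[ℝ] R4) (N : M → R4) : Prop where
  smoothΨ : ContMDiff (𝓡 2) 𝓘(ℝ, Rn n →L[ℝ] R4) ∞ Ψ
  smoothN : ContMDiff (𝓡 2) 𝓘(ℝ, R4) ∞ N
  inj : ∀ x, Injective fun v : R2 => Ψ x (dι ι x v)
  finite : (bad ι Ψ N).Finite
  nd : ∀ x ∈ bad ι Ψ N, ND ι Ψ N x
  even : ∀ S : Set M, IsClopen S → Even (bad ι Ψ N ∩ S).ncard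

lemma ich_co {c x : M} (hx : x ∈ (chartAt R2 c).source) : ich c (co c x) = x :=
  Open.ich_left_inv hx

lemma co_ich {c : M} {u : R2} (hu : u ∈ tgt c) : co c (ich c u) = u :=
  (extChartAt (𝓡 2) c).right_inv hu

lemma co_mem {c x : M} (hx : x ∈ (chartAt R2 c).source) : co c x ∈ tgt c :=
  (extChartAt (𝓡 2) c).map_source (by rwa [extChartAt_source])

variable {ι : M → Rn n}

lemma contDiffOn_Jc (hι : IsEmb ι) (c : M) : ContDiffOn ℝ ∞ (Jc ι c) (tgt c) :=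
  (Open.contDiffOn_ich c hι.smooth).fderiv_of_isOpen (Open.isOpen_tgt c) le_rfl

/-- In a chart, `dι` is the derivative of `ι ∘ chart⁻¹` after the chart's differential. -/
lemma dι_eq (hι : IsEmb ι) {c x : M} (hx : x ∈ (chartAt R2 c).source) :
    ∃ T : R2 →L[ℝ] R2, Bijective T ∧ ∀ v, dι ι x v = Jc ι c (co c x) (T v) := by
  have hd := hasMFDerivAt_extChartAt (I := 𝓡 2) hx
  have h4 := (Open.differentiableAt_ich (co_mem hx) hι.smooth).hasFDerivAt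
  have h5 := h4.hasMFDerivAt.comp x hd
  have h6 : ι =ᶠ[𝓝 x] (ι ∘ ich c) ∘ co c :=
    eventuallyEq_of_mem ((chartAt R2 c).open_source.mem_nhds hx) fun z hz => by
      simp only [Function.comp_apply]
      rw [ich_co hz]
  have h7 := (h5.congr_of_eventuallyEq h6).mfderiv
  refine ⟨(mfderiv (𝓡 2) 𝓘(ℝ, R2) (chartAt R2 c) x : R2 →L[ℝ] R2), ?_, fun v => ?_⟩
  · obtain ⟨e, he⟩ := isInvertible_mfderiv_extChartAt (I := 𝓡 2)
      (show x ∈ (extChartAt (𝓡 2) c).source by rwa [extChartAt_source])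
    have hee : (mfderiv (𝓡 2) 𝓘(ℝ, R2) (chartAt R2 c) x : R2 → R2) = fun v => e v := by
      rw [← hd.mfderiv]; funext v; exact congrFun (congrArg DFunLike.coe he.symm) v
    exact hee ▸ e.bijective
  · rw [dι, h7]
    rfl

lemma Jc_injective (hι : IsEmb ι) {c : M} {u : R2} (hu : u ∈ tgt c) : Injective (Jc ι c u) := by
  obtain ⟨T, hT, hTv⟩ := dι_eq hι (Open.ich_mem hu)
  rw [co_ich hu] at hTv
  intro a b hab
  obtain ⟨a, rfl⟩ := hT.2 a
  obtain ⟨b, rfl⟩ := hT.2 b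
  rw [← hTv, ← hTv] at hab
  rw [hι.imm _ hab]

lemma mem_bad_iff (hι : IsEmb ι) {Ψ : M → Rn n →L[ℝ] R4} {N : M → R4} {c x : M}
    (hx : x ∈ (chartAt R2 c).source) :
    x ∈ bad ι Ψ N ↔ ∃ w, fld ι Ψ c (co c x) w = N x := by
  obtain ⟨T, hT, hTv⟩ := dι_eq hι hx
  constructor
  · rintro ⟨v, hv⟩
    exact ⟨T v, by simpa [fld, ich_co hx, ← hTv] using hv⟩
  · rintro ⟨w, hw⟩
    obtain ⟨v, rfl⟩ := hT.2 w
    exact ⟨v, by simpa [fld, ich_co hx, ← hTv] using hw⟩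

lemma inj_iff (hι : IsEmb ι) {Ψ : M → Rn n →L[ℝ] R4} {c x : M}
    (hx : x ∈ (chartAt R2 c).source) :
    Injective (fun v : R2 => Ψ x (dι ι x v)) ↔ Injective (fld ι Ψ c (co c x)) := by
  obtain ⟨T, hT, hTv⟩ := dι_eq hι hx
  have : (fun v : R2 => Ψ x (dι ι x v)) = fld ι Ψ c (co c x) ∘ T := by
    funext v; simp [fld, ich_co hx, ← hTv]
  rw [this, Injective.of_comp_iff' _ hT]

lemma contDiffOn_fld (hι : IsEmb ι) {Ψ : M → Rn n →L[ℝ] R4}
    (hΨ : ContMDiff (𝓡 2) 𝓘(ℝ, Rn n →L[ℝ] R4) ∞ Ψ) (c : M) :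
    ContDiffOn ℝ ∞ (fld ι Ψ c) (tgt c) :=
  ((Open.contDiffOn_ich c hΨ).clm_comp (contDiffOn_Jc hι c)).congr fun _ _ => rfl

lemma contDiffOn_neqn (hι : IsEmb ι) {Ψ : M → Rn n →L[ℝ] R4} {N : M → R4}
    (hΨ : ContMDiff (𝓡 2) 𝓘(ℝ, Rn n →L[ℝ] R4) ∞ Ψ) (hN : ContMDiff (𝓡 2) 𝓘(ℝ, R4) ∞ N) (c : M) :
    ContDiffOn ℝ ∞ (neqn ι Ψ N c) (tgt c ×ˢ univ) := by
  have h1 := (contDiffOn_fld hι hΨ c).comp (contDiffOn_fst (s := tgt c ×ˢ (univ : Set R2)))
    fun p hp => hp.1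
  have h2 := (Open.contDiffOn_ich c hN).comp (contDiffOn_fst (s := tgt c ×ˢ (univ : Set R2)))
    fun p hp => hp.1
  exact ((h1.clm_apply contDiffOn_snd).sub h2).congr fun _ _ => rfl

/-- Nondegeneracy does not depend on the chart. -/
theorem NDin_change (hι : IsEmb ι) {Ψ : M → Rn n →L[ℝ] R4} {N : M → R4}
    (hΨ : ContMDiff (𝓡 2) 𝓘(ℝ, Rn n →L[ℝ] R4) ∞ Ψ) (hN : ContMDiff (𝓡 2) 𝓘(ℝ, R4) ∞ N)
    {c d x : M} (hc : x ∈ (chartAt R2 c).source) (hd : x ∈ (chartAt R2 d).source)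
    (h : NDin ι Ψ N c x) : NDin ι Ψ N d x := by
  set τ : R2 → R2 := co c ∘ ich d with hτ
  set W := tgt d ∩ ich d ⁻¹' (chartAt R2 c).source with hW
  have hWo : IsOpen W := (continuousOn_extChartAt_symm d).isOpen_inter_preimage
    (Open.isOpen_tgt d) (chartAt R2 c).open_source
  have hu : co d x ∈ W := ⟨co_mem hd, by simpa [ich_co hd] using hc⟩
  have hτs : ContDiffOn ℝ ∞ τ W := contMDiffOn_iff_contDiffOn.1
    ((contMDiffOn_extChartAt (I := 𝓡 2) (n := ∞) (x := c)).comp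
      ((contMDiffOn_extChartAt_symm d).mono inter_subset_left) fun y hy => hy.2)
  have hJ : ∀ y ∈ W, Jc ι d y = (Jc ι c (τ y)).comp (fderiv ℝ τ y) := by
    intro y hy
    have e : ι ∘ ich d =ᶠ[𝓝 y] (ι ∘ ich c) ∘ τ := eventuallyEq_of_mem (hWo.mem_nhds hy) fun z hz => by
      simp only [Function.comp_apply, hτ]
      rw [ich_co hz.2]
    rw [Jc, e.fderiv_eq, fderiv_comp (g := ι ∘ ich c) (f := τ) y (Open.differentiableAt_ich (co_mem hy.2) hι.smooth)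
      ((hτs.contDiffAt (hWo.mem_nhds hy)).differentiableAt (by simp))]
    rfl
  have hτd : ∀ y ∈ W, Bijective (fderiv ℝ τ y) := by
    intro y hy
    have hinj : Injective (fderiv ℝ τ y) := fun a b hab => Jc_injective hι hy.1 (by
      rw [hJ y hy, ContinuousLinearMap.comp_apply, ContinuousLinearMap.comp_apply, hab])
    exact ⟨hinj, (LinearMap.injective_iff_surjective (f := (fderiv ℝ τ y).toLinearMap)).1 hinj⟩
  intro w hw
  set m : R2 × R2 → R2 × R2 := fun p => (τ p.1, fderiv ℝ τ p.1 p.2) with hm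
  have hτu : τ (co d x) = co c x := by simp [hτ, ich_co hd]
  have heq : neqn ι Ψ N d =ᶠ[𝓝 (co d x, w)] neqn ι Ψ N c ∘ m := by
    refine eventuallyEq_of_mem ((hWo.prod isOpen_univ).mem_nhds ⟨hu, mem_univ w⟩) fun p hp => ?_
    have hy : ich c (τ p.1) = ich d p.1 := ich_co hp.1.2
    simp only [neqn, fld, hm, Function.comp_apply, hy, hJ _ hp.1, ContinuousLinearMap.comp_apply]
  have hτ2 : HasFDerivAt (fderiv ℝ τ) (fderiv ℝ (fderiv ℝ τ) (co d x)) (co d x) :=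
    (((hτs.fderiv_of_isOpen hWo (m := ∞) le_rfl).contDiffAt (hWo.mem_nhds hu)).differentiableAt
      (by simp)).hasFDerivAt
  have hτ1 : HasFDerivAt τ (fderiv ℝ τ (co d x)) (co d x) :=
    ((hτs.contDiffAt (hWo.mem_nhds hu)).differentiableAt (by simp)).hasFDerivAt
  have hc2 : HasFDerivAt (fun p : R2 × R2 => fderiv ℝ τ p.1)
      ((fderiv ℝ (fderiv ℝ τ) (co d x)).comp (ContinuousLinearMap.fst ℝ R2 R2)) (co d x, w) :=
    HasFDerivAt.comp (f := Prod.fst) (co d x, w) hτ2 hasFDerivAt_fst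
  have hc1 : HasFDerivAt (fun p : R2 × R2 => τ p.1)
      ((fderiv ℝ τ (co d x)).comp (ContinuousLinearMap.fst ℝ R2 R2)) (co d x, w) :=
    HasFDerivAt.comp (f := Prod.fst) (co d x, w) hτ1 hasFDerivAt_fst
  have hmd : HasFDerivAt m _ (co d x, w) := hc1.prodMk (hc2.clm_apply hasFDerivAt_snd)
  have hmw : fld ι Ψ c (co c x) (fderiv ℝ τ (co d x) w) = N x := by
    rw [← hw, ← hτu]
    simp only [fld, hJ _ hu, ContinuousLinearMap.comp_apply]
    rw [hτu, ich_co hc, ich_co hd]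
  have hb := h _ hmw
  have hd' : DifferentiableAt ℝ (neqn ι Ψ N c) (m (co d x, w)) := by
    refine ((contDiffOn_neqn hι hΨ hN c).contDiffAt
      (((Open.isOpen_tgt c).prod isOpen_univ).mem_nhds ⟨?_, mem_univ _⟩)).differentiableAt (by simp)
    show τ (co d x) ∈ tgt c
    rw [hτu]; exact co_mem hc
  have hme : m (co d x, w) = (co c x, fderiv ℝ τ (co d x) w) := by simp [hm, hτu]
  rw [heq.fderiv_eq, (hd'.hasFDerivAt.comp (co d x, w) hmd).fderiv, hme]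
  refine hb.comp ?_
  obtain ⟨hi, hs⟩ := hτd _ hu
  constructor
  · rintro ⟨a₁, a₂⟩ ⟨b₁, b₂⟩ hab
    change (fderiv ℝ τ (co d x) a₁, fderiv ℝ τ (co d x) a₂ + fderiv ℝ (fderiv ℝ τ) (co d x) a₁ w) =
      (fderiv ℝ τ (co d x) b₁, fderiv ℝ τ (co d x) b₂ + fderiv ℝ (fderiv ℝ τ) (co d x) b₁ w) at hab
    simp only [Prod.mk.injEq] at hab
    obtain rfl := hi hab.1
    exact Prod.ext rfl (hi (add_right_cancel hab.2))
  · rintro ⟨a, b⟩
    obtain ⟨a', rfl⟩ := hs a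
    obtain ⟨b', hb'⟩ := hs (b - fderiv ℝ (fderiv ℝ τ) (co d x) a' w)
    refine ⟨(a', b'), ?_⟩
    show (fderiv ℝ τ (co d x) a', fderiv ℝ τ (co d x) b' + fderiv ℝ (fderiv ℝ τ) (co d x) a' w) = _
    rw [hb', sub_add_cancel]

lemma ND_iff (hι : IsEmb ι) {Ψ : M → Rn n →L[ℝ] R4} {N : M → R4}
    (hΨ : ContMDiff (𝓡 2) 𝓘(ℝ, Rn n →L[ℝ] R4) ∞ Ψ) (hN : ContMDiff (𝓡 2) 𝓘(ℝ, R4) ∞ N)
    {c x : M} (hc : x ∈ (chartAt R2 c).source) : ND ι Ψ N x ↔ NDin ι Ψ N c x :=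
  ⟨NDin_change hι hΨ hN (mem_chart_source R2 x) hc, NDin_change hι hΨ hN hc (mem_chart_source R2 x)⟩

/-- The start of the induction. -/
lemma state_start (hι : IsEmb ι) {A : Rn n →L[ℝ] R4} (hA : Generic ι A) :
    State ι (fun _ => A) (fun _ => e4) where
  smoothΨ := contMDiff_const
  smoothN := contMDiff_const
  inj := hA.imm
  finite := hA.finite
  even := hA.even
  nd := by
    intro x _ w hw
    have hg : ∀ u ∈ tgt x, fderiv ℝ (gChart ι A x) u = fld ι (fun _ => A) x u := fun u hu =>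
      (A.hasFDerivAt.comp u (Open.differentiableAt_ich hu hι.smooth).hasFDerivAt).fderiv
    have hb := hA.nondeg x w (by rw [hg _ (co_mem (mem_chart_source R2 x))]; exact hw)
    have he : neqn ι (fun _ => A) (fun _ => e4) x =ᶠ[𝓝 (co x x, w)]
        fun p => fderiv ℝ (gChart ι A x) p.1 p.2 - e4 := by
      refine eventuallyEq_of_mem (((Open.isOpen_tgt x).prod isOpen_univ).mem_nhds
        ⟨co_mem (mem_chart_source R2 x), mem_univ w⟩) fun p hp => ?_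
      simp [neqn, hg p.1 hp.1]
    rw [he.fderiv_eq, fderiv_sub_const]
    exact hb

end Vale.Agent.P205.Full.Topo
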