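import Vale.Agent.P205.Full.Topo.MovesBall

/-!
# TOPO Moves 3: moving one zero inside a ball
-/

open scoped Manifold ContDiff Topology
open Function Set Filter Metric

namespace Vale.Agent.P205.Full.Topo

open Open (ich tgt)

variable {M : Type} [TopologicalSpace M] [ChartedSpace R2 M] [IsManifold (𝓡 2) ∞ M] {n : ℕ}
variable {ι : M → Rn n} {Ψ : M → Rn n →L[ℝ] R4} {N : M → R4}

/-- A fixed bump in the plane, with a Lipschitz bound. -/
lemma exists_unit_bump : ∃ χ : R2 → ℝ, ∃ L : ℝ, 0 < L ∧ ContDiff ℝ ∞ χ ∧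
    (∀ u, ‖u‖ ≤ 1 / 2 → χ u = 1) ∧ (∀ u, 1 ≤ ‖u‖ → χ u = 0) ∧
    ∀ u v, |χ u - χ v| ≤ L * ‖u - v‖ := by
  let b : ContDiffBump (0 : R2) := ⟨1 / 2, 1, by norm_num, by norm_num⟩
  obtain ⟨C, hC⟩ := (b.contDiff (n := 1)).lipschitzWith_of_hasCompactSupport b.hasCompactSupport
    (by norm_num)
  refine ⟨b, C + 1, by positivity, b.contDiff,
    fun u hu => b.one_of_mem_closedBall (mem_closedBall_zero_iff.2 hu),
    fun u hu => b.zero_of_le_dist (by simpa [dist_zero_right] using hu), fun u v => ?_⟩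
  have h := hC.dist_le_mul u v
  rw [Real.dist_eq, dist_eq_norm] at h
  nlinarith [norm_nonneg (u - v), C.2]

namespace Ball

variable (B : Ball ι Ψ)

lemma patch_eventuallyEq {E : Type} (f : M → E) {g : R2 → E} {r : ℝ} [T2Space M] (hr : r < B.R)
    {K : Set R2} (hK : IsClosed K) (hKr : K ⊆ closedBall B.u0 r)
    (h : ∀ u ∈ B.dom, u ∉ K → g u = f (ich B.c u)) {x : M}
    (hx : x ∈ B.region → co B.c x ∉ K) : B.patch f g =ᶠ[𝓝 x] f := by
  have hsub : ∀ u, u ∈ K → u ∈ B.dom := fun u hu => closedBall_subset_ball hr (hKr hu)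
  have himg : IsClosed (ich B.c '' K) :=
    (((isCompact_closedBall B.u0 r).of_isClosed_subset hK hKr).image_of_continuousOn
      ((continuousOn_extChartAt_symm B.c).mono fun u hu => B.dom_tgt (hsub u hu))).isClosed
  have hx' : x ∉ ich B.c '' K := by
    rintro ⟨u, hu, rfl⟩
    exact hx (B.ich_mem_region (hsub u hu)) (by rwa [co_ich (B.dom_tgt (hsub u hu))])
  refine eventuallyEq_of_mem (himg.isOpen_compl.mem_nhds hx') fun z hz => ?_
  by_cases hzr : z ∈ B.region
  · rw [B.patch_of_mem f g hzr, h _ hzr.2 fun hk => hz ⟨_, hk, ich_co hzr.1⟩, ich_co hzr.1]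
  · exact if_neg hzr

end Ball

/-- Parity is kept when a point is replaced by another one of the same component. -/
lemma even_replace {Z : Set M} (hZ : Z.Finite) (hev : ∀ S : Set M, IsClopen S → Even (Z ∩ S).ncard)
    {a b : M} (ha : a ∈ Z) (hb : b ∉ Z \ {a}) (hc : connectedComponent a = connectedComponent b)
    (S : Set M) (hS : IsClopen S) : Even (insert b (Z \ {a}) ∩ S).ncard := by
  have hab : a ∈ S ↔ b ∈ S := ⟨fun h => hS.connectedComponent_subset h (hc ▸ mem_connectedComponent),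
    fun h => hS.connectedComponent_subset h (hc ▸ mem_connectedComponent)⟩
  by_cases h : a ∈ S
  · have e1 : insert b (Z \ {a}) ∩ S = insert b ((Z ∩ S) \ {a}) := by
      ext x; simp only [mem_inter_iff, mem_insert_iff, Set.mem_sdiff, mem_singleton_iff]
      constructor
      · rintro ⟨rfl | ⟨h1, h2⟩, h3⟩
        · exact Or.inl rfl
        · exact Or.inr ⟨⟨h1, h3⟩, h2⟩
      · rintro (rfl | ⟨⟨h1, h3⟩, h2⟩)
        · exact ⟨Or.inl rfl, hab.1 h⟩
        · exact ⟨Or.inr ⟨h1, h2⟩, h3⟩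
    have hb' : b ∉ (Z ∩ S) \ {a} := fun h' => hb ⟨h'.1.1, h'.2⟩
    rw [e1, ncard_insert_of_notMem hb' ((hZ.inter_of_left S).sdiff),
      ncard_sdiff_singleton_add_one (s := Z ∩ S) (a := a) ⟨ha, h⟩ (hZ.inter_of_left S)]
    exact hev S hS
  · have e1 : insert b (Z \ {a}) ∩ S = Z ∩ S := by
      ext x; simp only [mem_inter_iff, mem_insert_iff, Set.mem_sdiff, mem_singleton_iff]
      constructor
      · rintro ⟨rfl | ⟨h1, -⟩, h3⟩
        · exact absurd (hab.2 h3) h
        · exact ⟨h1, h3⟩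
      · rintro ⟨h1, h3⟩
        exact ⟨Or.inr ⟨h1, fun e => h (e ▸ h3)⟩, h3⟩
    rw [e1]; exact hev S hS

/-- **One move.** The only zero in `closedBall a ρ` goes to any point `b` close enough to `a`,
with a closeness constant which does not depend on the data. -/
theorem exists_move [T2Space M] (hι : IsEmb ι) : ∃ C : ℝ, 1 ≤ C ∧ ∀ (Ψ : M → Rn n →L[ℝ] R4)
    (N : M → R4), State ι Ψ N → ∀ (B : Ball ι Ψ) (a b : R2) (ρ r : ℝ), r < B.R →
      closedBall a ρ ⊆ closedBall B.u0 r → B.nu N a = 0 →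
      (∀ u ∈ closedBall a ρ, B.nu N u = 0 → u = a) → C * ‖b - a‖ < ρ →
      ∃ N', State ι Ψ N' ∧
        bad ι Ψ N' = insert (ich B.c b) (bad ι Ψ N \ {ich B.c a}) := by
  obtain ⟨χ₀, L, hL, hχs, hχ1, hχ0, hχL⟩ := exists_unit_bump
  refine ⟨2 * L + 2, by linarith, fun Ψ N hst B a b ρ r hr hsub ha honly hb => ?_⟩
  obtain ⟨hΨ, hN, hinj, hfin, hnd, hev⟩ := hst
  have hρ : 0 < ρ := lt_of_le_of_lt (by positivity) hb
  have hv : ‖b - a‖ < ρ / 2 := by nlinarith [norm_nonneg (b - a)]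
  have hsd : closedBall a ρ ⊆ B.dom := hsub.trans (closedBall_subset_ball hr)
  have ha' : a ∈ B.dom := hsd (mem_closedBall_self hρ.le)
  have hb' : b ∈ closedBall a ρ := by rw [mem_closedBall, dist_eq_norm]; linarith
  set χ : R2 → ℝ := fun u => χ₀ (ρ⁻¹ • (u - a)) with hχ
  set φ : R2 → R2 := fun u => u + χ u • (a - b) with hφ
  have hχone : ∀ u, ‖u - a‖ ≤ ρ / 2 → χ u = 1 := fun u hu => hχ1 _ (by
    rw [norm_smul, norm_inv, Real.norm_eq_abs, abs_of_pos hρ, inv_mul_le_iff₀ hρ]; linarith)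
  have hχzero : ∀ u, u ∉ closedBall a ρ → χ u = 0 := fun u hu => hχ0 _ (by
    rw [mem_closedBall, dist_eq_norm, not_le] at hu
    rw [norm_smul, norm_inv, Real.norm_eq_abs, abs_of_pos hρ, le_inv_mul_iff₀ hρ]; linarith)
  have hφinj : Injective φ := by
    intro u w h
    have e : u - w = (χ w - χ u) • (a - b) := by
      simp only [hφ] at h; rw [sub_smul]; linear_combination (norm := abel) h
    have hk : |χ w - χ u| ≤ L * (ρ⁻¹ * ‖u - w‖) := by
      refine (hχL _ _).trans_eq ?_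
      rw [← smul_sub, norm_smul, norm_inv, Real.norm_eq_abs, abs_of_pos hρ, sub_sub_sub_cancel_right,
        norm_sub_rev]
    have hn : ‖u - w‖ ≤ L * (ρ⁻¹ * ‖u - w‖) * ‖b - a‖ := by
      conv_lhs => rw [e, norm_smul, Real.norm_eq_abs, norm_sub_rev a b]
      exact mul_le_mul_of_nonneg_right hk (norm_nonneg _)
    have hq : L * ρ⁻¹ * ‖b - a‖ < 1 := by
      rw [mul_comm L, mul_assoc, inv_mul_lt_iff₀ hρ]
      nlinarith [norm_nonneg (b - a)]
    have h0 : ‖u - w‖ = 0 := by nlinarith [norm_nonneg (u - w)]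
    exact sub_eq_zero.1 (norm_eq_zero.1 h0)
  have hφid : ∀ u, u ∉ closedBall a ρ → φ u = u := fun u hu => by simp [hφ, hχzero u hu]
  have hφmem : ∀ u ∈ closedBall a ρ, φ u ∈ closedBall a ρ := fun u hu => by
    by_contra h
    exact h ((hφinj (hφid _ h)).symm ▸ hu)
  have hφdom : ∀ u ∈ B.dom, φ u ∈ B.dom := fun u hu => by
    by_cases h : u ∈ closedBall a ρ
    · exact hsd (hφmem u h)
    · rwa [hφid u h]
  have hφb : φ b = a := by simp [hφ, hχone b hv.le]
  have hφs : ContDiff ℝ ∞ φ :=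
    contDiff_id.add (((hχs.comp ((contDiff_id.sub contDiff_const).const_smul ρ⁻¹))).smul contDiff_const)
  set g : R2 → R4 := fun u => fld ι Ψ B.c u (B.tp N u) + B.K (B.nu N (φ u)) with hg
  have hgs : ContDiffOn ℝ ∞ g B.dom :=
    (((contDiffOn_fld hι hΨ B.c).mono fun u hu => B.dom_tgt hu).clm_apply
      (B.contDiffOn_tp hι hΨ hN)).add
      (B.K.contDiff.comp_contDiffOn ((B.contDiffOn_nu hι hΨ hN).comp hφs.contDiffOn hφdom))
  have hgout : ∀ u ∈ B.dom, u ∉ closedBall a ρ → g u = N (ich B.c u) := fun u hu h => by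
    rw [hg]; simp only; rw [hφid u h, B.split_spec N hu]
  set N' := B.patch N g with hN'
  have hN's : ContMDiff (𝓡 2) 𝓘(ℝ, R4) ∞ N' := B.contMDiff_patch hN hgs hr
    fun u hu hd => hgout u hu fun h => absurd (mem_closedBall.1 (hsub h)) (not_le.2 hd)
  have hnu : ∀ u ∈ B.dom, B.nu N' u = B.nu N (φ u) := fun u hu => by
    have h1 := B.split_spec N' hu
    rw [hN', B.patch_ich N g hu] at h1
    exact (B.decomp_unique hu h1).2
  have hclose : ∀ x, (x ∈ B.region → co B.c x ∉ closedBall a ρ) → N' =ᶠ[𝓝 x] N := fun x hx =>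
    B.patch_eventuallyEq N hr isClosed_closedBall hsub hgout hx
  have hbad : bad ι Ψ N' = insert (ich B.c b) (bad ι Ψ N \ {ich B.c a}) := by
    ext x
    by_cases hx : x ∈ B.region ∧ co B.c x ∈ closedBall a ρ
    · obtain ⟨hx, hxb⟩ := hx
      rw [B.mem_bad_iff_nu hι hx, hnu _ hx.2, mem_insert_iff, Set.mem_sdiff, mem_singleton_iff,
        B.mem_bad_iff_nu hι hx]
      constructor
      · intro h
        have := hφinj ((honly _ (hφmem _ hxb) h).trans hφb.symm)
        exact Or.inl (by rw [← this, ich_co hx.1])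
      · rintro (rfl | ⟨h1, h2⟩)
        · rw [co_ich (B.dom_tgt (hsd hb')), hφb, ha]
        · exact absurd (by rw [← honly _ hxb h1, ich_co hx.1]) h2
    · rw [mem_insert_iff, Set.mem_sdiff, mem_singleton_iff]
      have he := (hclose x fun h1 h2 => hx ⟨h1, h2⟩).eq_of_nhds
      have hne : ∀ u ∈ closedBall a ρ, x ≠ ich B.c u := by
        rintro u hu rfl
        exact hx ⟨B.ich_mem_region (hsd hu), by rwa [co_ich (B.dom_tgt (hsd hu))]⟩
      simp only [bad, mem_ofPred_eq, he, hne b hb', hne a (mem_closedBall_self hρ.le), not_false_eq_true,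
        and_true, false_or]
  have hbadb : ich B.c b ∈ bad ι Ψ N' := by rw [hbad]; exact mem_insert _ _
  refine ⟨N', ⟨hΨ, hN's, hinj, ?_, ?_, ?_⟩, hbad⟩
  · rw [hbad]; exact (hfin.sdiff).insert _
  · intro x hx
    by_cases hx' : x ∈ B.region ∧ co B.c x ∈ closedBall a ρ
    · obtain ⟨hxr, hxb⟩ := hx'
      have hz := hx
      rw [B.mem_bad_iff_nu hι hxr, hnu _ hxr.2] at hz
      have hxe : co B.c x = b := hφinj ((honly _ (hφmem _ hxb) hz).trans hφb.symm)
      rw [← ich_co hxr.1, hxe]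
      have hbd : b ∈ B.dom := hsd hb'
      rw [B.ND_iff_nu hι hΨ hN's hbd (by rw [hnu b hbd, hφb, ha])]
      have hinjA : Injective (fderiv ℝ (B.nu N) a) :=
        (B.ND_iff_nu hι hΨ hN ha' ha).1 (hnd _ ((B.mem_bad_iff_nu hι (B.ich_mem_region ha')).2
          (by rw [co_ich (B.dom_tgt ha')]; exact ha)))
      have hloc : B.nu N' =ᶠ[𝓝 b] fun u => B.nu N (u + (a - b)) := by
        filter_upwards [isOpen_ball.mem_nhds hbd, (isOpen_ball (x := a) (ε := ρ / 2)).mem_nhds
          (show b ∈ ball a (ρ / 2) by rwa [mem_ball, dist_eq_norm])] with u hu hu'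
        rw [mem_ball, dist_eq_norm] at hu'
        rw [hnu u hu]
        simp [hφ, hχone u hu'.le]
      rw [hloc.fderiv_eq, fderiv_comp_add_right, add_sub_cancel]
      exact hinjA
    · have he := hclose x fun h1 h2 => hx' ⟨h1, h2⟩
      refine Ball.ND_congr EventuallyEq.rfl he (hnd x ?_)
      simp only [bad, mem_ofPred_eq, he.eq_of_nhds] at hx ⊢
      exact hx
  · rw [hbad]
    refine even_replace hfin hev ((B.mem_bad_iff_nu hι (B.ich_mem_region ha')).2
      (by rw [co_ich (B.dom_tgt ha')]; exact ha)) ?_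
      (B.connectedComponent_eq (B.ich_mem_region ha') (B.ich_mem_region (hsd hb')))
    rintro ⟨h1, h2⟩
    rw [B.mem_bad_iff_nu hι (B.ich_mem_region (hsd hb')), co_ich (B.dom_tgt (hsd hb'))] at h1
    exact h2 (by rw [honly b hb' h1]; rfl)

end Vale.Agent.P205.Full.Topo
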