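import Vale.Agent.P205.Full.Topo.Chords
import Vale.Agent.P205.Full.Topo.Patches

/-!
# P205 full, module TOPO: patches on pairs of points of the embedded surface
-/

open scoped Manifold ContDiff Topology
open Set Function Filter

namespace Vale.Agent.P205.Full.Topo

variable {M : Type} [TopologicalSpace M] [ChartedSpace R2 M] [IsManifold (𝓡 2) ∞ M]
  [T2Space M] [CompactSpace M] {n : ℕ} {ι : M → Rn n}

/-- The pairs of images of points of `S`. -/
def pairK (ι : M → Rn n) (S : Set M) : Set (Rn n × Rn n) :=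
  (fun p : M × M => (ι p.1, ι p.2)) '' (S ×ˢ S)

/-- `(L, c)` for the chord equation. -/
noncomputable def chordEq (A : Rn n →L[ℝ] R4) (s : ℝ) : ((Rn n × Rn n) →L[ℝ] R4) × R4 :=
  (A.comp (.fst ℝ (Rn n) (Rn n)) - A.comp (.snd ℝ (Rn n) (Rn n)), s • e4)

omit [ChartedSpace R2 M] [IsManifold (𝓡 2) ∞ M] [T2Space M] in
lemma continuousOn_invFun [Nonempty M] (hc : Continuous ι) (hinj : Injective ι) :
    ContinuousOn (invFun ι) (range ι) := by
  refine continuousOn_iff_isClosed.2 fun t ht => ⟨ι '' t, (ht.isCompact.image hc).isClosed, ?_⟩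
  ext p
  simp only [mem_inter_iff, mem_preimage, mem_image, mem_range]
  constructor
  · rintro ⟨h, x, rfl⟩
    rw [leftInverse_invFun hinj x] at h
    exact ⟨⟨x, h, rfl⟩, x, rfl⟩
  · rintro ⟨⟨x, hx, rfl⟩, -⟩
    exact ⟨by rwa [leftInverse_invFun hinj x], x, rfl⟩

theorem exists_patches (hι : IsEmb ι) (A : Rn n →L[ℝ] R4) {S : Set M} (hS : IsClopen S) :
    ∃ (κ : Type) (_ : Finite κ) (P : κ → Patch (pairK ι S)),
      (∀ p ∈ pairK ι S, ∃ i, p ∈ (P i).W) ∧ ∀ s : ℝ,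
      (∀ x ∈ S, ∀ y ∈ S, IsChord ι A s (x, y) → TrInj ι A x y) → Reg P (chordEq A s) := by
  classical
  obtain ⟨C, -, hC⟩ := isCompact_univ.elim_nhds_subcover
    (fun x : M => (extChartAt (𝓡 2) x).source) fun x _ => extChartAt_source_mem_nhds x
  let π : R4 ≃L[ℝ] R2 × R2 := ContinuousLinearEquiv.ofFinrankEq (by simp)
  have hO : ∀ c : M, ∃ O : Set (Rn n), IsOpen O ∧
      ι ⁻¹' O = (extChartAt (𝓡 2) c).source ∩ S := fun c =>
    (hι.smooth.continuous.isClosedEmbedding hι.inj).isInducing.isOpen_iff.1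
      ((isOpen_extChartAt_source c).inter hS.isOpen)
  choose O hOo hOeq using hO
  have mkP : ∀ i : {x // x ∈ C} × {x // x ∈ C}, ∃ P : Patch (pairK ι S),
      P.W = O i.1.1 ×ˢ O i.2.1 ∧
      P.U = π ⁻¹' (((extChartAt (𝓡 2) i.1.1).target ∩ (extChartAt (𝓡 2) i.1.1).symm ⁻¹' S) ×ˢ
        ((extChartAt (𝓡 2) i.2.1).target ∩ (extChartAt (𝓡 2) i.2.1).symm ⁻¹' S)) ∧
      P.ψ = fun u => (ic ι i.1.1 (π u).1, ic ι i.2.1 (π u).2) := by
    rintro ⟨⟨c, hc⟩, ⟨c', hc'⟩⟩
    have : Nonempty M := ⟨c⟩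
    have hmem : ∀ x : M, x ∈ (extChartAt (𝓡 2) c).source ∩ S ↔ ι x ∈ O c := fun x => by
      rw [← hOeq c]; rfl
    have hmem' : ∀ x : M, x ∈ (extChartAt (𝓡 2) c').source ∩ S ↔ ι x ∈ O c' := fun x => by
      rw [← hOeq c']; rfl
    refine ⟨⟨π ⁻¹' (((extChartAt (𝓡 2) c).target ∩ (extChartAt (𝓡 2) c).symm ⁻¹' S) ×ˢ
        ((extChartAt (𝓡 2) c').target ∩ (extChartAt (𝓡 2) c').symm ⁻¹' S)), ?_,
      fun u => (ic ι c (π u).1, ic ι c' (π u).2), ?_, ?_, O c ×ˢ O c', (hOo c).prod (hOo c'),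
      fun p => π.symm (extChartAt (𝓡 2) c (invFun ι p.1), extChartAt (𝓡 2) c' (invFun ι p.2)),
      ?_, ?_, ?_, ?_, ?_⟩, rfl, rfl, rfl⟩
    · exact (((continuousOn_extChartAt_symm c).isOpen_inter_preimage (isOpen_extChartAt_target c)
        hS.isOpen).prod ((continuousOn_extChartAt_symm c').isOpen_inter_preimage
          (isOpen_extChartAt_target c') hS.isOpen)).preimage π.continuous
    · exact ((contDiffOn_ic hι c).comp (contDiff_fst.comp π.contDiff).contDiffOn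
        fun u hu => hu.1.1).prodMk ((contDiffOn_ic hι c').comp
          (contDiff_snd.comp π.contDiff).contDiffOn fun u hu => hu.2.1)
    · intro u hu
      have d1 : HasFDerivAt (ic ι c) (fderiv ℝ (ic ι c) (π u).1) (π u).1 :=
        (((contDiffOn_ic hι c).differentiableOn (by simp)).differentiableAt
          ((isOpen_extChartAt_target c).mem_nhds hu.1.1)).hasFDerivAt
      have d2 : HasFDerivAt (ic ι c') (fderiv ℝ (ic ι c') (π u).2) (π u).2 :=
        (((contDiffOn_ic hι c').differentiableOn (by simp)).differentiableAt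
          ((isOpen_extChartAt_target c').mem_nhds hu.2.1)).hasFDerivAt
      have hπ : HasFDerivAt π (π : R4 →L[ℝ] R2 × R2) u := π.hasFDerivAt
      have d3 : HasFDerivAt (fun u => (ic ι c (π u).1, ic ι c' (π u).2)) _ u :=
        (HasFDerivAt.comp (g := ic ι c) (f := fun u => (π u).1) u d1 hπ.fst).prodMk
          (HasFDerivAt.comp (g := ic ι c') (f := fun u => (π u).2) u d2 hπ.snd)
      rw [d3.fderiv]
      intro a b hab
      have h1 := injective_fderiv_ic hι c hu.1.1 (congrArg Prod.fst hab)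
      have h2 := injective_fderiv_ic hι c' hu.2.1 (congrArg Prod.snd hab)
      exact π.injective (Prod.ext h1 h2)
    · refine π.symm.continuous.comp_continuousOn (ContinuousOn.prodMk ?_ ?_)
      · refine (continuousOn_extChartAt c).comp
          ((continuousOn_invFun hι.smooth.continuous hι.inj).comp continuousOn_fst ?_) ?_
        · rintro _ ⟨⟨q, -, rfl⟩, -⟩
          exact mem_range_self _
        · rintro _ ⟨⟨q, -, rfl⟩, hq⟩
          simp only [leftInverse_invFun hι.inj q.1]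
          exact ((hmem q.1).2 hq.1).1
      · refine (continuousOn_extChartAt c').comp
          ((continuousOn_invFun hι.smooth.continuous hι.inj).comp continuousOn_snd ?_) ?_
        · rintro _ ⟨⟨q, -, rfl⟩, -⟩
          exact mem_range_self _
        · rintro _ ⟨⟨q, -, rfl⟩, hq⟩
          simp only [leftInverse_invFun hι.inj q.2]
          exact ((hmem' q.2).2 hq.2).1
    · intro u hu
      exact ⟨⟨((extChartAt (𝓡 2) c).symm (π u).1, (extChartAt (𝓡 2) c').symm (π u).2),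
        ⟨hu.1.2, hu.2.2⟩, rfl⟩, (hmem _).1 ⟨(extChartAt (𝓡 2) c).map_target hu.1.1, hu.1.2⟩,
        (hmem' _).1 ⟨(extChartAt (𝓡 2) c').map_target hu.2.1, hu.2.2⟩⟩
    · rintro _ ⟨⟨⟨x, y⟩, -, rfl⟩, hq⟩
      have hx := (hmem x).2 hq.1
      have hy := (hmem' y).2 hq.2
      simp only [mem_preimage, ContinuousLinearEquiv.apply_symm_apply, mem_prod, mem_inter_iff,
        leftInverse_invFun hι.inj x, leftInverse_invFun hι.inj y]
      refine ⟨⟨(extChartAt (𝓡 2) c).map_source hx.1, ?_⟩,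
        (extChartAt (𝓡 2) c').map_source hy.1, ?_⟩
      · rw [(extChartAt (𝓡 2) c).left_inv hx.1]; exact hx.2
      · rw [(extChartAt (𝓡 2) c').left_inv hy.1]; exact hy.2
    · intro u hu
      simp only [ic, leftInverse_invFun hι.inj _, (extChartAt (𝓡 2) c).right_inv hu.1.1,
        (extChartAt (𝓡 2) c').right_inv hu.2.1, Prod.mk.eta, ContinuousLinearEquiv.symm_apply_apply]
    · rintro _ ⟨⟨⟨x, y⟩, -, rfl⟩, hq⟩
      have hx := (hmem x).2 hq.1
      have hy := (hmem' y).2 hq.2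
      simp only [ic, ContinuousLinearEquiv.apply_symm_apply, leftInverse_invFun hι.inj x,
        leftInverse_invFun hι.inj y, (extChartAt (𝓡 2) c).left_inv hx.1,
        (extChartAt (𝓡 2) c').left_inv hy.1]
  choose P hPW hPU hPψ using mkP
  refine ⟨_, inferInstance, P, ?_, fun s hs i u hu h0 => ?_⟩
  · rintro _ ⟨⟨x, y⟩, ⟨hx, hy⟩, rfl⟩
    obtain ⟨c, hc, hxc⟩ : ∃ c ∈ C, x ∈ (extChartAt (𝓡 2) c).source := by simpa using hC (mem_univ x)
    obtain ⟨c', hc', hyc⟩ : ∃ c ∈ C, y ∈ (extChartAt (𝓡 2) c).source := by simpa using hC (mem_univ y)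
    refine ⟨(⟨c, hc⟩, ⟨c', hc'⟩), ?_⟩
    rw [hPW]
    exact ⟨(hOeq c ▸ (⟨hxc, hx⟩ : x ∈ (extChartAt (𝓡 2) c).source ∩ S) : x ∈ ι ⁻¹' O c),
      (hOeq c' ▸ (⟨hyc, hy⟩ : y ∈ (extChartAt (𝓡 2) c').source ∩ S) : y ∈ ι ⁻¹' O c')⟩
  obtain ⟨⟨c, hc⟩, ⟨c', hc'⟩⟩ := i
  rw [hPU] at hu
  set x := (extChartAt (𝓡 2) c).symm (π u).1
  set y := (extChartAt (𝓡 2) c').symm (π u).2
  have heqn : fibEqn P (chordEq A s) (⟨c, hc⟩, ⟨c', hc'⟩) =
      fun u => gChart ι A c (π u).1 - gChart ι A c' (π u).2 - s • e4 := by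
    funext v
    simp only [fibEqn, hPψ]
    rfl
  have hchord : IsChord ι A s (x, y) := by
    rw [heqn] at h0
    exact sub_eq_zero.1 h0
  have ht := hs x hu.1.2 y hu.2.2 hchord
  rw [heqn]
  have d1 : HasFDerivAt (gChart ι A c) (fderiv ℝ (gChart ι A c) (π u).1) (π u).1 :=
    (((contDiffOn_gChart A hι c).differentiableOn (by simp)).differentiableAt
      ((isOpen_extChartAt_target c).mem_nhds hu.1.1)).hasFDerivAt
  have d2 : HasFDerivAt (gChart ι A c') (fderiv ℝ (gChart ι A c') (π u).2) (π u).2 :=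
    (((contDiffOn_gChart A hι c').differentiableOn (by simp)).differentiableAt
      ((isOpen_extChartAt_target c').mem_nhds hu.2.1)).hasFDerivAt
  have hπ : HasFDerivAt π (π : R4 →L[ℝ] R2 × R2) u := π.hasFDerivAt
  have d3 : HasFDerivAt (fun u => gChart ι A c (π u).1 - gChart ι A c' (π u).2 - s • e4) _ u :=
    ((HasFDerivAt.comp (g := gChart ι A c) (f := fun u => (π u).1) u d1 hπ.fst).sub
      (HasFDerivAt.comp (g := gChart ι A c') (f := fun u => (π u).2) u d2 hπ.snd)).sub_const _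
  rw [d3.fderiv]
  obtain ⟨T1, hT1, h1⟩ := fderiv_ic hι c hu.1.1
  obtain ⟨T2, hT2, h2⟩ := fderiv_ic hι c' hu.2.1
  refine ⟨fun a b hab => ?_, LinearMap.injective_iff_surjective.1 fun a b hab => ?_⟩
  all_goals
    have h3 : fderiv ℝ (gChart ι A c) (π u).1 (π a).1 - fderiv ℝ (gChart ι A c') (π u).2 (π a).2 =
      fderiv ℝ (gChart ι A c) (π u).1 (π b).1 - fderiv ℝ (gChart ι A c') (π u).2 (π b).2 := hab
    rw [fderiv_gChart A hι c hu.1.1, fderiv_gChart A hι c hu.1.1, fderiv_gChart A hι c' hu.2.1,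
      fderiv_gChart A hι c' hu.2.1, h1, h1, h2, h2] at h3
    have h4 := ht (a₁ := (T1 (π a).1, T2 (π a).2)) (a₂ := (T1 (π b).1, T2 (π b).2)) h3
    rw [Prod.mk.injEq] at h4
    exact π.injective (Prod.ext (hT1.1 h4.1) (hT2.1 h4.2))

end Vale.Agent.P205.Full.Topo
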