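import Mathlib

/-!
# Winding numbers of periodic loops in `ℂ \ {0}` by lifting along `exp`
-/

open Complex Set Filter Topology
open scoped Real
attribute [local instance] Classical.propDecidable

namespace Vale.Agent.P205.Full.Topo

/-- Two continuous logarithms differ by a constant. -/
lemma log_unique {X : Type*} [TopologicalSpace X] [PreconnectedSpace X] {f g : X → ℂ}
    (hf : Continuous f) (hg : Continuous g) (h : ∀ x, exp (f x) = exp (g x)) (x y : X) :
    f x - g x = f y - g y := by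
  have hc : (range fun n : ℤ => (n : ℂ) * (2 * π * I)).Countable := countable_range _
  have hmaps : range (fun z => f z - g z) ⊆ range fun n : ℤ => (n : ℂ) * (2 * π * I) := by
    rintro _ ⟨z, rfl⟩
    obtain ⟨n, hn⟩ := Complex.exp_eq_exp_iff_exists_int.1 (h z)
    exact ⟨n, by simp [hn]⟩
  have hpre : IsPreconnected (range fun z => f z - g z) := isPreconnected_range (hf.sub hg)
  exact (hc.mono hmaps).isTotallyDisconnected _ subset_rfl hpre ⟨x, rfl⟩ ⟨y, rfl⟩

/-- A continuous nonvanishing function on a simply connected space has a continuous logarithm. -/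
lemma exists_log {X : Type*} [TopologicalSpace X] [SimplyConnectedSpace X]
    [LocallyPathConnectedSpace X] {g : X → ℂ} (hg : Continuous g) (h0 : ∀ x, g x ≠ 0) :
    ∃ f : X → ℂ, Continuous f ∧ ∀ x, exp (f x) = g x := by
  obtain ⟨x₀⟩ : Nonempty X := inferInstance
  obtain ⟨f, ⟨-, hf⟩, -⟩ := isCoveringMapOn_exp.existsUnique_continuousMap_lifts
    ⟨g, hg⟩ (exp_log (h0 x₀)) (fun x => h0 x)
  exact ⟨f, f.continuous, fun x => congrFun hf x⟩

/-- A periodic loop in `ℂ \ {0}`. -/
structure IsLoop (γ : ℝ → ℂ) : Prop where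
  cont : Continuous γ
  per : γ 1 = γ 0
  ne : ∀ t, γ t ≠ 0

/-- The winding number; `0` for functions which are not loops. -/
noncomputable def wind (γ : ℝ → ℂ) : ℤ :=
  if h : ∃ n : ℤ, ∃ L : ℝ → ℂ, Continuous L ∧ (∀ t, exp (L t) = γ t) ∧
      L 1 - L 0 = n * (2 * π * I) then h.choose else 0

lemma wind_eq {γ L : ℝ → ℂ} {n : ℤ} (hL : Continuous L) (hexp : ∀ t, exp (L t) = γ t)
    (hn : L 1 - L 0 = n * (2 * π * I)) : wind γ = n := by
  have h : ∃ n : ℤ, ∃ L : ℝ → ℂ, Continuous L ∧ (∀ t, exp (L t) = γ t) ∧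
      L 1 - L 0 = n * (2 * π * I) := ⟨n, L, hL, hexp, hn⟩
  rw [wind, dif_pos h]
  obtain ⟨L', hL', hexp', hn'⟩ := h.choose_spec
  have hu := log_unique hL' hL (fun t => (hexp' t).trans (hexp t).symm) 1 0
  have : ((h.choose : ℤ) : ℂ) * (2 * π * I) = (n : ℂ) * (2 * π * I) := by
    rw [← hn', ← hn]; linear_combination hu
  exact_mod_cast mul_right_cancel₀ Complex.two_pi_I_ne_zero this

lemma IsLoop.exists_lift {γ : ℝ → ℂ} (h : IsLoop γ) :
    ∃ L : ℝ → ℂ, Continuous L ∧ (∀ t, exp (L t) = γ t) ∧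
      L 1 - L 0 = (wind γ : ℂ) * (2 * π * I) := by
  obtain ⟨L, hL, hexp⟩ := exists_log h.cont h.ne
  obtain ⟨n, hn⟩ := Complex.exp_eq_exp_iff_exists_int.1
    (((hexp 1).trans h.per).trans (hexp 0).symm)
  have hn' : L 1 - L 0 = (n : ℂ) * (2 * π * I) := by rw [hn]; ring
  exact ⟨L, hL, hexp, by rw [wind_eq hL hexp hn', hn']⟩

lemma IsLoop.mul {γ δ : ℝ → ℂ} (h : IsLoop γ) (k : IsLoop δ) :
    IsLoop fun t => γ t * δ t :=
  ⟨h.cont.mul k.cont, by rw [h.per, k.per], fun t => mul_ne_zero (h.ne t) (k.ne t)⟩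

lemma wind_mul {γ δ : ℝ → ℂ} (h : IsLoop γ) (k : IsLoop δ) :
    wind (fun t => γ t * δ t) = wind γ + wind δ := by
  obtain ⟨L, hL, he, hd⟩ := h.exists_lift
  obtain ⟨L', hL', he', hd'⟩ := k.exists_lift
  refine wind_eq (L := fun t => L t + L' t) (hL.add hL') (fun t => ?_) ?_
  · rw [exp_add, he, he']
  · push_cast; linear_combination hd + hd'

lemma IsLoop.const {c : ℂ} (hc : c ≠ 0) : IsLoop fun _ => c :=
  ⟨continuous_const, rfl, fun _ => hc⟩

lemma wind_const {c : ℂ} (hc : c ≠ 0) : wind (fun _ => c) = 0 :=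
  wind_eq (L := fun _ => log c) continuous_const (fun _ => exp_log hc) (by simp)

lemma IsLoop.conj {γ : ℝ → ℂ} (h : IsLoop γ) : IsLoop fun t => (starRingEnd ℂ) (γ t) :=
  ⟨Complex.continuous_conj.comp h.cont, by rw [h.per], fun t => by simpa using h.ne t⟩

lemma wind_conj {γ : ℝ → ℂ} (h : IsLoop γ) :
    wind (fun t => (starRingEnd ℂ) (γ t)) = -wind γ := by
  obtain ⟨L, hL, he, hd⟩ := h.exists_lift
  refine wind_eq (L := fun t => (starRingEnd ℂ) (L t)) (Complex.continuous_conj.comp hL)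
    (fun t => ?_) ?_
  · rw [exp_conj, he]
  · rw [← map_sub, hd, map_mul, map_mul, map_mul, Complex.conj_I, map_intCast, Complex.conj_ofReal,
      map_ofNat]
    push_cast; ring

lemma IsLoop.zpow {γ : ℝ → ℂ} (h : IsLoop γ) (m : ℤ) : IsLoop fun t => γ t ^ m :=
  ⟨h.cont.zpow₀ m fun t => Or.inl (h.ne t), by rw [h.per], fun t => zpow_ne_zero m (h.ne t)⟩

lemma wind_zpow {γ : ℝ → ℂ} (h : IsLoop γ) (m : ℤ) :
    wind (fun t => γ t ^ m) = m * wind γ := by
  obtain ⟨L, hL, he, hd⟩ := h.exists_lift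
  refine wind_eq (L := fun t => (m : ℂ) * L t) (continuous_const.mul hL) (fun t => ?_) ?_
  · rw [exp_int_mul, he]
  · push_cast; linear_combination (m : ℂ) * hd

/-- Homotopic loops have the same winding number. -/
theorem wind_homotopy {H : ℝ → ℝ → ℂ}
    (hc : ContinuousOn (fun p : ℝ × ℝ => H p.1 p.2) (Icc 0 1 ×ˢ univ))
    (hper : ∀ s ∈ Icc (0 : ℝ) 1, H s 1 = H s 0) (hne : ∀ s ∈ Icc (0 : ℝ) 1, ∀ t, H s t ≠ 0) :
    wind (H 0) = wind (H 1) := by
  set c : ℝ → ℝ := fun s => max 0 (min 1 s) with hcdef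
  have hcI : ∀ s, c s ∈ Icc (0 : ℝ) 1 := fun s => ⟨le_max_left _ _, by simp [hcdef]⟩
  have hcc : Continuous c := by fun_prop
  have hG : Continuous fun p : ℝ × ℝ => H (c p.1) p.2 :=
    hc.comp_continuous ((hcc.comp continuous_fst).prodMk continuous_snd)
      fun p => ⟨hcI _, mem_univ _⟩
  obtain ⟨L, hL, hexp⟩ := exists_log hG fun p => hne _ (hcI _) _
  have hd := log_unique (f := fun s => L (s, 1)) (g := fun s => L (s, 0)) (by fun_prop)
    (by fun_prop) (fun s => by rw [hexp, hexp]; exact hper _ (hcI s)) 0 1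
  have e0 : c 0 = 0 := by simp [hcdef]
  have e1 : c 1 = 1 := by simp [hcdef]
  obtain ⟨n, hn⟩ := Complex.exp_eq_exp_iff_exists_int.1
    (show exp (L (0, 1)) = exp (L (0, 0)) by rw [hexp, hexp]; exact hper _ (hcI 0))
  have h0 : wind (H 0) = n := wind_eq (L := fun t => L (0, t)) (by fun_prop)
    (fun t => by rw [hexp]; simp [e0]) (by rw [hn]; ring)
  have h1 : wind (H 1) = n := wind_eq (L := fun t => L (1, t)) (by fun_prop)
    (fun t => by rw [hexp]; simp [e1]) (by rw [← hd, hn]; ring)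
  rw [h0, h1]

/-- The circle of centre `c` and radius `r`, parametrised by `[0,1]`. -/
noncomputable def circ (c : ℂ) (r : ℝ) (t : ℝ) : ℂ := c + r * exp ((2 * π * t : ℝ) * I)

lemma continuous_circ (c : ℂ) (r : ℝ) : Continuous (circ c r) := by unfold circ; fun_prop

lemma circ_per (c : ℂ) (r : ℝ) : circ c r 1 = circ c r 0 := by
  simp [circ, exp_two_pi_mul_I]

lemma norm_circ_sub (c : ℂ) (r t : ℝ) : ‖circ c r t - c‖ = |r| := by
  rw [circ, add_sub_cancel_left, norm_mul, Complex.norm_exp_ofReal_mul_I, Complex.norm_real,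
    Real.norm_eq_abs, mul_one]

lemma circ_mem_closedBall (c : ℂ) {r : ℝ} (hr : 0 ≤ r) (t : ℝ) :
    circ c r t ∈ Metric.closedBall c r := by
  rw [Metric.mem_closedBall, dist_eq_norm, norm_circ_sub, abs_of_nonneg hr]

lemma circ_mem_sphere (c : ℂ) {r : ℝ} (hr : 0 ≤ r) (t : ℝ) :
    circ c r t ∈ Metric.sphere c r := by
  rw [Metric.mem_sphere, dist_eq_norm, norm_circ_sub, abs_of_nonneg hr]

/-- Index of `s` along the circle `circ c r`. -/
noncomputable def ind (s : ℂ → ℂ) (c : ℂ) (r : ℝ) : ℤ := wind fun t => s (circ c r t)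

lemma isLoop_circ {s : ℂ → ℂ} {c : ℂ} {r : ℝ} (hr : 0 ≤ r)
    (hs : ContinuousOn s (Metric.sphere c r)) (h0 : ∀ z ∈ Metric.sphere c r, s z ≠ 0) :
    IsLoop fun t => s (circ c r t) :=
  ⟨hs.comp_continuous (continuous_circ c r) fun t => circ_mem_sphere c hr t,
    by simp [circ_per], fun t => h0 _ (circ_mem_sphere c hr t)⟩

lemma ind_congr {s s' : ℂ → ℂ} {c : ℂ} {r : ℝ} (hr : 0 ≤ r)
    (h : EqOn s s' (Metric.sphere c r)) : ind s c r = ind s' c r := by
  unfold ind; congr 1; funext t; exact h (circ_mem_sphere c hr t)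

/-- A map which extends without zero to the closed disc has index `0`. -/
lemma ind_eq_zero {s : ℂ → ℂ} {c : ℂ} {r : ℝ} (hr : 0 ≤ r)
    (hs : ContinuousOn s (Metric.closedBall c r))
    (h0 : ∀ z ∈ Metric.closedBall c r, s z ≠ 0) : ind s c r = 0 := by
  have hmem : ∀ u ∈ Icc (0 : ℝ) 1, ∀ t, circ c (u * r) t ∈ Metric.closedBall c r := by
    intro u hu t
    rw [Metric.mem_closedBall, dist_eq_norm, norm_circ_sub, abs_mul, abs_of_nonneg hu.1,
      abs_of_nonneg hr]
    exact mul_le_of_le_one_left hr hu.2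
  have := wind_homotopy (H := fun u t => s (circ c (u * r) t))
    (hs.comp (by unfold circ; fun_prop) fun p hp => hmem _ hp.1 _)
    (fun u _ => by simp [circ_per]) (fun u hu t => h0 _ (hmem u hu t))
  rw [ind]
  simp only [one_mul] at this
  rw [← this]
  have hc : (fun t => s (circ c (0 * r) t)) = fun _ => s c := by funext t; simp [circ]
  rw [hc, wind_const (h0 c (Metric.mem_closedBall_self hr))]

/-- Index of `z - q` along a circle around `q`. -/
lemma ind_sub_of_mem {q c : ℂ} {r : ℝ} (h : ‖q - c‖ < r) : ind (fun z => z - q) c r = 1 := by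
  have hr : 0 < r := (norm_nonneg _).trans_lt h
  have := wind_homotopy (H := fun u t => circ c r t - (c + (u : ℂ) * (q - c)))
    (by unfold circ; fun_prop) (fun u _ => by simp [circ_per]) (fun u hu t h0 => by
      have e : circ c r t - c = (u : ℂ) * (q - c) := by linear_combination h0
      have e' := congrArg norm e
      rw [norm_circ_sub, norm_mul, Complex.norm_real, Real.norm_eq_abs, abs_of_nonneg hu.1,
        abs_of_pos hr] at e'
      nlinarith [norm_nonneg (q - c), hu.2])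
  have e1 : (fun t => circ c r t - (c + ((1 : ℝ) : ℂ) * (q - c))) = fun t => circ c r t - q := by
    funext t; push_cast; ring
  rw [e1] at this
  rw [ind, ← this]
  refine wind_eq (L := fun t => (Real.log r : ℂ) + (2 * π * t : ℝ) * I) (by fun_prop)
    (fun t => ?_) ?_
  · rw [exp_add, ← ofReal_exp, Real.exp_log hr]; simp [circ]
  · push_cast; ring

/-- Index of `z - q` along a circle not enclosing `q`. -/
lemma ind_sub_of_not_mem {q c : ℂ} {r : ℝ} (hr : 0 ≤ r) (h : r < ‖q - c‖) :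
    ind (fun z => z - q) c r = 0 :=
  ind_eq_zero hr (by fun_prop) fun z hz h0 => by
    rw [Metric.mem_closedBall, dist_eq_norm] at hz
    rw [sub_eq_zero] at h0; subst h0; linarith

end Vale.Agent.P205.Full.Topo
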