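import Vale.Agent.P205.Full.Topo.Wind

/-!
# Local indices: a nondegenerate zero has index `±1`, and indices add over a disc
-/

open Complex Set Filter Topology Metric
open scoped Real ComplexConjugate

namespace Vale.Agent.P205.Full.Topo

/-- A loop with winding number `0` on a circle extends to the plane without zero. -/
lemma exists_fill {g : ℂ → ℂ} {c : ℂ} {r : ℝ} (hr : 0 < r)
    (hg : ContinuousOn g (sphere c r)) (h0 : ∀ z ∈ sphere c r, g z ≠ 0) (hi : ind g c r = 0) :
    ∃ G : ℂ → ℂ, Continuous G ∧ (∀ z, G z ≠ 0) ∧ EqOn G g (sphere c r) := by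
  classical
  have hl := isLoop_circ hr.le hg h0
  obtain ⟨L, hL, hexp, hd⟩ := hl.exists_lift
  have hw : wind (fun t => g (circ c r t)) = 0 := hi
  have h01 : L 1 = L 0 := by
    rw [hw] at hd; simpa [sub_eq_zero] using hd
  let S := sphere c r
  let f : Icc (0 : ℝ) 1 → S := fun t => ⟨circ c r t, circ_mem_sphere c hr.le _⟩
  have hf : Continuous f := ((continuous_circ c r).comp continuous_subtype_val).subtype_mk _
  have hsurj : Function.Surjective f := by
    rintro ⟨z, hz⟩
    have hz' : ‖(z - c) / r‖ = 1 := by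
      rw [norm_div, Complex.norm_real, Real.norm_eq_abs, abs_of_pos hr]
      rw [mem_sphere, dist_eq_norm] at hz
      rw [hz, div_self hr.ne']
    obtain ⟨θ, hθ⟩ := (Complex.norm_eq_one_iff _).1 hz'
    refine ⟨⟨Int.fract (θ / (2 * π)), Int.fract_nonneg _, (Int.fract_lt_one _).le⟩, Subtype.ext ?_⟩
    show circ c r (Int.fract (θ / (2 * π))) = z
    have hrc : (r : ℂ) ≠ 0 := ofReal_ne_zero.2 hr.ne'
    have hexp' : exp ((2 * π * Int.fract (θ / (2 * π)) : ℝ) * I) = exp (θ * I) := by
      rw [Complex.exp_eq_exp_iff_exists_int]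
      refine ⟨-⌊θ / (2 * π)⌋, ?_⟩
      rw [Int.fract]
      push_cast
      field_simp
      ring
    rw [circ, hexp', hθ]
    field_simp
    ring
  have hq : IsQuotientMap f := hf.isClosedMap.isQuotientMap hf hsurj
  have hfib : ∀ t t' : Icc (0 : ℝ) 1, f t = f t' → L t = L t' := by
    intro t t' h
    have h' : circ c r t = circ c r t' := congrArg Subtype.val h
    have hrc : (r : ℂ) ≠ 0 := ofReal_ne_zero.2 hr.ne'
    rw [circ, circ, add_right_inj, mul_right_inj' hrc, Complex.exp_eq_exp_iff_exists_int] at h'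
    obtain ⟨n, hn⟩ := h'
    have hn' : ((t : ℝ) : ℂ) = (t' : ℝ) + n := by
      have : ((2 * π * I : ℂ)) * ((t : ℝ) : ℂ) = 2 * π * I * ((t' : ℝ) + n) := by
        push_cast at hn; linear_combination hn
      exact mul_left_cancel₀ Complex.two_pi_I_ne_zero this
    have hn'' : (t : ℝ) = (t' : ℝ) + n := by exact_mod_cast hn'
    obtain ⟨t, ht⟩ := t
    obtain ⟨t', ht'⟩ := t'
    simp only at hn'' ⊢
    have hb : -1 ≤ n ∧ n ≤ 1 := by
      constructor
      · exact_mod_cast (by push_cast; linarith [ht.1, ht'.2] : ((-1 : ℤ) : ℝ) ≤ (n : ℝ))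
      · exact_mod_cast (by push_cast; linarith [ht.2, ht'.1] : (n : ℝ) ≤ ((1 : ℤ) : ℝ))
    obtain ⟨hb1, hb2⟩ := hb
    interval_cases n
    · obtain rfl : t = 0 := by norm_num at hn''; linarith [ht.1, ht'.2]
      obtain rfl : t' = 1 := by norm_num at hn''; linarith
      exact h01.symm
    · rw [hn'']; simp
    · obtain rfl : t' = 0 := by norm_num at hn''; linarith [ht.2, ht'.1]
      obtain rfl : t = 1 := by norm_num at hn''; linarith
      exact h01
  let ℓ : S → ℂ := fun z => L (hsurj z).choose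
  have hℓ : ℓ ∘ f = L ∘ Subtype.val := funext fun t => hfib _ _ (hsurj (f t)).choose_spec
  have hℓc : Continuous ℓ :=
    hq.continuous_iff.2 (by rw [hℓ]; exact hL.comp continuous_subtype_val)
  obtain ⟨E, hE⟩ := ContinuousMap.exists_restrict_eq (isClosed_sphere (x := c) (ε := r)) ⟨ℓ, hℓc⟩
  refine ⟨fun z => exp (E z), by fun_prop, fun z => exp_ne_zero _, fun z hz => ?_⟩
  have he : E z = ℓ ⟨z, hz⟩ := DFunLike.congr_fun hE ⟨z, hz⟩
  show exp (E z) = g z
  rw [he]
  show exp (L _) = g z
  rw [hexp]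
  exact congrArg g (congrArg Subtype.val (hsurj ⟨z, hz⟩).choose_spec)

/-- Index of a linear isomorphism. -/
lemma ind_linear (A : ℂ →L[ℝ] ℂ) (hA : Function.Injective A) (q : ℂ) {r : ℝ} (hr : 0 < r) :
    ind (fun z => A (z - q)) q r = 1 ∨ ind (fun z => A (z - q)) q r = -1 := by
  set a : ℂ := (A 1 - I * A I) / 2 with ha
  set b : ℂ := (A 1 + I * A I) / 2 with hb
  have hdec : ∀ z, A z = a * z + b * conj z := by
    intro z
    have hz : z = z.re • (1 : ℂ) + z.im • I := by simp [Complex.re_add_im]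
    have hl : A z = z.re • A 1 + z.im • A I := by
      conv_lhs => rw [hz, map_add, map_smul, map_smul]
    rw [hl, ha, hb, real_smul, real_smul]
    have hc : conj z = (z.re : ℂ) - z.im * I := by apply Complex.ext <;> simp
    have hzz : z = (z.re : ℂ) + z.im * I := (Complex.re_add_im z).symm
    rw [hc]
    nth_rw 3 [hzz]
    linear_combination ((z.im : ℂ) * A I) * Complex.I_mul_I
  have hne : ‖a‖ ≠ ‖b‖ := by
    intro h
    obtain ⟨z, hz, hAz⟩ : ∃ z : ℂ, z ≠ 0 ∧ A z = 0 := by
      by_cases hb0 : b = 0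
      · exact ⟨1, one_ne_zero, by
            have ha0 : a = 0 := norm_eq_zero.1 (by rw [h, hb0, norm_zero])
            rw [hdec, hb0, ha0]; simp⟩
      · have hw : ‖-a / b‖ = 1 := by rw [norm_div, norm_neg, h, div_self (norm_ne_zero_iff.2 hb0)]
        obtain ⟨θ, hθ⟩ := (Complex.norm_eq_one_iff _).1 hw
        refine ⟨exp ((-θ / 2 : ℝ) * I), exp_ne_zero _, ?_⟩
        have hc : conj (exp (((-θ / 2 : ℝ) : ℂ) * I)) = exp ((θ : ℂ) * I) * exp ((-θ / 2 : ℝ) * I) := by
          rw [← exp_conj, ← exp_add]; congr 1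
          rw [map_mul, conj_ofReal, conj_I]; push_cast; ring
        rw [hdec, hc, hθ]
        field_simp
        ring
    exact hz (hA (by rw [hAz, map_zero]))
  have key : ∀ a b : ℂ, ‖b‖ < ‖a‖ → ∀ δ : ℝ → ℂ, IsLoop δ →
      wind (fun t => a * δ t + b * conj (δ t)) = wind δ := by
    intro a b hab δ hδ
    have ha0 : a ≠ 0 := norm_pos_iff.1 ((norm_nonneg b).trans_lt hab)
    have := wind_homotopy (H := fun u t => a * δ t + (u : ℂ) * (b * conj (δ t)))
      (by
        apply Continuous.continuousOn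
        have := hδ.cont
        have hc := hδ.conj.cont
        fun_prop)
      (fun u _ => by simp [hδ.per]) (fun u hu t h0 => by
        have e := congrArg norm (eq_neg_of_add_eq_zero_left h0)
        rw [norm_neg, norm_mul, norm_mul, norm_mul, Complex.norm_real, Complex.norm_conj,
          Real.norm_eq_abs, abs_of_nonneg hu.1] at e
        have hd : 0 < ‖δ t‖ := norm_pos_iff.2 (hδ.ne t)
        nlinarith [norm_nonneg b, hu.2, mul_le_of_le_one_left (norm_nonneg b) hu.2])
    simp only [ofReal_zero, zero_mul, add_zero, ofReal_one, one_mul] at this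
    rw [← this, wind_mul (IsLoop.const ha0) hδ, wind_const ha0, zero_add]
  set δ : ℝ → ℂ := fun t => circ q r t - q with hδdef
  have hδ : IsLoop δ := isLoop_circ (s := fun z => z - q) hr.le (by fun_prop)
    fun z hz h0 => by rw [sub_eq_zero] at h0; subst h0; simp at hz; linarith
  have h1 : wind δ = 1 := ind_sub_of_mem (q := q) (c := q) (by simpa using hr)
  have hform : ind (fun z => A (z - q)) q r = wind fun t => a * δ t + b * conj (δ t) := by
    unfold ind; simp [hdec, hδdef]
  rcases lt_or_gt_of_ne hne with h | h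
  · right
    have := key b a h _ hδ.conj
    rw [wind_conj hδ, h1] at this
    rw [hform, ← this]; congr 1; funext t; simp; ring
  · left; rw [hform, key a b h δ hδ, h1]

/-- A nondegenerate zero is isolated and has index `±1`. -/
lemma ind_nondeg {s : ℂ → ℂ} {q : ℂ} {U : Set ℂ} (hU : U ∈ 𝓝 q) (hs : ContinuousOn s U)
    (h0 : s q = 0) {A : ℂ →L[ℝ] ℂ} (hA : Function.Injective A) (hd : HasFDerivAt s A q) :
    ∀ᶠ r in 𝓝[>] (0 : ℝ), (∀ z ∈ closedBall q r, z ≠ q → s z ≠ 0) ∧
      (ind s q r = 1 ∨ ind s q r = -1) := by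
  obtain ⟨K, hK, hK'⟩ := A.toLinearMap.exists_antilipschitzWith
    (LinearMap.ker_eq_bot.2 hA)
  have hKpos : (0 : ℝ) < K := hK
  have hlow : ∀ v, ‖v‖ ≤ K * ‖A v‖ := fun v => by
    simpa [dist_eq_norm] using hK'.le_mul_dist v 0
  have hsmall := hd.isLittleO.bound (show (0 : ℝ) < 1 / (2 * K) by positivity)
  obtain ⟨δ, hδ, hδ'⟩ := Metric.eventually_nhds_iff.1 (hsmall.and (Filter.eventually_of_mem hU fun z hz => hz))
  filter_upwards [Ioo_mem_nhdsGT hδ] with r hr
  have hb : ∀ z ∈ closedBall q r, ‖s z - A (z - q)‖ ≤ 1 / (2 * K) * ‖z - q‖ ∧ z ∈ U := by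
    intro z hz
    have := hδ' (show dist z q < δ from (mem_closedBall.1 hz).trans_lt hr.2)
    exact ⟨by simpa [h0] using this.1, this.2⟩
  have hne : ∀ u ∈ Icc (0 : ℝ) 1, ∀ z ∈ closedBall q r, z ≠ q →
      A (z - q) + (u : ℂ) * (s z - A (z - q)) ≠ 0 := by
    intro u hu z hz hzq h
    have e := congrArg norm (eq_neg_of_add_eq_zero_left h)
    rw [norm_neg, norm_mul, Complex.norm_real, Real.norm_eq_abs, abs_of_nonneg hu.1] at e
    have hp : 0 < ‖z - q‖ := norm_pos_iff.2 (sub_ne_zero.2 hzq)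
    have h1 : ‖A (z - q)‖ ≤ 1 / (2 * K) * ‖z - q‖ :=
      e ▸ ((mul_le_of_le_one_left (norm_nonneg _) hu.2).trans (hb z hz).1)
    have h2 := hlow (z - q)
    have h3 : (K : ℝ) * (1 / (2 * K) * ‖z - q‖) = ‖z - q‖ / 2 := by field_simp
    nlinarith [mul_le_mul_of_nonneg_left h1 hKpos.le]
  refine ⟨fun z hz hzq => by simpa using hne 1 (by simp) z hz hzq, ?_⟩
  have hcs : ContinuousOn (fun p : ℝ × ℝ => s (circ q r p.2)) (Icc 0 1 ×ˢ univ) :=
    hs.comp (by unfold circ; fun_prop) fun p _ =>
      (hb _ (circ_mem_closedBall q hr.1.le _)).2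
  have := wind_homotopy
    (H := fun u t => A (circ q r t - q) + (u : ℂ) * (s (circ q r t) - A (circ q r t - q)))
    (by
      have h1 : Continuous fun p : ℝ × ℝ => A (circ q r p.2 - q) := by unfold circ; fun_prop
      exact h1.continuousOn.add (((continuous_ofReal.comp continuous_fst).continuousOn).mul
        (hcs.sub h1.continuousOn)))
    (fun u _ => by simp [circ_per]) (fun u hu t => hne u hu _ (circ_mem_closedBall q hr.1.le _)
      fun h => by
        have := norm_circ_sub q r t; rw [h, sub_self, norm_zero] at this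
        linarith [abs_pos.2 hr.1.ne'])
  simp only [ofReal_one, one_mul, ofReal_zero, zero_mul, add_zero, add_sub_cancel] at this
  unfold ind
  rw [← this]
  exact ind_linear A hA q hr.1

/-- Indices of two zeros add up. -/
lemma ind_pair {s : ℂ → ℂ} {c a b : ℂ} {R ε : ℝ} (hε : 0 < ε) (hab : 2 * ε < ‖a - b‖)
    (ha : ‖a - c‖ + ε < R) (hb : ‖b - c‖ + ε < R) (hs : ContinuousOn s (closedBall c R))
    (h0 : ∀ z ∈ closedBall c R, z ≠ a → z ≠ b → s z ≠ 0) :
    ind s c R = ind s a ε + ind s b ε := by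
  have hR : 0 < R := by linarith [norm_nonneg (a - c)]
  set m := ind s a ε with hm
  set n := ind s b ε with hn
  set g : ℂ → ℂ := fun z => s z * ((z - a) ^ (-m) * (z - b) ^ (-n)) with hg
  set K : Set ℂ := closedBall c R \ (ball a ε ∪ ball b ε) with hK
  have hKne : ∀ z ∈ K, z - a ≠ 0 ∧ z - b ≠ 0 := fun z hz =>
    ⟨sub_ne_zero.2 fun h => hz.2 (Or.inl (by rw [h]; exact mem_ball_self hε)),
     sub_ne_zero.2 fun h => hz.2 (Or.inr (by rw [h]; exact mem_ball_self hε))⟩
  have hgc : ContinuousOn g K := (hs.mono sdiff_subset).mul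
    ((ContinuousOn.zpow₀ (by fun_prop) _ fun z hz => Or.inl (hKne z hz).1).mul
      (ContinuousOn.zpow₀ (by fun_prop) _ fun z hz => Or.inl (hKne z hz).2))
  have hg0 : ∀ z ∈ K, g z ≠ 0 := fun z hz => mul_ne_zero
    (h0 z hz.1 (sub_ne_zero.1 (hKne z hz).1) (sub_ne_zero.1 (hKne z hz).2))
    (mul_ne_zero (zpow_ne_zero _ (hKne z hz).1) (zpow_ne_zero _ (hKne z hz).2))
  have hindg : ∀ p r, 0 < r → sphere p r ⊆ K → ind g p r =
      ind s p r + (-m * ind (fun z => z - a) p r + -n * ind (fun z => z - b) p r) := by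
    intro p r hr hsub
    have l1 : IsLoop fun t => s (circ p r t) := isLoop_circ hr.le
      (hs.mono fun z hz => (hsub hz).1) fun z hz => h0 z (hsub hz).1
        (sub_ne_zero.1 (hKne z (hsub hz)).1) (sub_ne_zero.1 (hKne z (hsub hz)).2)
    have l2 : IsLoop fun t => circ p r t - a :=
      isLoop_circ (s := fun z => z - a) hr.le (by fun_prop) fun z hz => (hKne z (hsub hz)).1
    have l3 : IsLoop fun t => circ p r t - b :=
      isLoop_circ (s := fun z => z - b) hr.le (by fun_prop) fun z hz => (hKne z (hsub hz)).2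
    show wind (fun t => s (circ p r t) * ((circ p r t - a) ^ (-m) * (circ p r t - b) ^ (-n))) = _
    rw [wind_mul l1 ((l2.zpow _).mul (l3.zpow _)), wind_mul (l2.zpow _) (l3.zpow _),
      wind_zpow l2, wind_zpow l3]
    rfl
  have hsa : sphere a ε ⊆ K := fun z hz => by
    rw [mem_sphere, dist_eq_norm] at hz
    refine ⟨?_, ?_⟩
    · rw [mem_closedBall, dist_eq_norm]
      linarith [norm_sub_le_norm_sub_add_norm_sub z a c]
    · rintro (h | h) <;> rw [mem_ball, dist_eq_norm] at h
      · linarith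
      · linarith [norm_sub_le_norm_sub_add_norm_sub a z b, norm_sub_rev a z]
  have hsb : sphere b ε ⊆ K := fun z hz => by
    rw [mem_sphere, dist_eq_norm] at hz
    refine ⟨?_, ?_⟩
    · rw [mem_closedBall, dist_eq_norm]
      linarith [norm_sub_le_norm_sub_add_norm_sub z b c]
    · rintro (h | h) <;> rw [mem_ball, dist_eq_norm] at h
      · linarith [norm_sub_le_norm_sub_add_norm_sub b z a, norm_sub_rev b z, norm_sub_rev a b]
      · linarith
  have hsc : sphere c R ⊆ K := fun z hz => by
    refine ⟨sphere_subset_closedBall hz, ?_⟩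
    rw [mem_sphere, dist_eq_norm] at hz
    rintro (h | h) <;> rw [mem_ball, dist_eq_norm] at h
    · linarith [norm_sub_le_norm_sub_add_norm_sub z a c]
    · linarith [norm_sub_le_norm_sub_add_norm_sub z b c]
  have hba : ε < ‖b - a‖ := by rw [norm_sub_rev]; linarith
  have hia : ind g a ε = 0 := by
    rw [hindg a ε hε hsa, ind_sub_of_mem (by simpa using hε), ind_sub_of_not_mem hε.le hba]
    simp [hm]
  have hib : ind g b ε = 0 := by
    rw [hindg b ε hε hsb, ind_sub_of_mem (q := b) (by simpa using hε),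
      ind_sub_of_not_mem (q := a) hε.le (by linarith)]
    simp [hn]
  obtain ⟨Ga, hGa, hGa0, hGae⟩ := exists_fill hε (hgc.mono hsa) (fun z hz => hg0 z (hsa hz)) hia
  obtain ⟨Gb, hGb, hGb0, hGbe⟩ := exists_fill hε (hgc.mono hsb) (fun z hz => hg0 z (hsb hz)) hib
  classical
  set T : ℂ → ℂ := fun z =>
    if z ∈ closedBall a ε then Ga z else if z ∈ closedBall b ε then Gb z else g z with hT
  have hTa : EqOn T Ga (closedBall a ε) := fun z hz => by simp only [hT]; rw [if_pos hz]
  have hTb : EqOn T Gb (closedBall b ε) := fun z hz => by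
    have : z ∉ closedBall a ε := fun h => by
      rw [mem_closedBall, dist_eq_norm] at h hz
      linarith [norm_sub_le_norm_sub_add_norm_sub a z b, norm_sub_rev a z]
    simp only [hT]; rw [if_neg this, if_pos hz]
  have hTK : EqOn T g K := fun z hz => by
    by_cases h1 : z ∈ closedBall a ε
    · rw [hTa h1]
      exact hGae (le_antisymm (mem_closedBall.1 h1) (not_lt.1 fun h => hz.2 (Or.inl h)))
    · by_cases h2 : z ∈ closedBall b ε
      · rw [hTb h2]
        exact hGbe (le_antisymm (mem_closedBall.1 h2) (not_lt.1 fun h => hz.2 (Or.inr h)))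
      · simp only [hT]; rw [if_neg h1, if_neg h2]
  have hKcl : IsClosed K := isClosed_closedBall.sdiff (isOpen_ball.union isOpen_ball)
  have hTc : ContinuousOn T (closedBall c R) := by
    refine (((hGa.continuousOn.congr hTa).union_of_isClosed (hGb.continuousOn.congr hTb)
      isClosed_closedBall isClosed_closedBall).union_of_isClosed (hgc.congr hTK)
      (isClosed_closedBall.union isClosed_closedBall) hKcl).mono fun z hz => ?_
    by_cases h : z ∈ ball a ε ∪ ball b ε
    · exact Or.inl (h.imp (fun h => ball_subset_closedBall h) fun h => ball_subset_closedBall h)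
    · exact Or.inr ⟨hz, h⟩
  have hT0 : ∀ z ∈ closedBall c R, T z ≠ 0 := fun z hz => by
    by_cases h : z ∈ ball a ε ∪ ball b ε
    · rcases h with h | h
      · rw [hTa (ball_subset_closedBall h)]; exact hGa0 z
      · rw [hTb (ball_subset_closedBall h)]; exact hGb0 z
    · rw [hTK ⟨hz, h⟩]; exact hg0 z ⟨hz, h⟩
  have := hindg c R hR hsc
  rw [← ind_congr hR.le (hTK.mono hsc), ind_eq_zero hR.le hTc hT0,
    ind_sub_of_mem (q := a) (by linarith), ind_sub_of_mem (q := b) (by linarith)] at this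
  linarith

end Vale.Agent.P205.Full.Topo
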